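import Claimed.Agent.R257.End.Defs

/-!
# ROW 257 (S0497), ENDGAME, unit EG9: THE GAUSSIAN APPROXIMATE IDENTITY WITH UNIFORM LOCAL INTEGRALS          (architect helper194)          CONTRACT
Paper: H `endpoint.tex` l.374 `e:gaussian-local` = P `lem:endpoint-heat-envelope`.  `lintegral` form: no integrability side conditions.  Independent of all the other units.
`egHeat a y = (4πa)^{-n/2} exp(-|y|²/(4a))`.   `F ⋆ a (x) := ∫⁻ y, ofReal (egHeat a (x - y)) * F y`.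
-/

set_option autoImplicit false

namespace Claimed.Agent.R257

open MeasureTheory Filter Topology Metric Set
open scoped ENNReal

variable {n : ℕ}

theorem eg_heat_nonneg (a : ℝ) (ha : 0 < a) (y : EgV n) : 0 ≤ egHeat a y := by
  unfold egHeat
  positivity

/-- **LEAF L-257-EG9-HEAT.** -/
theorem eg_heat_cont (a : ℝ) : Continuous (egHeat a : EgV n → ℝ) := by
  unfold egHeat
  fun_prop

/-- **LEAF L-257-EG9-HEAT.**  `GaussianFourier.integrable_cexp_neg_mul_sq_norm_add` / `integral_cexp_neg_mul_sq_norm` (or `integral_rexp_neg_mul_sq_norm`) with `b = 1/(4a)`: `∫ exp(-b|y|²) = (π/b)^{n/2}`. -/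
theorem eg_heat_integral (a : ℝ) (ha : 0 < a) : Integrable (egHeat a : EgV n → ℝ) ∧ ∫ y : EgV n, egHeat a y = 1 := by
  have hb : 0 < 1 / (4 * a) := by positivity
  have hI := GaussianFourier.integral_rexp_neg_mul_sq_norm (V := EgV n) hb
  rw [finrank_euclideanSpace_fin] at hI
  have e0 : Real.pi / (1 / (4 * a)) = 4 * Real.pi * a := by
    field_simp
  rw [e0] at hI
  have hpos : 0 < 4 * Real.pi * a := by positivity
  have hint : Integrable fun v : EgV n => Real.exp (-(1 / (4 * a)) * ‖v‖ ^ 2) := by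
    refine not_imp_comm.1 integral_undef ?_
    rw [hI]
    exact (Real.rpow_pos_of_pos hpos _).ne'
  have e1 : (egHeat a : EgV n → ℝ) = fun v => (4 * Real.pi * a) ^ (-(n : ℝ) / 2) * Real.exp (-(1 / (4 * a)) * ‖v‖ ^ 2) := by
    funext v
    unfold egHeat
    congr 2
    field_simp
  rw [e1]
  refine ⟨hint.const_mul _, ?_⟩
  rw [integral_const_mul, hI, ← Real.rpow_add hpos]
  have : -(n : ℝ) / 2 + (n : ℝ) / 2 = 0 := by ring
  rw [this, Real.rpow_zero]

/-- **LEAF L-257-EG9-HEAT.**  `fourier_gaussian_innerProductSpace'` (or `GaussianFourier.integral_cexp_neg_mul_sq_norm_add`) after `y ↦ x - y`. -/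
theorem eg_heat_fourier (a : ℝ) (ha : 0 < a) (t : ℝ) (x η : EgV n) : ∫ y, (egHeat a (x - y) : ℂ) * egE 0 t y η = egE a t x η := by
  have hb : 0 < 1 / (4 * a) := by positivity
  have hpos : 0 < 4 * Real.pi * a := by positivity
  have key := GaussianFourier.integral_cexp_neg_mul_sq_norm_add (V := EgV n) (b := ((1 / (4 * a) : ℝ) : ℂ))
    (by rw [Complex.ofReal_re]; exact hb) (-(2 * Real.pi * Complex.I)) η
  rw [finrank_euclideanSpace_fin] at key
  have h1 : ∫ y, (egHeat a (x - y) : ℂ) * egE 0 t y η = ∫ v, (egHeat a v : ℂ) * egE 0 t (x - v) η := by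
    rw [← integral_sub_left_eq_self (fun v => (egHeat a v : ℂ) * egE 0 t (x - v) η) volume x]
    refine integral_congr_ae (Filter.Eventually.of_forall fun y => ?_)
    show _ = (egHeat a (x - y) : ℂ) * egE 0 t (x - (x - y)) η
    rw [sub_sub_cancel]
  have h2 : ∀ v : EgV n, (egHeat a v : ℂ) * egE 0 t (x - v) η
      = ((((4 * Real.pi * a) ^ (-(n : ℝ) / 2) : ℝ) : ℂ) * Complex.exp (2 * Real.pi * Complex.I * ((inner ℝ x η : ℝ) : ℂ)
          - 4 * (Real.pi : ℂ) ^ 2 * Complex.I * ((t * ‖η‖ ^ 2 : ℝ) : ℂ)))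
        * Complex.exp (-((1 / (4 * a) : ℝ) : ℂ) * (‖v‖ : ℂ) ^ 2 + -(2 * Real.pi * Complex.I) * ((inner ℝ η v : ℝ) : ℂ)) := by
    intro v
    unfold egHeat egE
    have aux : ∀ c p q r s : ℂ, p + q = r + s → c * Complex.exp p * Complex.exp q = c * Complex.exp r * Complex.exp s := by
      intro c p q r s h
      rw [mul_assoc, mul_assoc, ← Complex.exp_add, ← Complex.exp_add, h]
    rw [Complex.ofReal_mul, Complex.ofReal_exp]
    refine aux _ _ _ _ _ ?_
    rw [inner_sub_left, real_inner_comm η v]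
    push_cast
    field_simp
    ring
  rw [h1, integral_congr_ae (Filter.Eventually.of_forall h2), integral_const_mul, key]
  have e0 : ((Real.pi : ℂ) / ((1 / (4 * a) : ℝ) : ℂ)) = ((4 * Real.pi * a : ℝ) : ℂ) := by
    push_cast
    field_simp
  have e1 : ((n : ℂ) / 2) = (((n : ℝ) / 2 : ℝ) : ℂ) := by push_cast; rfl
  rw [e0, e1, ← Complex.ofReal_cpow hpos.le]
  have e2 : ((((4 * Real.pi * a) ^ (-(n : ℝ) / 2) : ℝ) : ℂ)) * ((((4 * Real.pi * a) ^ ((n : ℝ) / 2) : ℝ) : ℂ)) = 1 := by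
    rw [← Complex.ofReal_mul, ← Real.rpow_add hpos]
    have : -(n : ℝ) / 2 + (n : ℝ) / 2 = 0 := by ring
    rw [this, Real.rpow_zero, Complex.ofReal_one]
  have e3 : ∀ A B C D : ℂ, A * C = 1 → A * B * (C * D) = B * D := by
    intro A B C D h
    calc A * B * (C * D) = (A * C) * (B * D) := by ring
      _ = B * D := by rw [h, one_mul]
  rw [e3 _ _ _ _ e2, ← Complex.exp_add]
  unfold egE
  congr 1
  have hI : Complex.I ^ 2 = -1 := Complex.I_sq
  push_cast
  field_simp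
  ring_nf
  rw [hI]
  ring

/-- **LEAF L-257-EG9-HEAT.**  Fubini + `eg_heat_fourier`. -/
theorem eg_heat_conv (a : ℝ) (ha : 0 < a) (t : ℝ) (x : EgV n) {h : EgV n → ℂ} (hh : Integrable h) :
    ∫ η, egE a t x η * h η = ∫ y, (egHeat a (x - y) : ℂ) * egS h t y := by
  have hH : Integrable fun y : EgV n => ((egHeat a (x - y) : ℝ) : ℂ) := ((eg_heat_integral a ha).1.comp_sub_left x).ofReal
  have hL : ∀ η : EgV n, egE a t x η * h η = ∫ y, egE 0 t y η * ((egHeat a (x - y) : ℂ) * h η) := fun η => by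
    rw [← eg_heat_fourier a ha t x η, ← integral_mul_const]
    refine integral_congr_ae (Filter.Eventually.of_forall fun y => ?_)
    show (egHeat a (x - y) : ℂ) * egE 0 t y η * h η = egE 0 t y η * ((egHeat a (x - y) : ℂ) * h η)
    ring
  have hR : ∀ y : EgV n, (egHeat a (x - y) : ℂ) * egS h t y = ∫ η, egE 0 t y η * ((egHeat a (x - y) : ℂ) * h η) := fun y => by
    unfold egS
    rw [← integral_const_mul]
    refine integral_congr_ae (Filter.Eventually.of_forall fun η => ?_)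
    show (egHeat a (x - y) : ℂ) * (egE 0 t y η * h η) = egE 0 t y η * ((egHeat a (x - y) : ℂ) * h η)
    ring
  simp only [hL, hR]
  refine (integral_integral_swap ?_).symm
  have h1 : Integrable (fun z : EgV n × EgV n => ((egHeat a (x - z.1) : ℝ) : ℂ) * h z.2) (volume.prod volume) := hH.mul_prod hh
  refine h1.bdd_mul (c := 1) ?_ ?_
  · have hc : Continuous fun z : EgV n × EgV n => egE 0 t z.1 z.2 :=
      eg_E_cont.comp (f := fun z : EgV n × EgV n => ((0 : ℝ), t, z.1, z.2))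
        (continuous_const.prodMk (continuous_const.prodMk (continuous_fst.prodMk continuous_snd)))
    exact hc.aestronglyMeasurable
  · exact Filter.Eventually.of_forall fun z => (eg_E_norm_zero _ _ _).le

theorem eg_ball_mass_aux (F : EgV n → ℝ≥0∞) (hF : Measurable F) (A : ℝ≥0∞) (hA : ∀ z, ∫⁻ y in ball z 1, F y ≤ A)
    (x : EgV n) (L : ℝ) :
    (∫⁻ y in ball x L, F y) * volume (ball (0 : EgV n) 1) ≤ A * volume (ball x (L + 1)) := by
  have h1 : ∫⁻ z in ball x (L + 1), ∫⁻ y in ball z 1, F y ≤ A * volume (ball x (L + 1)) := by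
    calc ∫⁻ z in ball x (L + 1), ∫⁻ y in ball z 1, F y ≤ ∫⁻ _z in ball x (L + 1), A := lintegral_mono (fun z => hA z)
      _ = A * volume (ball x (L + 1)) := by rw [setLIntegral_const]
  refine le_trans ?_ h1
  set S : Set (EgV n × EgV n) := {p | dist p.1 x < L + 1 ∧ dist p.2 p.1 < 1} with hS
  have hSo : IsOpen S := by
    apply IsOpen.inter
    · exact isOpen_lt (continuous_fst.dist continuous_const) continuous_const
    · exact isOpen_lt (continuous_snd.dist continuous_fst) continuous_const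
  have hG : Measurable (S.indicator fun p : EgV n × EgV n => F p.2) := (hF.comp measurable_snd).indicator hSo.measurableSet
  have h2 : ∫⁻ z in ball x (L + 1), ∫⁻ y in ball z 1, F y = ∫⁻ z, ∫⁻ y, S.indicator (fun p : EgV n × EgV n => F p.2) (z, y) := by
    rw [← lintegral_indicator isOpen_ball.measurableSet]
    refine lintegral_congr fun z => ?_
    by_cases hz : z ∈ ball x (L + 1)
    · rw [indicator_of_mem hz, ← lintegral_indicator isOpen_ball.measurableSet]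
      refine lintegral_congr fun y => ?_
      by_cases hy : y ∈ ball z 1
      · rw [indicator_of_mem hy, indicator_of_mem (show (z, y) ∈ S from ⟨hz, hy⟩)]
      · rw [indicator_of_notMem hy, indicator_of_notMem (show (z, y) ∉ S from fun h => hy h.2)]
    · rw [indicator_of_notMem hz]
      symm
      have : ∀ y, S.indicator (fun p : EgV n × EgV n => F p.2) (z, y) = 0 := fun y =>
        indicator_of_notMem (show (z, y) ∉ S from fun h => hz h.1) _
      simp only [this, lintegral_zero]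
  have hsw := lintegral_lintegral_swap (μ := (volume : Measure (EgV n))) (ν := (volume : Measure (EgV n)))
    (f := fun z y => S.indicator (fun p : EgV n × EgV n => F p.2) (z, y)) hG.aemeasurable
  rw [h2, hsw, ← lintegral_indicator isOpen_ball.measurableSet,
    ← lintegral_mul_const _ (hF.indicator isOpen_ball.measurableSet)]
  refine lintegral_mono fun y => ?_
  by_cases hy : y ∈ ball x L
  · rw [indicator_of_mem hy]
    calc F y * volume (ball (0 : EgV n) 1) = F y * volume (ball y 1) := by rw [Measure.addHaar_ball_center volume y 1]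
      _ = ∫⁻ z, (ball y 1).indicator (fun _ => F y) z := by
          rw [lintegral_indicator isOpen_ball.measurableSet, setLIntegral_const]
      _ ≤ ∫⁻ z, S.indicator (fun p : EgV n × EgV n => F p.2) (z, y) := by
          refine lintegral_mono fun z => ?_
          by_cases hz : z ∈ ball y 1
          · have hm : (z, y) ∈ S := by
              refine ⟨?_, ?_⟩
              · have h3 : dist z y < 1 := hz
                have h4 : dist y x < L := hy
                show dist z x < L + 1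
                linarith [dist_triangle z y x]
              · show dist y z < 1
                rw [dist_comm]; exact hz
            rw [indicator_of_mem hz, indicator_of_mem hm]
          · rw [indicator_of_notMem hz]; exact zero_le
  · rw [indicator_of_notMem hy, zero_mul]; exact zero_le

/-- **LEAF L-257-EG9-MASS.**  `ball x L ⊆` the cube `x + [-L, L)^n` = disjoint union of `(2 L m)^n` cubes of side `1/m`, `m = ⌈√n⌉₊ + 1`, each contained in a unit ball. -/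
theorem eg_ball_mass (n : ℕ) : ∃ c : ℝ, 0 ≤ c ∧ ∀ (F : EgV n → ℝ≥0∞) (A : ℝ≥0∞), (∀ z, ∫⁻ y in ball z 1, F y ≤ A) →
    ∀ (x : EgV n) (L : ℕ), ∫⁻ y in ball x L, F y ≤ ENNReal.ofReal (c * (L : ℝ) ^ n) * A := by
  refine ⟨2 ^ n, by positivity, fun F A hA x L => ?_⟩
  rcases Nat.eq_zero_or_pos L with rfl | hL
  · simp
  obtain ⟨g, hgm, hgF, hge⟩ := exists_measurable_le_lintegral_eq (volume.restrict (ball x (L : ℝ))) F
  rw [hge]
  have hAg : ∀ z, ∫⁻ y in ball z 1, g y ≤ A := fun z => le_trans (lintegral_mono hgF) (hA z)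
  have h := eg_ball_mass_aux g hgm A hAg x L
  have hL0 : (0 : ℝ) < (L : ℝ) + 1 := by positivity
  rw [Measure.addHaar_ball_of_pos _ _ hL0, finrank_euclideanSpace_fin, ← mul_assoc] at h
  have hv0 : volume (ball (0 : EgV n) 1) ≠ 0 := (measure_ball_pos _ _ one_pos).ne'
  have hvt : volume (ball (0 : EgV n) 1) ≠ ⊤ := measure_ball_lt_top.ne
  have h' := (ENNReal.mul_le_mul_iff_left hv0 hvt).1 h
  refine le_trans h' ?_
  rw [mul_comm]
  refine mul_le_mul_left (ENNReal.ofReal_le_ofReal ?_) A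
  rw [← mul_pow]
  have : (1 : ℝ) ≤ L := by exact_mod_cast hL
  exact pow_le_pow_left₀ hL0.le (by linarith) n

theorem eg_core_summable (n : ℕ) : Summable fun l : ℕ => ((l : ℝ) + 1) ^ n * Real.exp (-(l : ℝ) ^ 2 / 4) := by
  have hr : ‖Real.exp (-1)‖ < 1 := by
    rw [Real.norm_eq_abs, abs_of_pos (Real.exp_pos _)]
    exact Real.exp_lt_one_iff.2 (by norm_num)
  have h0 : Summable fun l : ℕ => (l : ℝ) ^ n * Real.exp (-1) ^ l := summable_pow_mul_geometric_of_norm_lt_one n hr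
  have h1 : Summable fun l : ℕ => ((l + 1 : ℕ) : ℝ) ^ n * Real.exp (-1) ^ (l + 1) :=
    (summable_nat_add_iff (f := fun l : ℕ => (l : ℝ) ^ n * Real.exp (-1) ^ l) 1).2 h0
  have h3 : ∀ l : ℕ, ((l : ℝ) + 1) ^ n * Real.exp (-(l : ℝ) ^ 2 / 4) ≤ Real.exp 2 * (((l + 1 : ℕ) : ℝ) ^ n * Real.exp (-1) ^ (l + 1)) := by
    intro l
    have e : Real.exp (-1) ^ (l + 1) = Real.exp (-((l : ℝ) + 1)) := by
      rw [← Real.exp_nat_mul]
      congr 1
      push_cast
      ring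
    have e' : ((l + 1 : ℕ) : ℝ) = (l : ℝ) + 1 := by push_cast; rfl
    rw [e, e']
    have h2 : Real.exp (-(l : ℝ) ^ 2 / 4) ≤ Real.exp 2 * Real.exp (-((l : ℝ) + 1)) := by
      rw [← Real.exp_add]
      apply Real.exp_le_exp.2
      nlinarith [sq_nonneg ((l : ℝ) - 2)]
    calc ((l : ℝ) + 1) ^ n * Real.exp (-(l : ℝ) ^ 2 / 4) ≤ ((l : ℝ) + 1) ^ n * (Real.exp 2 * Real.exp (-((l : ℝ) + 1))) :=
          mul_le_mul_of_nonneg_left h2 (by positivity)
      _ = Real.exp 2 * (((l : ℝ) + 1) ^ n * Real.exp (-((l : ℝ) + 1))) := by ring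
  exact Summable.of_nonneg_of_le (fun l => by positivity) h3 (h1.mul_left (Real.exp 2))

/-- **LEAF L-257-EG9-UNIF.**  Unit shells `L - 1 ≤ |x - y| < L`: `egHeat a ≤ (4πa)^{-n/2} e^{-(L-1)²/4}` for `a ≤ 1`; `eg_ball_mass`; `∑_L L^n e^{-(L-1)²/4} < ∞`.  (`lintegral_iUnion_le` / `lintegral_tsum` over the shells.) -/
theorem eg_heat_unif (n : ℕ) : ∃ c : ℝ, 0 ≤ c ∧ ∀ a : ℝ, 0 < a → a ≤ 1 → ∀ (F : EgV n → ℝ≥0∞) (A : ℝ≥0∞), Measurable F →
    (∀ z, ∫⁻ y in ball z 1, F y ≤ A) → ∀ x : EgV n,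
    ∫⁻ y, ENNReal.ofReal (egHeat a (x - y)) * F y ≤ ENNReal.ofReal (c * a ^ (-(n : ℝ) / 2)) * A := by
  obtain ⟨c0, hc0, hm⟩ := eg_ball_mass n
  have hsum := eg_core_summable n
  set Sg : ℝ := ∑' l : ℕ, ((l : ℝ) + 1) ^ n * Real.exp (-(l : ℝ) ^ 2 / 4) with hSgd
  have hSg : 0 ≤ Sg := tsum_nonneg fun l => by positivity
  refine ⟨c0 * Sg, mul_nonneg hc0 hSg, fun a ha ha1 F A hF hA x => ?_⟩
  set P : ℝ := (4 * Real.pi * a) ^ (-(n : ℝ) / 2) with hP
  have hP0 : 0 ≤ P := by positivity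
  have hPa : P ≤ a ^ (-(n : ℝ) / 2) := by
    refine Real.rpow_le_rpow_of_nonpos ha ?_ ?_
    · nlinarith [Real.pi_gt_three]
    · have : (0 : ℝ) ≤ n := Nat.cast_nonneg n
      linarith
  have hpt : ∀ y, ENNReal.ofReal (egHeat a (x - y)) * F y ≤
      ∑' l : ℕ, ENNReal.ofReal (P * Real.exp (-(l : ℝ) ^ 2 / 4)) * (ball x ((l + 1 : ℕ) : ℝ)).indicator F y := by
    intro y
    set l0 : ℕ := ⌊‖x - y‖⌋₊ with hl0
    have h1 : (l0 : ℝ) ≤ ‖x - y‖ := Nat.floor_le (norm_nonneg _)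
    have h2 : ‖x - y‖ < (l0 : ℝ) + 1 := Nat.lt_floor_add_one _
    refine le_trans ?_ (ENNReal.le_tsum l0)
    have hy : y ∈ ball x ((l0 + 1 : ℕ) : ℝ) := by
      rw [mem_ball, dist_comm, dist_eq_norm]
      push_cast
      exact h2
    rw [indicator_of_mem hy]
    refine mul_le_mul_left (ENNReal.ofReal_le_ofReal ?_) _
    unfold egHeat
    refine mul_le_mul_of_nonneg_left (Real.exp_le_exp.2 ?_) hP0
    have h3 : (l0 : ℝ) ^ 2 ≤ ‖x - y‖ ^ 2 := pow_le_pow_left₀ (Nat.cast_nonneg _) h1 2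
    have h4 : (l0 : ℝ) ^ 2 / 4 ≤ ‖x - y‖ ^ 2 / (4 * a) := by
      rw [div_le_div_iff₀ (by norm_num) (by positivity)]
      have : 0 ≤ (l0 : ℝ) ^ 2 := by positivity
      nlinarith
    rw [neg_div, neg_div]
    exact neg_le_neg h4
  calc ∫⁻ y, ENNReal.ofReal (egHeat a (x - y)) * F y
      ≤ ∫⁻ y, ∑' l : ℕ, ENNReal.ofReal (P * Real.exp (-(l : ℝ) ^ 2 / 4)) * (ball x ((l + 1 : ℕ) : ℝ)).indicator F y :=
        lintegral_mono hpt
    _ = ∑' l : ℕ, ∫⁻ y, ENNReal.ofReal (P * Real.exp (-(l : ℝ) ^ 2 / 4)) * (ball x ((l + 1 : ℕ) : ℝ)).indicator F y :=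
        lintegral_tsum fun l => ((hF.indicator isOpen_ball.measurableSet).const_mul _).aemeasurable
    _ ≤ ∑' l : ℕ, ENNReal.ofReal (P * c0 * (((l : ℝ) + 1) ^ n * Real.exp (-(l : ℝ) ^ 2 / 4))) * A := by
        refine ENNReal.tsum_le_tsum fun l => ?_
        rw [lintegral_const_mul _ (hF.indicator isOpen_ball.measurableSet), lintegral_indicator isOpen_ball.measurableSet]
        refine le_trans (mul_le_mul_right (hm F A hA x (l + 1)) _) ?_
        rw [← mul_assoc, ← ENNReal.ofReal_mul (by positivity)]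
        refine le_of_eq ?_
        congr 2
        push_cast
        ring
    _ = ENNReal.ofReal (P * c0 * Sg) * A := by
        rw [ENNReal.tsum_mul_right, ← ENNReal.ofReal_tsum_of_nonneg (fun l => by positivity) (hsum.mul_left _), tsum_mul_left]
    _ ≤ ENNReal.ofReal (c0 * Sg * a ^ (-(n : ℝ) / 2)) * A := by
        refine mul_le_mul_left (ENNReal.ofReal_le_ofReal ?_) _
        calc P * c0 * Sg = c0 * Sg * P := by ring
          _ ≤ c0 * Sg * a ^ (-(n : ℝ) / 2) := mul_le_mul_of_nonneg_left hPa (mul_nonneg hc0 hSg)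

theorem eg_core_cs (n : ℕ) {a : ℝ} (ha : 0 < a) : (4 * Real.pi * a) ^ (-(n : ℝ) / 2) * Real.sqrt a ^ n ≤ 1 := by
  have h4 : (0 : ℝ) ≤ 4 * Real.pi := by positivity
  have e1 : Real.sqrt a ^ n = a ^ ((n : ℝ) / 2) := by
    rw [Real.sqrt_eq_rpow, ← Real.rpow_natCast, ← Real.rpow_mul ha.le]
    congr 1
    ring
  rw [e1, Real.mul_rpow h4 ha.le, mul_assoc, ← Real.rpow_add ha]
  have : -(n : ℝ) / 2 + (n : ℝ) / 2 = 0 := by ring
  rw [this, Real.rpow_zero, mul_one]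
  refine Real.rpow_le_one_of_one_le_of_nonpos ?_ ?_
  · nlinarith [Real.pi_gt_three]
  · have : (0 : ℝ) ≤ n := Nat.cast_nonneg n
    linarith

theorem eg_core_near (F : EgV n → ℝ≥0∞) (hF : Measurable F) (x : EgV n) {a ρ : ℝ} (ha : 0 < a) (hρ : 0 < ρ) (ε : ℝ≥0∞)
    (h : ∀ r : ℝ, 0 < r → r ≤ ρ → ∫⁻ y in ball x r, F y ≤ ε * ENNReal.ofReal (r ^ n)) :
    ∫⁻ y in ball x ρ, ENNReal.ofReal (egHeat a (x - y)) * F y
      ≤ ε * ∑' l : ℕ, ENNReal.ofReal (((l : ℝ) + 1) ^ n * Real.exp (-(l : ℝ) ^ 2 / 4)) := by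
  obtain ⟨s, hsdef⟩ : ∃ s : ℝ, s = Real.sqrt a := ⟨_, rfl⟩
  have hs : 0 < s := hsdef ▸ Real.sqrt_pos.2 ha
  have hs2 : s ^ 2 = a := hsdef ▸ Real.sq_sqrt ha.le
  obtain ⟨c, hcdef⟩ : ∃ c : ℝ, c = (4 * Real.pi * a) ^ (-(n : ℝ) / 2) := ⟨_, rfl⟩
  have hc : 0 ≤ c := hcdef ▸ Real.rpow_nonneg (by positivity) _
  have hcs : c * s ^ n ≤ 1 := by
    rw [hcdef, hsdef]
    exact eg_core_cs n ha
  have hr0 : ∀ l : ℕ, 0 < min (((l : ℝ) + 1) * s) ρ := fun l => lt_min (by positivity) hρ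
  have hpt : ∀ y ∈ ball x ρ, ENNReal.ofReal (egHeat a (x - y)) * F y
      ≤ ∑' l : ℕ, (ball x (min (((l : ℝ) + 1) * s) ρ)).indicator
          (fun y => ENNReal.ofReal (c * Real.exp (-(l : ℝ) ^ 2 / 4)) * F y) y := by
    intro y hy
    rw [mem_ball, dist_comm, dist_eq_norm] at hy
    obtain ⟨l, hldef⟩ : ∃ l : ℕ, l = ⌊‖x - y‖ / s⌋₊ := ⟨_, rfl⟩
    have hl1 : (l : ℝ) ≤ ‖x - y‖ / s := hldef ▸ Nat.floor_le (by positivity)
    have hl2 : ‖x - y‖ / s < (l : ℝ) + 1 := hldef ▸ Nat.lt_floor_add_one _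
    rw [le_div_iff₀ hs] at hl1
    rw [div_lt_iff₀ hs] at hl2
    have hy' : y ∈ ball x (min (((l : ℝ) + 1) * s) ρ) := by
      rw [mem_ball, dist_comm, dist_eq_norm]
      exact lt_min hl2 hy
    refine le_trans ?_ (ENNReal.le_tsum l)
    rw [indicator_of_mem hy']
    refine mul_le_mul_left (ENNReal.ofReal_le_ofReal ?_) _
    unfold egHeat
    rw [← hcdef]
    refine mul_le_mul_of_nonneg_left (Real.exp_le_exp.2 ?_) hc
    have h3 : ((l : ℝ) * s) ^ 2 ≤ ‖x - y‖ ^ 2 := pow_le_pow_left₀ (by positivity) hl1 2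
    rw [mul_pow, hs2] at h3
    rw [div_le_div_iff₀ (by positivity) (by norm_num)]
    nlinarith
  calc ∫⁻ y in ball x ρ, ENNReal.ofReal (egHeat a (x - y)) * F y
      ≤ ∫⁻ y in ball x ρ, ∑' l : ℕ, (ball x (min (((l : ℝ) + 1) * s) ρ)).indicator
          (fun y => ENNReal.ofReal (c * Real.exp (-(l : ℝ) ^ 2 / 4)) * F y) y := setLIntegral_mono' measurableSet_ball hpt
    _ ≤ ∫⁻ y, ∑' l : ℕ, (ball x (min (((l : ℝ) + 1) * s) ρ)).indicator
          (fun y => ENNReal.ofReal (c * Real.exp (-(l : ℝ) ^ 2 / 4)) * F y) y := setLIntegral_le_lintegral _ _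
    _ = ∑' l : ℕ, ∫⁻ y, (ball x (min (((l : ℝ) + 1) * s) ρ)).indicator
          (fun y => ENNReal.ofReal (c * Real.exp (-(l : ℝ) ^ 2 / 4)) * F y) y :=
        lintegral_tsum fun l => ((hF.const_mul _).indicator measurableSet_ball).aemeasurable
    _ ≤ ∑' l : ℕ, ε * ENNReal.ofReal (((l : ℝ) + 1) ^ n * Real.exp (-(l : ℝ) ^ 2 / 4)) := by
        refine ENNReal.tsum_le_tsum fun l => ?_
        rw [lintegral_indicator measurableSet_ball, lintegral_const_mul _ hF]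
        refine (mul_le_mul_right (h _ (hr0 l) (min_le_right _ _)) _).trans ?_
        rw [mul_left_comm, ← ENNReal.ofReal_mul (by positivity)]
        refine mul_le_mul_right (ENNReal.ofReal_le_ofReal ?_) _
        have h4 : (min (((l : ℝ) + 1) * s) ρ) ^ n ≤ (((l : ℝ) + 1) * s) ^ n :=
          pow_le_pow_left₀ (hr0 l).le (min_le_left _ _) n
        have h5 : 0 ≤ Real.exp (-(l : ℝ) ^ 2 / 4) := (Real.exp_pos _).le
        have h6 : (0 : ℝ) ≤ ((l : ℝ) + 1) ^ n := by positivity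
        calc c * Real.exp (-(l : ℝ) ^ 2 / 4) * (min (((l : ℝ) + 1) * s) ρ) ^ n
            ≤ c * Real.exp (-(l : ℝ) ^ 2 / 4) * (((l : ℝ) + 1) * s) ^ n := mul_le_mul_of_nonneg_left h4 (mul_nonneg hc h5)
          _ = (c * s ^ n) * (((l : ℝ) + 1) ^ n * Real.exp (-(l : ℝ) ^ 2 / 4)) := by rw [mul_pow]; ring
          _ ≤ 1 * (((l : ℝ) + 1) ^ n * Real.exp (-(l : ℝ) ^ 2 / 4)) := mul_le_mul_of_nonneg_right hcs (mul_nonneg h6 h5)
          _ = ((l : ℝ) + 1) ^ n * Real.exp (-(l : ℝ) ^ 2 / 4) := one_mul _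
    _ = ε * ∑' l : ℕ, ENNReal.ofReal (((l : ℝ) + 1) ^ n * Real.exp (-(l : ℝ) ^ 2 / 4)) := ENNReal.tsum_mul_left

theorem eg_core_far_pt {a ρ : ℝ} (ha : 0 < a) (hρ : 0 ≤ ρ) (v : EgV n) (hv : ρ ≤ ‖v‖) :
    egHeat a v ≤ (2 : ℝ) ^ ((n : ℝ) / 2) * Real.exp (-ρ ^ 2 / (8 * a)) * egHeat (2 * a) v := by
  unfold egHeat
  have hp : (0 : ℝ) ≤ 4 * Real.pi * a := by positivity
  have e1 : (4 * Real.pi * (2 * a)) ^ (-(n : ℝ) / 2) = (2 : ℝ) ^ (-(n : ℝ) / 2) * (4 * Real.pi * a) ^ (-(n : ℝ) / 2) := by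
    rw [← Real.mul_rpow (by norm_num) hp]
    congr 1
    ring
  have e2 : (2 : ℝ) ^ ((n : ℝ) / 2) * (2 : ℝ) ^ (-(n : ℝ) / 2) = 1 := by
    rw [← Real.rpow_add (by norm_num)]
    have : (n : ℝ) / 2 + -(n : ℝ) / 2 = 0 := by ring
    rw [this, Real.rpow_zero]
  have e3 : (2 : ℝ) ^ ((n : ℝ) / 2) * Real.exp (-ρ ^ 2 / (8 * a)) * ((4 * Real.pi * (2 * a)) ^ (-(n : ℝ) / 2) * Real.exp (-‖v‖ ^ 2 / (4 * (2 * a))))
      = (4 * Real.pi * a) ^ (-(n : ℝ) / 2) * Real.exp (-ρ ^ 2 / (8 * a) + -‖v‖ ^ 2 / (4 * (2 * a))) := by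
    rw [e1, Real.exp_add]
    calc _ = ((2 : ℝ) ^ ((n : ℝ) / 2) * (2 : ℝ) ^ (-(n : ℝ) / 2)) * ((4 * Real.pi * a) ^ (-(n : ℝ) / 2) * (Real.exp (-ρ ^ 2 / (8 * a)) * Real.exp (-‖v‖ ^ 2 / (4 * (2 * a))))) := by ring
      _ = _ := by rw [e2, one_mul]
  rw [e3]
  refine mul_le_mul_of_nonneg_left (Real.exp_le_exp.2 ?_) (Real.rpow_nonneg hp _)
  have h1 : ρ ^ 2 ≤ ‖v‖ ^ 2 := pow_le_pow_left₀ hρ hv 2
  have e4 : -ρ ^ 2 / (8 * a) + -‖v‖ ^ 2 / (4 * (2 * a)) = -(ρ ^ 2 + ‖v‖ ^ 2) / (8 * a) := by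
    field_simp
    ring
  have e5 : -‖v‖ ^ 2 / (4 * a) = -(‖v‖ ^ 2 + ‖v‖ ^ 2) / (8 * a) := by
    field_simp
    ring
  rw [e4, e5]
  refine div_le_div_of_nonneg_right ?_ (by positivity)
  linarith

theorem eg_core_far (F : EgV n → ℝ≥0∞) (x : EgV n) {a ρ : ℝ} (ha : 0 < a) (hρ : 0 ≤ ρ) :
    ∫⁻ y in (ball x ρ)ᶜ, ENNReal.ofReal (egHeat a (x - y)) * F y
      ≤ ENNReal.ofReal ((2 : ℝ) ^ ((n : ℝ) / 2) * Real.exp (-ρ ^ 2 / (8 * a))) * ∫⁻ y, ENNReal.ofReal (egHeat (2 * a) (x - y)) * F y := by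
  rw [← lintegral_const_mul' _ _ ENNReal.ofReal_ne_top]
  refine (setLIntegral_mono' measurableSet_ball.compl fun y hy => ?_).trans (setLIntegral_le_lintegral _ _)
  rw [← mul_assoc, ← ENNReal.ofReal_mul (by positivity)]
  refine mul_le_mul_left (ENNReal.ofReal_le_ofReal (eg_core_far_pt ha hρ _ ?_)) _
  rw [mem_compl_iff, mem_ball, not_lt, dist_comm, dist_eq_norm] at hy
  exact hy

theorem eg_core_far_lim (n : ℕ) (c : ℝ) {ρ : ℝ} (hρ : 0 < ρ) :
    Tendsto (fun a : ℝ => (2 : ℝ) ^ ((n : ℝ) / 2) * Real.exp (-ρ ^ 2 / (8 * a)) * (c * (2 * a) ^ (-(n : ℝ) / 2))) (𝓝[>] 0) (𝓝 0) := by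
  have h := ((tendsto_rpow_mul_exp_neg_mul_atTop_nhds_zero ((n : ℝ) / 2) (ρ ^ 2 / 8) (by positivity)).comp
    tendsto_inv_nhdsGT_zero).const_mul c
  rw [mul_zero] at h
  refine h.congr' ?_
  filter_upwards [self_mem_nhdsWithin] with a ha
  have ha : 0 < a := ha
  have e1 : (2 * a) ^ (-(n : ℝ) / 2) = (2 : ℝ) ^ (-(n : ℝ) / 2) * (a⁻¹) ^ ((n : ℝ) / 2) := by
    rw [Real.mul_rpow (by norm_num) ha.le, Real.inv_rpow ha.le, ← Real.rpow_neg ha.le]
    congr 2
    ring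
  have e2 : (2 : ℝ) ^ ((n : ℝ) / 2) * (2 : ℝ) ^ (-(n : ℝ) / 2) = 1 := by
    rw [← Real.rpow_add (by norm_num)]
    have : (n : ℝ) / 2 + -(n : ℝ) / 2 = 0 := by ring
    rw [this, Real.rpow_zero]
  have e3 : -(ρ ^ 2 / 8) * a⁻¹ = -ρ ^ 2 / (8 * a) := by
    field_simp
  show c * ((a⁻¹) ^ ((n : ℝ) / 2) * Real.exp (-(ρ ^ 2 / 8) * a⁻¹)) = _
  rw [e1, e3]
  calc _ = ((2 : ℝ) ^ ((n : ℝ) / 2) * (2 : ℝ) ^ (-(n : ℝ) / 2)) * (c * ((a⁻¹) ^ ((n : ℝ) / 2) * Real.exp (-ρ ^ 2 / (8 * a)))) := by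
        rw [e2, one_mul]
    _ = _ := by ring

/-- **LEAF L-257-EG9-CORE.**  The core, at one point.
PLAN.  `ε > 0`; `ρ ≤ 1` with `∫⁻_{ball x r} F ≤ ε r^n` for `r ≤ ρ`.
NEAR `|x - y| < ρ`: shells `l √a ≤ |x - y| < (l+1) √a`, `egHeat a ≤ (4πa)^{-n/2} e^{-l²/4}`, mass `≤ ε ((l+1)√a)^n` (if `(l+1)√a > ρ` use `ball x ρ`): total `≤ ε (4π)^{-n/2} ∑_l (l+1)^n e^{-l²/4}`.
FAR `|x - y| ≥ ρ`: `egHeat a y ≤ 2^{n/2} e^{-ρ²/(8a)} egHeat (2a) y`; `eg_heat_unif` at `2a`: `≤ C a^{-n/2} e^{-ρ²/(8a)} A → 0`. -/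
theorem eg_heat_core (F : EgV n → ℝ≥0∞) (hF : Measurable F) (A : ℝ≥0∞) (hA : A ≠ ⊤) (hFA : ∀ z, ∫⁻ y in ball z 1, F y ≤ A) (x : EgV n)
    (hx : Tendsto (fun r : ℝ => (∫⁻ y in ball x r, F y) / ENNReal.ofReal (r ^ n)) (𝓝[>] 0) (𝓝 0)) :
    Tendsto (fun a : ℝ => ∫⁻ y, ENNReal.ofReal (egHeat a (x - y)) * F y) (𝓝[>] 0) (𝓝 0) := by
  obtain ⟨c, hc, hunif⟩ := eg_heat_unif n
  rw [ENNReal.tendsto_nhds_zero]
  intro ε hε
  obtain ⟨K, hK⟩ : ∃ K : ℝ≥0∞, K = ∑' l : ℕ, ENNReal.ofReal (((l : ℝ) + 1) ^ n * Real.exp (-(l : ℝ) ^ 2 / 4)) := ⟨_, rfl⟩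
  have hKtop : K ≠ ⊤ := hK ▸ (eg_core_summable n).tsum_ofReal_ne_top
  have hε2 : 0 < ε / 2 := ENNReal.half_pos hε.ne'
  have hε3 : 0 < ε / 2 / K := ENNReal.div_pos hε2.ne' hKtop
  obtain ⟨ρ₀, hρ₀, hsub⟩ := mem_nhdsGT_iff_exists_Ioo_subset.1 ((ENNReal.tendsto_nhds_zero.1 hx) _ hε3)
  have hρ₀ : 0 < ρ₀ := hρ₀
  have hρ : 0 < ρ₀ / 2 := by positivity
  have hnear : ∀ r : ℝ, 0 < r → r ≤ ρ₀ / 2 → ∫⁻ y in ball x r, F y ≤ ε / 2 / K * ENNReal.ofReal (r ^ n) := by
    intro r hr hrρ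
    have h1 : (∫⁻ y in ball x r, F y) / ENNReal.ofReal (r ^ n) ≤ ε / 2 / K := hsub ⟨hr, by linarith⟩
    rwa [ENNReal.div_le_iff (ENNReal.ofReal_pos.2 (by positivity)).ne' ENNReal.ofReal_ne_top] at h1
  have hlim2 : Tendsto (fun a : ℝ => ENNReal.ofReal ((2 : ℝ) ^ ((n : ℝ) / 2) * Real.exp (-(ρ₀ / 2) ^ 2 / (8 * a)) * (c * (2 * a) ^ (-(n : ℝ) / 2))) * A)
      (𝓝[>] 0) (𝓝 0) := by
    have h1 := ENNReal.Tendsto.mul_const (ENNReal.tendsto_ofReal (eg_core_far_lim n c hρ)) (Or.inr hA)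
    rwa [ENNReal.ofReal_zero, zero_mul] at h1
  have hfar := (ENNReal.tendsto_nhds_zero.1 hlim2) (ε / 2) hε2
  have hsmall : ∀ᶠ a in 𝓝[>] (0 : ℝ), a < 1 / 2 := eventually_nhdsWithin_of_eventually_nhds (eventually_lt_nhds (by norm_num))
  filter_upwards [hfar, hsmall, self_mem_nhdsWithin] with a h1 h2 h3
  have ha : 0 < a := h3
  rw [← lintegral_add_compl _ (measurableSet_ball (x := x) (ε := ρ₀ / 2)), ← ENNReal.add_halves ε]
  refine add_le_add ?_ ?_
  · refine (eg_core_near F hF x ha hρ _ hnear).trans ?_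
    rw [← hK, mul_comm]
    exact ENNReal.mul_div_le
  · refine (eg_core_far F x ha hρ.le).trans (le_trans ?_ h1)
    refine (mul_le_mul_right (hunif (2 * a) (by positivity) (by linarith) F A hF hFA x) _).trans (le_of_eq ?_)
    rw [← mul_assoc, ← ENNReal.ofReal_mul (by positivity)]

/-- Lebesgue points in the `lintegral` form used by `eg_heat_core`. -/
theorem eg_leb_point {E : Type*} [NormedAddCommGroup E] (g : EgV n → E) (hg : LocallyIntegrable g volume) :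
    ∀ᵐ x : EgV n, Tendsto (fun r : ℝ => (∫⁻ y in ball x r, ‖g y - g x‖ₑ) / ENNReal.ofReal (r ^ n)) (𝓝[>] 0) (𝓝 0) := by
  filter_upwards [IsUnifLocDoublingMeasure.ae_tendsto_average_norm_sub (μ := (volume : Measure (EgV n))) hg 1] with x hx
  have h1 := hx (l := 𝓝[>] (0 : ℝ)) (fun _ => x) (fun r => r) tendsto_id (by
    filter_upwards [self_mem_nhdsWithin] with r hr
    have : (0 : ℝ) < r := hr
    simp [this.le])
  set c : ℝ := (volume : Measure (EgV n)).real (ball 0 1) with hc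
  have hc0 : 0 ≤ c := measureReal_nonneg
  have h2 : Tendsto (fun r : ℝ => ENNReal.ofReal (c * ⨍ y in closedBall x r, ‖g y - g x‖)) (𝓝[>] 0) (𝓝 0) := by
    have := (ENNReal.continuous_ofReal.tendsto _).comp (h1.const_mul c)
    simpa [Function.comp_def] using this
  refine tendsto_of_tendsto_of_tendsto_of_le_of_le' tendsto_const_nhds h2 (Eventually.of_forall fun _ => zero_le) ?_
  filter_upwards [self_mem_nhdsWithin] with r hr
  have hr0 : (0 : ℝ) < r := hr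
  have hrn : 0 < r ^ n := pow_pos hr0 n
  have hint : IntegrableOn (fun y => g y - g x) (closedBall x r) :=
    (hg.integrableOn_isCompact (isCompact_closedBall x r)).sub (integrableOn_const (by
      exact (measure_closedBall_lt_top).ne))
  have hvol : (volume : Measure (EgV n)).real (closedBall x r) = r ^ n * c := by
    rw [measureReal_def, Measure.addHaar_closedBall _ _ hr0.le, ENNReal.toReal_mul, ENNReal.toReal_ofReal (by positivity),
      finrank_euclideanSpace_fin, hc, measureReal_def]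
  have hle : ∫⁻ y in ball x r, ‖g y - g x‖ₑ ≤ ∫⁻ y in closedBall x r, ‖g y - g x‖ₑ :=
    lintegral_mono_set ball_subset_closedBall
  have heq : ∫⁻ y in closedBall x r, ‖g y - g x‖ₑ = ENNReal.ofReal (∫ y in closedBall x r, ‖g y - g x‖) :=
    (ofReal_integral_norm_eq_lintegral_enorm hint).symm
  have hI0 : 0 ≤ ∫ y in closedBall x r, ‖g y - g x‖ := integral_nonneg fun _ => norm_nonneg _
  rcases eq_or_lt_of_le hc0 with hc00 | hcpos
  · -- degenerate: cannot happen, but is harmless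
    have hz : (volume : Measure (EgV n)) (closedBall x r) = 0 := by
      have h3 : (volume : Measure (EgV n)).real (closedBall x r) = 0 := by rw [hvol, ← hc00, mul_zero]
      rw [measureReal_def, ENNReal.toReal_eq_zero_iff] at h3
      rcases h3 with h3 | h3
      · exact h3
      · exact absurd h3 measure_closedBall_lt_top.ne
    have : ∫⁻ y in closedBall x r, ‖g y - g x‖ₑ = 0 := by
      rw [Measure.restrict_eq_zero.mpr hz, lintegral_zero_measure]
    have h4 : ∫⁻ y in ball x r, ‖g y - g x‖ₑ = 0 := le_antisymm (hle.trans this.le) zero_le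
    rw [h4]
    simp
  · have havg : c * ⨍ y in closedBall x r, ‖g y - g x‖ = (∫ y in closedBall x r, ‖g y - g x‖) / r ^ n := by
      rw [setAverage_eq, hvol, smul_eq_mul]
      field_simp
    rw [havg, ENNReal.ofReal_div_of_pos hrn, ← heq]
    gcongr

/-- the heat kernel has total mass one (`lintegral` form, reflected and translated) -/
theorem eg_heat_lintegral (a : ℝ) (ha : 0 < a) (x : EgV n) : ∫⁻ y, ENNReal.ofReal (egHeat a (x - y)) = 1 := by
  have h := eg_heat_integral (n := n) a ha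
  rw [lintegral_sub_left_eq_self (fun y => ENNReal.ofReal (egHeat a y)) x,
    ← ofReal_integral_eq_lintegral_ofReal h.1 (Eventually.of_forall fun y => eg_heat_nonneg a ha y), h.2, ENNReal.ofReal_one]

/-- a function with uniformly bounded local integrals is finite almost everywhere -/
theorem eg_ae_lt_top (M : EgV n → ℝ≥0∞) (hM : Measurable M) (A : ℝ≥0∞) (hA : A ≠ ⊤) (hMA : ∀ z, ∫⁻ y in ball z 1, M y ≤ A) :
    ∀ᵐ x : EgV n, M x < ⊤ := by
  have hcov : (⋃ k : ℕ, ball (TopologicalSpace.denseSeq (EgV n) k) 1) = univ := by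
    apply eq_univ_of_forall
    intro x
    obtain ⟨k, hk⟩ := (TopologicalSpace.denseRange_denseSeq (EgV n)).exists_dist_lt x one_pos
    exact mem_iUnion.mpr ⟨k, hk⟩
  rw [← Measure.restrict_univ (μ := (volume : Measure (EgV n))), ← hcov, ae_restrict_iUnion_iff]
  intro k
  exact ae_lt_top hM ((hMA _).trans_lt hA.lt_top).ne

/-- **LEAF L-257-EG9-AE.**  Envelopes.
PLAN.  `M < ⊤` a.e. (finite local integrals), `μ = toReal ∘ M` is locally integrable; `IsUnifLocDoublingMeasure.ae_tendsto_average_norm_sub` (`K = 1`, centres `x`) gives the Lebesgue points; `volume (closedBall x r) = c_n r^n` (`EuclideanSpace.volume_closedBall`), `ball ⊆ closedBall`.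
At such an `x` with `M x < ⊤`: `F y = ‖μ y - μ x‖ₑ`, `∫⁻_{ball z 1} F ≤ A + M x |ball|`; `M y ≤ M x + F y` a.e.; `∫⁻ ofReal (egHeat a (x - y)) = 1` (`eg_heat_integral`); `eg_heat_core`. -/
theorem eg_heat_ae (M : EgV n → ℝ≥0∞) (hM : Measurable M) (A : ℝ≥0∞) (hA : A ≠ ⊤) (hMA : ∀ z, ∫⁻ y in ball z 1, M y ≤ A) :
    ∀ᵐ x : EgV n, ∀ ε : ℝ≥0∞, 0 < ε → ∀ᶠ a in 𝓝[>] (0 : ℝ), ∫⁻ y, ENNReal.ofReal (egHeat a (x - y)) * M y ≤ M x + ε := by
  have hfin := eg_ae_lt_top M hM A hA hMA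
  set μ : EgV n → ℝ := fun y => (M y).toReal with hμ
  have hμm : Measurable μ := hM.ennreal_toReal
  have hμe : ∀ y, ‖μ y‖ₑ ≤ M y := by
    intro y
    rw [hμ, Real.enorm_eq_ofReal ENNReal.toReal_nonneg]
    exact ENNReal.ofReal_toReal_le
  have hloc : LocallyIntegrable μ volume := by
    intro x
    refine ⟨ball x 1, ball_mem_nhds x one_pos, hμm.aestronglyMeasurable, ?_⟩
    calc ∫⁻ y in ball x 1, ‖μ y‖ₑ ≤ ∫⁻ y in ball x 1, M y := lintegral_mono fun y => hμe y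
      _ ≤ A := hMA x
      _ < ⊤ := hA.lt_top
  filter_upwards [eg_leb_point μ hloc, hfin] with x hx hxfin ε hε
  set F : EgV n → ℝ≥0∞ := fun y => ‖μ y - μ x‖ₑ with hF
  have hFm : Measurable F := (hμm.sub_const _).enorm
  set v : ℝ≥0∞ := (volume : Measure (EgV n)) (ball 0 1) with hv
  have hvfin : v ≠ ⊤ := measure_ball_lt_top.ne
  have hFA : ∀ z, ∫⁻ y in ball z 1, F y ≤ A + M x * v := by
    intro z
    calc ∫⁻ y in ball z 1, F y ≤ ∫⁻ y in ball z 1, (M y + M x) := by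
          refine lintegral_mono fun y => ?_
          calc F y ≤ ‖μ y‖ₑ + ‖μ x‖ₑ := enorm_sub_le
            _ ≤ M y + M x := add_le_add (hμe y) (hμe x)
      _ = (∫⁻ y in ball z 1, M y) + M x * volume (ball z 1) := by
          rw [lintegral_add_right _ measurable_const, setLIntegral_const]
      _ ≤ A + M x * v := by
          rw [Measure.addHaar_ball_center]
          gcongr
          exact hMA z
  have hcore := eg_heat_core F hFm (A + M x * v) (ENNReal.add_ne_top.mpr ⟨hA, ENNReal.mul_ne_top hxfin.ne hvfin⟩) hFA x hx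
  have hev : ∀ᶠ a in 𝓝[>] (0 : ℝ), ∫⁻ y, ENNReal.ofReal (egHeat a (x - y)) * F y ≤ ε :=
    hcore.eventually_le_const hε
  filter_upwards [hev, self_mem_nhdsWithin] with a ha ha0
  have ha0' : (0 : ℝ) < a := ha0
  have hHm : Measurable fun y : EgV n => ENNReal.ofReal (egHeat a (x - y)) :=
    ((eg_heat_cont a).measurable.comp (measurable_const.sub measurable_id)).ennreal_ofReal
  calc ∫⁻ y, ENNReal.ofReal (egHeat a (x - y)) * M y
      ≤ ∫⁻ y, (ENNReal.ofReal (egHeat a (x - y)) * M x + ENNReal.ofReal (egHeat a (x - y)) * F y) := by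
        refine lintegral_mono_ae ?_
        filter_upwards [hfin] with y hy
        rw [← mul_add]
        gcongr
        have e1 : M y = ENNReal.ofReal (μ y) := (ENNReal.ofReal_toReal hy.ne).symm
        have e2 : M x = ENNReal.ofReal (μ x) := (ENNReal.ofReal_toReal hxfin.ne).symm
        rw [e1, e2, hF]
        simp only
        rw [Real.enorm_eq_ofReal_abs, ← ENNReal.ofReal_add ENNReal.toReal_nonneg (abs_nonneg _)]
        apply ENNReal.ofReal_le_ofReal
        have := le_abs_self (μ y - μ x)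
        linarith
    _ = (∫⁻ y, ENNReal.ofReal (egHeat a (x - y))) * M x + ∫⁻ y, ENNReal.ofReal (egHeat a (x - y)) * F y := by
        rw [lintegral_add_left (hHm.mul_const _), lintegral_mul_const _ hHm]
    _ ≤ M x + ε := by
        rw [eg_heat_lintegral a ha0' x, one_mul]
        gcongr

/-- `eg_heat_L2_ae` for a measurable representative -/
theorem eg_heat_L2_aux (f : EgV n → ℂ) (hfm : Measurable f) (hf : MemLp f 2 volume) :
    ∀ᵐ x : EgV n, Tendsto (fun a : ℝ => ∫ y, (egHeat a (x - y) : ℂ) * f y) (𝓝[>] 0) (𝓝 (f x)) := by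
  have hloc : LocallyIntegrable f volume := hf.locallyIntegrable (by norm_num)
  have hI2 : ∫⁻ y, ‖f y‖ₑ ^ 2 < ⊤ := by
    have := lintegral_rpow_enorm_lt_top_of_eLpNorm_lt_top (p := 2) (by norm_num) (by norm_num) hf.eLpNorm_lt_top
    simpa using this
  filter_upwards [eg_leb_point f hloc] with x hx
  set F : EgV n → ℝ≥0∞ := fun y => ‖f y - f x‖ₑ with hF
  have hFm : Measurable F := (hfm.sub_const _).enorm
  set v : ℝ≥0∞ := (volume : Measure (EgV n)) (ball 0 1) with hv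
  have hvfin : v ≠ ⊤ := measure_ball_lt_top.ne
  have hsq : ∀ t : ℝ≥0∞, t ≤ 1 + t ^ 2 := by
    intro t
    rcases le_total t 1 with h | h
    · exact h.trans le_self_add
    · calc t = t * 1 := (mul_one t).symm
        _ ≤ t * t := by gcongr
        _ = t ^ 2 := (sq t).symm
        _ ≤ 1 + t ^ 2 := le_add_self
  have hFA : ∀ z, ∫⁻ y in ball z 1, F y ≤ (∫⁻ y, ‖f y‖ₑ ^ 2) + (1 + ‖f x‖ₑ) * v := by
    intro z
    calc ∫⁻ y in ball z 1, F y ≤ ∫⁻ y in ball z 1, (‖f y‖ₑ ^ 2 + (1 + ‖f x‖ₑ)) := by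
          refine lintegral_mono fun y => ?_
          calc F y ≤ ‖f y‖ₑ + ‖f x‖ₑ := enorm_sub_le
            _ ≤ (1 + ‖f y‖ₑ ^ 2) + ‖f x‖ₑ := by gcongr; exact hsq _
            _ = ‖f y‖ₑ ^ 2 + (1 + ‖f x‖ₑ) := by ring
      _ = (∫⁻ y in ball z 1, ‖f y‖ₑ ^ 2) + (1 + ‖f x‖ₑ) * volume (ball z 1) := by
          rw [lintegral_add_right _ measurable_const, setLIntegral_const]
      _ ≤ (∫⁻ y, ‖f y‖ₑ ^ 2) + (1 + ‖f x‖ₑ) * v := by
          rw [Measure.addHaar_ball_center]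
          gcongr
          exact Measure.restrict_le_self
  have hcore := eg_heat_core F hFm _ (ENNReal.add_ne_top.mpr ⟨hI2.ne, ENNReal.mul_ne_top (by simp) hvfin⟩) hFA x hx
  have hev : ∀ᶠ a in 𝓝[>] (0 : ℝ), ∫⁻ y, ENNReal.ofReal (egHeat a (x - y)) * F y < ⊤ :=
    hcore.eventually_lt_const (by simp)
  rw [tendsto_iff_edist_tendsto_0]
  refine tendsto_of_tendsto_of_tendsto_of_le_of_le' tendsto_const_nhds hcore (Eventually.of_forall fun _ => zero_le) ?_
  filter_upwards [hev, self_mem_nhdsWithin] with a hafin ha0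
  have ha0' : (0 : ℝ) < a := ha0
  have hHm : Measurable fun y : EgV n => egHeat a (x - y) :=
    (eg_heat_cont a).measurable.comp (measurable_const.sub measurable_id)
  have hHi : Integrable fun y : EgV n => egHeat a (x - y) := (eg_heat_integral a ha0').1.comp_sub_left x
  have hH1 : ∫ y : EgV n, ((egHeat a (x - y) : ℝ) : ℂ) = 1 := by
    rw [integral_complex_ofReal, integral_sub_left_eq_self (fun y => egHeat a y) volume x, (eg_heat_integral a ha0').2]
    simp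
  set u : EgV n → ℂ := fun y => (egHeat a (x - y) : ℂ) * (f y - f x) with hu
  have hun : ∀ y, ‖u y‖ₑ = ENNReal.ofReal (egHeat a (x - y)) * F y := by
    intro y
    rw [hu, hF]
    simp only
    rw [enorm_mul, ← ofReal_norm, Complex.norm_real, Real.norm_of_nonneg (eg_heat_nonneg a ha0' _)]
  have hui : Integrable u := by
    refine ⟨((Complex.measurable_ofReal.comp hHm).mul (hfm.sub_const _)).aestronglyMeasurable, ?_⟩
    rw [hasFiniteIntegral_iff_enorm]
    simp only [hun]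
    exact hafin
  have hci : Integrable fun y : EgV n => ((egHeat a (x - y) : ℝ) : ℂ) * f x := hHi.ofReal.mul_const _
  have hsplit : ∫ y, (egHeat a (x - y) : ℂ) * f y = (∫ y, u y) + f x := by
    have : (fun y => (egHeat a (x - y) : ℂ) * f y) = fun y => u y + ((egHeat a (x - y) : ℝ) : ℂ) * f x := by
      funext y
      rw [hu]
      ring
    rw [this, integral_add hui hci, integral_mul_const, hH1, one_mul]
  rw [hsplit, edist_eq_enorm_sub, add_sub_cancel_right]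
  calc ‖∫ y, u y‖ₑ ≤ ∫⁻ y, ‖u y‖ₑ := enorm_integral_le_lintegral_enorm _
    _ = _ := by simp only [hun]

/-- **LEAF L-257-EG9-L2.**  The classical statement for `f ∈ L²`.
PLAN.  Lebesgue points of `f` (locally integrable); `F y = ‖f y - f x‖ₑ`, `∫⁻_{ball z 1} F ≤ |ball|^{1/2} ‖f‖₂ + |ball| ‖f x‖` (Cauchy-Schwarz / `eLpNorm_le_eLpNorm_mul_rpow_measure_univ` on the restricted measure);
`‖∫ egHeat a (x - y) f y dy - f x‖ₑ ≤ ∫⁻ ofReal (egHeat a (x - y)) F y` (`eg_heat_integral`; `y ↦ egHeat a (x - y) f y` is integrable: product of two `L²` functions); `eg_heat_core`. -/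
theorem eg_heat_L2_ae (f : EgV n → ℂ) (hf : MemLp f 2 volume) :
    ∀ᵐ x : EgV n, Tendsto (fun a : ℝ => ∫ y, (egHeat a (x - y) : ℂ) * f y) (𝓝[>] 0) (𝓝 (f x)) := by
  have hae : f =ᵐ[volume] hf.1.mk f := hf.1.ae_eq_mk
  have h' : MemLp (hf.1.mk f) 2 volume := hf.ae_eq hae
  filter_upwards [eg_heat_L2_aux (hf.1.mk f) hf.1.stronglyMeasurable_mk.measurable h', hae] with x hx hxe
  rw [hxe]
  refine hx.congr fun a => ?_
  refine integral_congr_ae ?_
  filter_upwards [hae] with y hy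
  rw [hy]

end Claimed.Agent.R257
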