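import Claimed.Agent.R257.End.Max
import Claimed.Agent.R257.End.Gauss

/-!
# ROW 257 (S0497), ENDGAME, unit EG10a: ONE REPRESENTATIVE AND ALL REAL TIMES (frequency side)          (architect helper194)          CONTRACT
Paper: H `endpoint.tex` l.420-496 (proof of `m:main`), reorganised (report 835): truncations `g 1_{|η| ≤ R_j}` instead of `C_c^∞` approximants, envelopes `M_j = ∑_{l ≥ j} D_l` (tails of a series) instead of `sup_t |v - S(t) f_j|`
(no Fatou), no `L²` class of `S(t) f`: `U_a g = lim_l U_a g_l`, `U_a g_l = K_a * S(t) g_l`.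
`g` = any measurable function with `∫ egW ‖g‖² < ∞`.   `egU g a t x = ∫ egE a t x η g(η) dη`.
-/

set_option autoImplicit false

namespace Claimed.Agent.R257

open MeasureTheory Filter Topology Metric Set
open scoped ENNReal

variable {n : ℕ}

/-- the Gaussian regularised field -/
noncomputable def egU (g : EgV n → ℂ) (a t : ℝ) (x : EgV n) : ℂ := ∫ η, egE a t x η * g η

/-- the truncation of the data -/
noncomputable def egTr (g : EgV n → ℂ) (R : ℝ) : EgV n → ℂ := (closedBall (0 : EgV n) R).indicator g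

/-- the countable dense set of times (contains `0`) -/
def egT0 : Set ℝ := Set.range ((↑) : ℚ → ℝ) ∩ Set.Ico 0 1

/-- the maximal function of the `j`-th increment -/
noncomputable def egDj (g : EgV n → ℂ) (R : ℕ → ℝ) (j : ℕ) (x : EgV n) : ℝ≥0∞ :=
  ⨆ t ∈ egT0, ‖egS (egTr g (R (j + 1)) - egTr g (R j)) t x‖ₑ

/-- the envelope -/
noncomputable def egMj (g : EgV n → ℂ) (R : ℕ → ℝ) (j : ℕ) (x : EgV n) : ℝ≥0∞ := ∑' l, egDj g R (j + l) x

/-- the standing hypothesis on the data -/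
structure EgSob (g : EgV n → ℂ) : Prop where
  meas : Measurable g
  int : Integrable fun η => egW η * ‖g η‖ ^ 2

theorem eg_W_one_le (η : EgV n) : 1 ≤ egW η := by
  unfold egW
  apply Real.one_le_rpow
  · have : 0 ≤ 4 * Real.pi ^ 2 * ‖η‖ ^ 2 := by positivity
    linarith
  · unfold egs
    positivity

theorem eg_sob_sq {g : EgV n → ℂ} (hg : EgSob g) : Integrable fun η => ‖g η‖ ^ 2 := by
  refine hg.int.mono' (hg.meas.norm.pow_const 2).aestronglyMeasurable (Eventually.of_forall fun η => ?_)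
  rw [Real.norm_of_nonneg (by positivity)]
  have := eg_W_one_le η
  nlinarith [sq_nonneg ‖g η‖]

theorem eg_tr_sub {g : EgV n → ℂ} {r r' : ℝ} (h : r ≤ r') :
    egTr g r' - egTr g r = (closedBall (0 : EgV n) r' \ closedBall (0 : EgV n) r).indicator g := by
  unfold egTr
  rw [Set.indicator_sdiff (closedBall_subset_closedBall h)]

theorem eg_data_indicator {g : EgV n → ℂ} (hg : EgSob g) {s : Set (EgV n)} (hs : MeasurableSet s) {r : ℝ}
    (hr : s ⊆ closedBall 0 r) : EgData (s.indicator g) := by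
  refine ⟨hg.meas.indicator hs, ⟨r, fun η hη => Set.indicator_of_notMem (fun h => ?_) _⟩, ?_⟩
  · have := hr h
    rw [mem_closedBall_zero_iff] at this
    exact absurd hη (not_lt.2 this)
  · have e : (fun η => ‖s.indicator g η‖ ^ 2) = s.indicator fun η => ‖g η‖ ^ 2 := by
      funext η
      by_cases h : η ∈ s
      · simp [h]
      · simp [h]
    rw [e]
    exact (eg_sob_sq hg).indicator hs

/-- the weighted mass of an indicator supported off the ball of radius `r` is at most the tail. -/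
theorem eg_tail_le {g : EgV n → ℂ} (hg : EgSob g) {s : Set (EgV n)} (hs : MeasurableSet s) {r : ℝ}
    (hr : s ⊆ (closedBall 0 r)ᶜ) :
    ∫ η, egW η * ‖s.indicator g η‖ ^ 2 ≤ ∫ η in (closedBall (0 : EgV n) r)ᶜ, egW η * ‖g η‖ ^ 2 := by
  have e : (fun η => egW η * ‖s.indicator g η‖ ^ 2) = s.indicator fun η => egW η * ‖g η‖ ^ 2 := by
    funext η
    by_cases h : η ∈ s
    · simp [h]
    · simp [h]
  rw [e, integral_indicator hs]
  refine setIntegral_mono_set hg.int.integrableOn (Eventually.of_forall fun η => ?_) hr.eventuallyLE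
  have := eg_W_one_le η
  positivity

theorem eg_tail_tendsto {g : EgV n → ℂ} (hg : EgSob g) :
    Tendsto (fun k : ℕ => ∫ η in (closedBall (0 : EgV n) (k : ℝ))ᶜ, egW η * ‖g η‖ ^ 2) atTop (𝓝 0) := by
  have h := tendsto_setIntegral_of_antitone (μ := (volume : Measure (EgV n)))
    (f := fun η => egW η * ‖g η‖ ^ 2) (s := fun k : ℕ => (closedBall (0 : EgV n) (k : ℝ))ᶜ)
    (fun k => measurableSet_closedBall.compl)
    (fun i j hij => Set.compl_subset_compl.2 (closedBall_subset_closedBall (by exact_mod_cast hij)))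
    ⟨0, hg.int.integrableOn⟩
  have e : ⋂ k : ℕ, (closedBall (0 : EgV n) (k : ℝ))ᶜ = ∅ := by
    rw [Set.eq_empty_iff_forall_notMem]
    intro η hη
    obtain ⟨k, hk⟩ := exists_nat_ge ‖η‖
    exact (Set.mem_iInter.1 hη k) (mem_closedBall_zero_iff.2 hk)
  rw [e, setIntegral_empty] at h
  exact h

/-- **LEAF L-257-EG10-TR.**  Radii.  `∫_{‖η‖ > R} egW ‖g‖² → 0` (dominated convergence / `tendsto_setIntegral_of_antitone`); choose `R j` increasing (`R j ≥ j`) with tail `≤ (1/4)^j`.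
The increment `egTr g (R (j+1)) - egTr g (R j) = g 1_{R j < ‖η‖ ≤ R (j+1)}`. -/
theorem eg_radii {g : EgV n → ℂ} (hg : EgSob g) : ∃ R : ℕ → ℝ, Monotone R ∧ (∀ j : ℕ, (j : ℝ) ≤ R j) ∧
    (∀ j, EgData (egTr g (R j))) ∧ (∀ j, EgData (egTr g (R (j + 1)) - egTr g (R j))) ∧
    (∀ j, egNorm (egTr g (R (j + 1)) - egTr g (R j)) ≤ (1 / 2 : ℝ) ^ j) ∧
    Tendsto (fun j => ∫ η, ‖g η - egTr g (R j) η‖ ^ 2) atTop (𝓝 0) := by
  have hT := eg_tail_tendsto hg
  have hN : ∀ j : ℕ, ∃ N : ℕ, ∀ k ≥ N,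
      ∫ η in (closedBall (0 : EgV n) (k : ℝ))ᶜ, egW η * ‖g η‖ ^ 2 ≤ (1 / 4 : ℝ) ^ j := by
    intro j
    exact eventually_atTop.1 (hT.eventually_le_const (by positivity))
  choose N hN using hN
  set P : ℕ →o ℕ := partialSups fun i => max (N i) i with hP
  have hPN : ∀ j, N j ≤ P j := fun j => (le_max_left _ _).trans (le_partialSups (fun i => max (N i) i) j)
  have hPj : ∀ j, j ≤ P j := fun j => (le_max_right _ _).trans (le_partialSups (fun i => max (N i) i) j)
  have hmono : Monotone fun j => ((P j : ℕ) : ℝ) := fun i j hij => Nat.cast_le.2 (P.monotone hij)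
  have htail : ∀ j, ∫ η in (closedBall (0 : EgV n) ((P j : ℕ) : ℝ))ᶜ, egW η * ‖g η‖ ^ 2 ≤ (1 / 4 : ℝ) ^ j :=
    fun j => hN j _ (hPN j)
  refine ⟨fun j => ((P j : ℕ) : ℝ), hmono, fun j => Nat.cast_le.2 (hPj j), fun j => ?_, fun j => ?_, fun j => ?_, ?_⟩
  · exact eg_data_indicator hg measurableSet_closedBall subset_rfl
  · rw [eg_tr_sub (hmono (Nat.le_succ j))]
    exact eg_data_indicator hg (measurableSet_closedBall.diff measurableSet_closedBall) Set.sdiff_subset
  · simp only []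
    rw [eg_tr_sub (hmono (Nat.le_succ j))]
    unfold egNorm
    have h1 := (eg_tail_le hg (measurableSet_closedBall.diff measurableSet_closedBall)
      (s := closedBall (0 : EgV n) ((P (j + 1) : ℕ) : ℝ) \ closedBall (0 : EgV n) ((P j : ℕ) : ℝ))
      (r := ((P j : ℕ) : ℝ)) (fun η hη => hη.2)).trans (htail j)
    have h2 : (1 / 4 : ℝ) ^ j = ((1 / 2 : ℝ) ^ j) ^ 2 := by
      rw [← pow_mul, mul_comm, pow_mul]
      norm_num
    rw [h2] at h1
    exact (Real.sqrt_le_sqrt h1).trans (le_of_eq (Real.sqrt_sq (by positivity)))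
  · refine squeeze_zero (fun j => integral_nonneg fun η => by positivity) (fun j => ?_)
      (tendsto_pow_atTop_nhds_zero_of_lt_one (by norm_num : (0 : ℝ) ≤ 1 / 4) (by norm_num))
    have e : (fun η => ‖g η - egTr g ((P j : ℕ) : ℝ) η‖ ^ 2)
        = fun η => ‖((closedBall (0 : EgV n) ((P j : ℕ) : ℝ))ᶜ).indicator g η‖ ^ 2 := by
      funext η
      unfold egTr
      by_cases h : η ∈ closedBall (0 : EgV n) ((P j : ℕ) : ℝ)
      · simp [h]
      · simp [h]
    rw [e]
    refine le_trans ?_ ((eg_tail_le hg measurableSet_closedBall.compl subset_rfl).trans (htail j))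
    have hd : Integrable fun η => ‖((closedBall (0 : EgV n) ((P j : ℕ) : ℝ))ᶜ).indicator g η‖ ^ 2 := by
      have e2 : (fun η => ‖((closedBall (0 : EgV n) ((P j : ℕ) : ℝ))ᶜ).indicator g η‖ ^ 2)
          = ((closedBall (0 : EgV n) ((P j : ℕ) : ℝ))ᶜ).indicator fun η => ‖g η‖ ^ 2 := by
        funext η
        by_cases h : η ∈ (closedBall (0 : EgV n) ((P j : ℕ) : ℝ))ᶜ
        · simp only [Set.indicator_of_mem h]
        · simp only [Set.indicator_of_notMem h, norm_zero]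
          norm_num
      rw [e2]
      exact (eg_sob_sq hg).indicator measurableSet_closedBall.compl
    have hd2 : Integrable fun η => egW η * ‖((closedBall (0 : EgV n) ((P j : ℕ) : ℝ))ᶜ).indicator g η‖ ^ 2 := by
      have e2 : (fun η => egW η * ‖((closedBall (0 : EgV n) ((P j : ℕ) : ℝ))ᶜ).indicator g η‖ ^ 2)
          = ((closedBall (0 : EgV n) ((P j : ℕ) : ℝ))ᶜ).indicator fun η => egW η * ‖g η‖ ^ 2 := by
        funext η
        by_cases h : η ∈ (closedBall (0 : EgV n) ((P j : ℕ) : ℝ))ᶜ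
        · simp only [Set.indicator_of_mem h]
        · simp only [Set.indicator_of_notMem h, norm_zero]
          norm_num
      rw [e2]
      exact hg.int.indicator measurableSet_closedBall.compl
    refine integral_mono hd hd2 fun η => ?_
    have := eg_W_one_le η
    simp only []
    nlinarith [sq_nonneg ‖((closedBall (0 : EgV n) ((P j : ℕ) : ℝ))ᶜ).indicator g η‖]

theorem eg_T0_countable : egT0.Countable := (Set.countable_range _).mono Set.inter_subset_left

theorem eg_T0_closure {t : ℝ} (ht : t ∈ Set.Ico (0 : ℝ) 1) : t ∈ closure egT0 := by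
  rw [Metric.mem_closure_iff]
  intro ε hε
  obtain ⟨q, hq1, hq2⟩ := exists_rat_btwn (lt_min (lt_add_of_pos_right t hε) ht.2)
  refine ⟨q, ⟨⟨q, rfl⟩, ht.1.trans hq1.le, hq2.trans_le (min_le_right _ _)⟩, ?_⟩
  rw [Real.dist_eq, abs_sub_comm, abs_of_pos (sub_pos.2 hq1)]
  have := hq2.trans_le (min_le_left _ _)
  linarith

/-- **LEAF L-257-EG10-DJ.**  measurability: countable supremum of continuous functions (`Measurable.biSup`, `eg_S_cont`). -/
theorem eg_Dj_meas {g : EgV n → ℂ} {R : ℕ → ℝ} (hd : ∀ j, EgData (egTr g (R (j + 1)) - egTr g (R j))) (j : ℕ) :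
    Measurable (egDj g R j) := by
  unfold egDj
  refine Measurable.biSup _ eg_T0_countable fun t _ => ?_
  have hc := eg_S_cont (eg_data_integrable (hd j))
  exact (hc.comp (continuous_const.prodMk continuous_id : Continuous fun x : EgV n => (t, x))).enorm.measurable

/-- **LEAF L-257-EG10-DJ.**  density of `egT0` in `Ico 0 1` + continuity in `t` (`eg_S_cont`): the supremum over `egT0` dominates all real times. -/
theorem eg_Dj_ge {g : EgV n → ℂ} {R : ℕ → ℝ} (hd : ∀ j, EgData (egTr g (R (j + 1)) - egTr g (R j))) (j : ℕ) (x : EgV n) (t : ℝ)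
    (ht : t ∈ Set.Ico (0 : ℝ) 1) : ‖egS (egTr g (R (j + 1)) - egTr g (R j)) t x‖ₑ ≤ egDj g R j x := by
  have hc := eg_S_cont (eg_data_integrable (hd j))
  have hc2 : Continuous fun s : ℝ => ‖egS (egTr g (R (j + 1)) - egTr g (R j)) s x‖ₑ :=
    (hc.comp (continuous_id.prodMk continuous_const : Continuous fun s : ℝ => (s, x))).enorm
  have hcl : IsClosed {s : ℝ | ‖egS (egTr g (R (j + 1)) - egTr g (R j)) s x‖ₑ ≤ egDj g R j x} :=
    isClosed_le hc2 continuous_const
  have hsub : egT0 ⊆ {s : ℝ | ‖egS (egTr g (R (j + 1)) - egTr g (R j)) s x‖ₑ ≤ egDj g R j x} := by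
    intro s hs
    exact le_iSup₂ (f := fun s (_ : s ∈ egT0) => ‖egS (egTr g (R (j + 1)) - egTr g (R j)) s x‖ₑ) s hs
  exact closure_minimal hsub hcl (eg_T0_closure ht)

/-- **LEAF L-257-EG10-MJ.**  `lintegral_tsum`, `eg_maximal`, geometric series: `A_j = 2 C' 2^{-j}`. -/
theorem eg_Mj_int (hn : 1 ≤ n) {p C : ℝ} (hp : 2 < p) (hC : 0 ≤ C) (hS : EgShort n p C) : ∃ C' : ℝ, 0 ≤ C' ∧
    ∀ (g : EgV n → ℂ) (R : ℕ → ℝ), (∀ j, EgData (egTr g (R (j + 1)) - egTr g (R j))) →
    (∀ j, egNorm (egTr g (R (j + 1)) - egTr g (R j)) ≤ (1 / 2 : ℝ) ^ j) →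
    ∀ (j : ℕ) (z : EgV n), ∫⁻ x in ball z 1, egMj g R j x ≤ ENNReal.ofReal (C' * (1 / 2 : ℝ) ^ j) := by
  obtain ⟨C₁, hC₁, hmax⟩ := eg_maximal hn hp hC hS
  refine ⟨2 * C₁, by positivity, fun g R hd hN j z => ?_⟩
  have hcount : egT0.Countable := (Set.countable_range _).mono Set.inter_subset_left
  unfold egMj
  rw [lintegral_tsum fun l => (eg_Dj_meas hd (j + l)).aemeasurable]
  have h1 : ∀ l, ∫⁻ x in ball z 1, egDj g R (j + l) x ≤ ENNReal.ofReal (C₁ * (1 / 2 : ℝ) ^ j * (1 / 2 : ℝ) ^ l) := by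
    intro l
    refine (hmax _ (hd (j + l)) z egT0 hcount Set.inter_subset_right).trans (ENNReal.ofReal_le_ofReal ?_)
    rw [mul_assoc, ← pow_add]
    exact mul_le_mul_of_nonneg_left (hN (j + l)) hC₁
  refine (ENNReal.tsum_le_tsum h1).trans (le_of_eq ?_)
  rw [← ENNReal.ofReal_tsum_of_nonneg (fun l => by positivity) (summable_geometric_two.mul_left _), tsum_mul_left,
    tsum_geometric_two]
  congr 1
  ring

theorem eg_Mj_meas {g : EgV n → ℂ} {R : ℕ → ℝ} (hd : ∀ j, EgData (egTr g (R (j + 1)) - egTr g (R j))) (j : ℕ) :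
    Measurable (egMj g R j) :=
  Measurable.tsum fun l => eg_Dj_meas hd (j + l)

/-- **LEAF L-257-EG10-MJ.**  finite local integrals on a countable cover by unit balls (`ae_lt_top`, `ae_restrict`, second countability / centres in a dense sequence). -/
theorem eg_M0_ae {M : EgV n → ℝ≥0∞} (hM : Measurable M) {A : ℝ≥0∞} (hA : A ≠ ⊤) (hMA : ∀ z, ∫⁻ x in ball z 1, M x ≤ A) :
    ∀ᵐ x : EgV n, M x < ⊤ := by
  have h1 : ∀ k : ℕ, ∀ᵐ x : EgV n, x ∈ ball (TopologicalSpace.denseSeq (EgV n) k) 1 → M x < ⊤ := by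
    intro k
    rw [← ae_restrict_iff' measurableSet_ball]
    exact ae_lt_top hM (ne_top_of_le_ne_top hA (hMA _))
  filter_upwards [ae_all_iff.2 h1] with x hx
  obtain ⟨k, hk⟩ := (TopologicalSpace.denseRange_denseSeq (EgV n)).exists_dist_lt x one_pos
  exact hx k (mem_ball.2 hk)

/-- **LEAF L-257-EG10-MJ.**  tails of a convergent series (`ENNReal.tendsto_sum_nat_add` / `tendsto_tsum_compl_atTop_zero`). -/
theorem eg_Mj_tendsto (g : EgV n → ℂ) (R : ℕ → ℝ) (x : EgV n) (hx : egMj g R 0 x < ⊤) :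
    Tendsto (fun j => egMj g R j x) atTop (𝓝 0) := by
  unfold egMj at hx ⊢
  simp only [zero_add] at hx
  have h := ENNReal.tendsto_sum_nat_add (fun l => egDj g R l x) hx.ne
  simpa only [add_comm] using h

theorem eg_E_cont_eta (a t : ℝ) (x : EgV n) : Continuous fun η : EgV n => egE a t x η := by
  have h1 : Continuous fun η : EgV n => ((a, t, x, η) : ℝ × ℝ × EgV n × EgV n) := by fun_prop
  have h2 := (eg_E_cont (n := n)).comp h1
  exact h2

theorem eg_E_norm_le_one (a : ℝ) (ha : 0 ≤ a) (t : ℝ) (x η : EgV n) : ‖egE a t x η‖ ≤ 1 := by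
  rw [eg_E_norm]
  apply Real.exp_le_one_iff.2
  have : 0 ≤ 4 * Real.pi ^ 2 * (a * ‖η‖ ^ 2) := by positivity
  linarith

theorem eg_E_mul_integrable (a : ℝ) (ha : 0 ≤ a) (t : ℝ) (x : EgV n) {h : EgV n → ℂ} (hh : Integrable h) :
    Integrable fun η => egE a t x η * h η :=
  hh.bdd_mul (c := 1) (eg_E_cont_eta a t x).aestronglyMeasurable (Eventually.of_forall fun η => eg_E_norm_le_one a ha t x η)

theorem eg_S_sub {h h' : EgV n → ℂ} (hh : Integrable h) (hh' : Integrable h') (t : ℝ) (x : EgV n) :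
    egS (h - h') t x = egS h t x - egS h' t x := by
  unfold egS
  rw [← integral_sub (eg_E_mul_integrable 0 le_rfl t x hh) (eg_E_mul_integrable 0 le_rfl t x hh')]
  refine integral_congr_ae (Eventually.of_forall fun η => ?_)
  simp [mul_sub]

theorem eg_S_cont_t {h : EgV n → ℂ} (hh : Integrable h) (x : EgV n) : Continuous fun t : ℝ => egS h t x := by
  have h1 : Continuous fun t : ℝ => ((t, x) : ℝ × EgV n) := by fun_prop
  have h2 := (eg_S_cont hh).comp h1
  exact h2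

/-- **LEAF L-257-EG10-V.**  The representative.
PLAN.  `u_j t = egS (egTr g (R j)) t x`; `u_{j+1} - u_j = egS (increment)` (linearity, `eg_data_integrable`), bounded on `Ico 0 1` by `(egDj g R j x).toReal`, summable.
`v t = u_0 t + ∑' j, (u_{j+1} t - u_j t)`; `continuousOn_tsum`; `‖v t - u_j t‖ₑ ≤ ∑_{l ≥ j} D_l = egMj g R j x`. -/
theorem eg_rep {g : EgV n → ℂ} {R : ℕ → ℝ} (h0 : ∀ j, EgData (egTr g (R j))) (hd : ∀ j, EgData (egTr g (R (j + 1)) - egTr g (R j)))
    (x : EgV n) (hx : egMj g R 0 x < ⊤) : ∃ v : ℝ → ℂ, ContinuousOn v (Set.Ico 0 1) ∧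
      ∀ j, ∀ t ∈ Set.Ico (0 : ℝ) 1, ‖v t - egS (egTr g (R j)) t x‖ₑ ≤ egMj g R j x := by
  have hdu : ∀ j t, egS (egTr g (R (j + 1)) - egTr g (R j)) t x = egS (egTr g (R (j + 1))) t x - egS (egTr g (R j)) t x :=
    fun j t => eg_S_sub (eg_data_integrable (h0 (j + 1))) (eg_data_integrable (h0 j)) t x
  have hsumD : ∑' l, egDj g R l x ≠ ⊤ := by
    have := hx.ne
    simpa [egMj] using this
  have hsum : Summable fun l => (egDj g R l x).toReal := ENNReal.summable_toReal hsumD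
  have hDfin : ∀ l, egDj g R l x ≠ ⊤ := ENNReal.ne_top_of_tsum_ne_top hsumD
  have hbd : ∀ (l : ℕ) (t : ℝ), t ∈ Set.Ico (0 : ℝ) 1 →
      ‖egS (egTr g (R (l + 1)) - egTr g (R l)) t x‖ ≤ (egDj g R l x).toReal := by
    intro l t ht
    have := eg_Dj_ge hd l x t ht
    rw [← ofReal_norm, ENNReal.ofReal_le_iff_le_toReal (hDfin l)] at this
    exact this
  refine ⟨fun t => egS (egTr g (R 0)) t x + ∑' l, egS (egTr g (R (l + 1)) - egTr g (R l)) t x, ?_, ?_⟩
  · refine ContinuousOn.add (eg_S_cont_t (eg_data_integrable (h0 0)) x).continuousOn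
      (continuousOn_tsum (fun l => ?_) hsum hbd)
    exact (eg_S_cont_t (eg_data_integrable (hd l)) x).continuousOn
  · intro j t ht
    have hs : Summable fun l => egS (egTr g (R (l + 1)) - egTr g (R l)) t x :=
      Summable.of_norm_bounded hsum (fun l => hbd l t ht)
    have htel : egS (egTr g (R j)) t x
        = egS (egTr g (R 0)) t x + ∑ i ∈ Finset.range j, egS (egTr g (R (i + 1)) - egTr g (R i)) t x := by
      simp only [hdu]
      rw [Finset.sum_range_sub (fun i => egS (egTr g (R i)) t x)]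
      ring
    have e : egS (egTr g (R 0)) t x + ∑' l, egS (egTr g (R (l + 1)) - egTr g (R l)) t x - egS (egTr g (R j)) t x
        = ∑' l, egS (egTr g (R (l + j + 1)) - egTr g (R (l + j))) t x := by
      rw [htel, ← hs.sum_add_tsum_nat_add j]
      ring
    show ‖egS (egTr g (R 0)) t x + ∑' l, egS (egTr g (R (l + 1)) - egTr g (R l)) t x - egS (egTr g (R j)) t x‖ₑ ≤ _
    rw [e]
    calc ‖∑' l, egS (egTr g (R (l + j + 1)) - egTr g (R (l + j))) t x‖ₑ
        ≤ ∑' l, ‖egS (egTr g (R (l + j + 1)) - egTr g (R (l + j))) t x‖ₑ := enorm_tsum_le_tsum_enorm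
      _ ≤ ∑' l, egDj g R (j + l) x := ENNReal.tsum_le_tsum fun l => by
          rw [add_comm j l]
          exact eg_Dj_ge hd _ x t ht
      _ = egMj g R j x := rfl

theorem eg_env_cs {α : Type*} [MeasurableSpace α] {μ : Measure α} {f g : α → ℝ} (hf0 : ∀ x, 0 ≤ f x) (hg0 : ∀ x, 0 ≤ g x)
    (hfm : AEStronglyMeasurable f μ) (hgm : AEStronglyMeasurable g μ) (hf : Integrable (fun x => f x ^ 2) μ)
    (hg : Integrable (fun x => g x ^ 2) μ) :
    ∫ x, f x * g x ∂μ ≤ Real.sqrt (∫ x, f x ^ 2 ∂μ) * Real.sqrt (∫ x, g x ^ 2 ∂μ) := by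
  have h := integral_mul_le_Lp_mul_Lq_of_nonneg Real.HolderConjugate.two_two (Eventually.of_forall hf0)
    (Eventually.of_forall hg0) (by simpa using (memLp_two_iff_integrable_sq hfm).2 hf)
    (by simpa using (memLp_two_iff_integrable_sq hgm).2 hg)
  simpa [Real.sqrt_eq_rpow] using h

/-- the square of the Gaussian multiplier is integrable -/
theorem eg_gauss_sq_integrable (a : ℝ) (ha : 0 < a) :
    Integrable fun η : EgV n => Real.exp (-(4 * Real.pi ^ 2 * (a * ‖η‖ ^ 2))) ^ 2 := by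
  have h := (eg_heat_integral (n := n) (1 / (32 * Real.pi ^ 2 * a)) (by positivity)).1
  have h2 := h.const_mul ((4 * Real.pi * (1 / (32 * Real.pi ^ 2 * a))) ^ (-(n : ℝ) / 2))⁻¹
  refine h2.congr (Eventually.of_forall fun η => ?_)
  have hpos : 0 < (4 * Real.pi * (1 / (32 * Real.pi ^ 2 * a))) ^ (-(n : ℝ) / 2) := by positivity
  show ((4 * Real.pi * (1 / (32 * Real.pi ^ 2 * a))) ^ (-(n : ℝ) / 2))⁻¹ * egHeat (1 / (32 * Real.pi ^ 2 * a)) η
    = Real.exp (-(4 * Real.pi ^ 2 * (a * ‖η‖ ^ 2))) ^ 2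
  unfold egHeat
  rw [← mul_assoc, inv_mul_cancel₀ hpos.ne', one_mul, ← Real.exp_nat_mul]
  congr 1
  have : Real.pi ≠ 0 := Real.pi_ne_zero
  field_simp
  ring

theorem eg_U_integrable (a : ℝ) (ha : 0 < a) (t : ℝ) (x : EgV n) {h : EgV n → ℂ} (hm : Measurable h)
    (hh : Integrable fun η => ‖h η‖ ^ 2) : Integrable fun η => egE a t x η * h η := by
  refine ((eg_gauss_sq_integrable (n := n) a ha).add hh).mono'
    ((eg_E_cont_eta a t x).aestronglyMeasurable.mul hm.aestronglyMeasurable) (Eventually.of_forall fun η => ?_)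
  rw [norm_mul, eg_E_norm]
  show _ ≤ Real.exp (-(4 * Real.pi ^ 2 * (a * ‖η‖ ^ 2))) ^ 2 + ‖h η‖ ^ 2
  nlinarith [sq_nonneg (Real.exp (-(4 * Real.pi ^ 2 * (a * ‖η‖ ^ 2))) - ‖h η‖),
    sq_nonneg (Real.exp (-(4 * Real.pi ^ 2 * (a * ‖η‖ ^ 2)))), sq_nonneg ‖h η‖]

theorem eg_U_norm_le (a : ℝ) (ha : 0 < a) (t : ℝ) (x : EgV n) {h : EgV n → ℂ} (hm : Measurable h)
    (hh : Integrable fun η => ‖h η‖ ^ 2) :
    ‖egU h a t x‖ ≤ Real.sqrt (∫ η : EgV n, Real.exp (-(4 * Real.pi ^ 2 * (a * ‖η‖ ^ 2))) ^ 2) * Real.sqrt (∫ η, ‖h η‖ ^ 2) := by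
  unfold egU
  refine (norm_integral_le_integral_norm _).trans ?_
  have e : (fun η => ‖egE a t x η * h η‖) = fun η => Real.exp (-(4 * Real.pi ^ 2 * (a * ‖η‖ ^ 2))) * ‖h η‖ := by
    funext η
    rw [norm_mul, eg_E_norm]
  rw [e]
  refine eg_env_cs (fun η => (Real.exp_pos _).le) (fun η => norm_nonneg _) ?_ hm.norm.aestronglyMeasurable
    (eg_gauss_sq_integrable a ha) hh
  exact (by fun_prop : Continuous fun η : EgV n => Real.exp (-(4 * Real.pi ^ 2 * (a * ‖η‖ ^ 2)))).aestronglyMeasurable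

theorem eg_S_tele {g : EgV n → ℂ} {R : ℕ → ℝ} (h0 : ∀ j, EgData (egTr g (R j)))
    (hd : ∀ j, EgData (egTr g (R (j + 1)) - egTr g (R j))) (j : ℕ) (t : ℝ) (ht : t ∈ Set.Ico (0 : ℝ) 1) (y : EgV n) (k : ℕ) :
    ‖egS (egTr g (R (j + k))) t y - egS (egTr g (R j)) t y‖ₑ ≤ ∑ i ∈ Finset.range k, egDj g R (j + i) y := by
  induction k with
  | zero => simp
  | succ k ih =>
    rw [Finset.sum_range_succ]
    have e : egS (egTr g (R (j + (k + 1)))) t y - egS (egTr g (R j)) t y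
        = (egS (egTr g (R (j + k))) t y - egS (egTr g (R j)) t y) + egS (egTr g (R (j + k + 1)) - egTr g (R (j + k))) t y := by
      rw [eg_S_sub (eg_data_integrable (h0 (j + k + 1))) (eg_data_integrable (h0 (j + k)))]
      rw [← add_assoc]
      ring
    rw [e]
    exact (enorm_add_le _ _).trans (add_le_add ih (eg_Dj_ge hd (j + k) y t ht))

/-- **LEAF L-257-EG10-ENV.**  The envelope inequality, at EVERY point `x`.
PLAN.  `egU g a t x - egU g_j a t x = lim_l (egU g_l a t x - egU g_j a t x)`: `|egU (g - g_l)| ≤ ‖exp(-4π² a|η|²)‖₂ ‖g - g_l‖₂ → 0` (Cauchy-Schwarz, `eg_E_norm`).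
`egU g_l - egU g_j = ∫ egHeat a (x - y) (egS g_l t y - egS g_j t y) dy` (`eg_heat_conv`), `‖egS g_l t y - egS g_j t y‖ₑ ≤ ∑_{j ≤ i < l} egDj g R i y ≤ egMj g R j y` (`eg_Dj_ge`, telescoping, `ENNReal.sum_le_tsum`);
`enorm_integral_le_lintegral_enorm`; closedness of `≤` under limits (`le_of_tendsto`). -/
theorem eg_envelope {g : EgV n → ℂ} (hg : EgSob g) {R : ℕ → ℝ} (h0 : ∀ j, EgData (egTr g (R j)))
    (hd : ∀ j, EgData (egTr g (R (j + 1)) - egTr g (R j))) (hL2 : Tendsto (fun j => ∫ η, ‖g η - egTr g (R j) η‖ ^ 2) atTop (𝓝 0))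
    (j : ℕ) (a : ℝ) (ha : 0 < a) (t : ℝ) (ht : t ∈ Set.Ico (0 : ℝ) 1) (x : EgV n) :
    ‖egU g a t x - egU (egTr g (R j)) a t x‖ₑ ≤ ∫⁻ y, ENNReal.ofReal (egHeat a (x - y)) * egMj g R j y := by
  have hgi := eg_U_integrable a ha t x hg.meas (eg_sob_sq hg)
  have hli : ∀ l, Integrable fun η => egE a t x η * egTr g (R l) η := fun l =>
    eg_E_mul_integrable a ha.le t x (eg_data_integrable (h0 l))
  -- (1) convergence
  have hsq : ∀ l, Integrable fun η => ‖(g - egTr g (R l)) η‖ ^ 2 := by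
    intro l
    refine (((eg_sob_sq hg).add (h0 l).sq).const_mul 2).mono'
      ((hg.meas.sub (h0 l).meas).norm.pow_const 2).aestronglyMeasurable (Eventually.of_forall fun η => ?_)
    rw [Real.norm_of_nonneg (by positivity)]
    show ‖g η - egTr g (R l) η‖ ^ 2 ≤ 2 * (‖g η‖ ^ 2 + ‖egTr g (R l) η‖ ^ 2)
    have h1 := norm_sub_le (g η) (egTr g (R l) η)
    have h2 := norm_nonneg (g η - egTr g (R l) η)
    nlinarith [sq_nonneg (‖g η‖ - ‖egTr g (R l) η‖), norm_nonneg (g η), norm_nonneg (egTr g (R l) η)]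
  have hlim : Tendsto (fun l => egU (egTr g (R l)) a t x) atTop (𝓝 (egU g a t x)) := by
    rw [tendsto_iff_norm_sub_tendsto_zero]
    have hb : Tendsto (fun l => Real.sqrt (∫ η : EgV n, Real.exp (-(4 * Real.pi ^ 2 * (a * ‖η‖ ^ 2))) ^ 2)
        * Real.sqrt (∫ η, ‖g η - egTr g (R l) η‖ ^ 2)) atTop (𝓝 0) := by
      have := (hL2.sqrt).const_mul (Real.sqrt (∫ η : EgV n, Real.exp (-(4 * Real.pi ^ 2 * (a * ‖η‖ ^ 2))) ^ 2))
      simpa using this
    refine squeeze_zero (fun l => norm_nonneg _) (fun l => ?_) hb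
    have e : egU (egTr g (R l)) a t x - egU g a t x = - egU (g - egTr g (R l)) a t x := by
      unfold egU
      rw [← integral_sub (hli l) hgi, ← integral_neg]
      refine integral_congr_ae (Eventually.of_forall fun η => ?_)
      simp only [Pi.sub_apply]
      ring
    rw [e, norm_neg]
    exact eg_U_norm_le a ha t x (hg.meas.sub (h0 l).meas) (hsq l)
  -- (2) the bound for the truncations
  have hbd : ∀ k, ‖egU (egTr g (R (j + k))) a t x - egU (egTr g (R j)) a t x‖ₑ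
      ≤ ∫⁻ y, ENNReal.ofReal (egHeat a (x - y)) * egMj g R j y := by
    intro k
    have hint : Integrable (egTr g (R (j + k)) - egTr g (R j)) :=
      (eg_data_integrable (h0 (j + k))).sub (eg_data_integrable (h0 j))
    have e : egU (egTr g (R (j + k))) a t x - egU (egTr g (R j)) a t x
        = ∫ y, (egHeat a (x - y) : ℂ) * egS (egTr g (R (j + k)) - egTr g (R j)) t y := by
      rw [← eg_heat_conv a ha t x hint]
      unfold egU
      rw [← integral_sub (hli (j + k)) (hli j)]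
      refine integral_congr_ae (Eventually.of_forall fun η => ?_)
      simp only [Pi.sub_apply]
      ring
    rw [e]
    refine (enorm_integral_le_lintegral_enorm _).trans (lintegral_mono fun y => ?_)
    rw [enorm_mul, eg_S_sub (eg_data_integrable (h0 (j + k))) (eg_data_integrable (h0 j))]
    have e2 : ‖(egHeat a (x - y) : ℂ)‖ₑ = ENNReal.ofReal (egHeat a (x - y)) := by
      rw [← ofReal_norm, Complex.norm_real, Real.norm_of_nonneg (eg_heat_nonneg a ha _)]
    rw [e2]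
    gcongr
    exact (eg_S_tele h0 hd j t ht y k).trans (ENNReal.sum_le_tsum _)
  -- (3) limit
  have hlim2 : Tendsto (fun l => ‖egU (egTr g (R l)) a t x - egU (egTr g (R j)) a t x‖ₑ) atTop
      (𝓝 ‖egU g a t x - egU (egTr g (R j)) a t x‖ₑ) :=
    (continuous_enorm.tendsto _).comp (hlim.sub_const _)
  refine le_of_tendsto hlim2 ?_
  filter_upwards [eventually_ge_atTop j] with l hl
  obtain ⟨k, rfl⟩ := Nat.exists_eq_add_of_le hl
  exact hbd k

/-- **LEAF L-257-EG10-SM.**  Smooth part: `‖egE a t x η - egE 0 t x η‖ = 1 - exp(-4π² a|η|²)` (`eg_E_split`), dominated convergence, uniformly in `t`, `x`. -/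
theorem eg_smooth_part {h : EgV n → ℂ} (hh : Integrable h) : ∃ ρ : ℝ → ℝ, Tendsto ρ (𝓝[>] 0) (𝓝 0) ∧
    ∀ (a : ℝ), 0 < a → ∀ (t : ℝ) (x : EgV n), ‖egU h a t x - egS h t x‖ ≤ ρ a := by
  refine ⟨fun a => ∫ η, (1 - Real.exp (-(4 * Real.pi ^ 2 * (a * ‖η‖ ^ 2)))) * ‖h η‖, ?_, fun a ha t x => ?_⟩
  · have h0 : ∫ η : EgV n, (0 : ℝ) = 0 := by simp
    suffices hs : Tendsto (fun a : ℝ => ∫ η, (1 - Real.exp (-(4 * Real.pi ^ 2 * (a * ‖η‖ ^ 2)))) * ‖h η‖) (𝓝[>] 0)
        (𝓝 (∫ η : EgV n, (0 : ℝ))) by rwa [h0] at hs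
    refine tendsto_integral_filter_of_dominated_convergence (fun η => ‖h η‖) ?_ ?_ hh.norm ?_
    · refine Eventually.of_forall fun a => ?_
      refine AEStronglyMeasurable.mul ?_ hh.1.norm
      exact (by fun_prop : Continuous fun η : EgV n => 1 - Real.exp (-(4 * Real.pi ^ 2 * (a * ‖η‖ ^ 2)))).aestronglyMeasurable
    · filter_upwards [self_mem_nhdsWithin] with a (ha : 0 < a)
      refine Eventually.of_forall fun η => ?_
      have e1 : Real.exp (-(4 * Real.pi ^ 2 * (a * ‖η‖ ^ 2))) ≤ 1 := by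
        apply Real.exp_le_one_iff.2
        have : 0 ≤ 4 * Real.pi ^ 2 * (a * ‖η‖ ^ 2) := by positivity
        linarith
      have e2 := Real.exp_pos (-(4 * Real.pi ^ 2 * (a * ‖η‖ ^ 2)))
      rw [norm_mul, norm_norm, Real.norm_of_nonneg (by linarith)]
      exact mul_le_of_le_one_left (norm_nonneg _) (by linarith)
    · refine Eventually.of_forall fun η => ?_
      have hc : Continuous fun a : ℝ => (1 - Real.exp (-(4 * Real.pi ^ 2 * (a * ‖η‖ ^ 2)))) * ‖h η‖ := by fun_prop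
      have := (hc.tendsto 0).mono_left (nhdsWithin_le_nhds (s := Set.Ioi (0 : ℝ)))
      simpa using this
  · unfold egU egS
    rw [← integral_sub (eg_E_mul_integrable a ha.le t x hh) (eg_E_mul_integrable 0 le_rfl t x hh)]
    refine (norm_integral_le_integral_norm _).trans (le_of_eq ?_)
    refine integral_congr_ae (Eventually.of_forall fun η => ?_)
    have e1 : Real.exp (-(4 * Real.pi ^ 2 * (a * ‖η‖ ^ 2))) ≤ 1 := by
      apply Real.exp_le_one_iff.2
      have : 0 ≤ 4 * Real.pi ^ 2 * (a * ‖η‖ ^ 2) := by positivity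
      linarith
    show ‖egE a t x η * h η - egE 0 t x η * h η‖ = _
    rw [eg_E_split a t x η]
    have e2 : egE 0 t x η * (Real.exp (-(4 * Real.pi ^ 2 * (a * ‖η‖ ^ 2))) : ℝ) * h η - egE 0 t x η * h η
        = egE 0 t x η * (((Real.exp (-(4 * Real.pi ^ 2 * (a * ‖η‖ ^ 2))) - 1 : ℝ) : ℂ) * h η) := by
      push_cast; ring
    rw [e2, norm_mul, norm_mul, eg_E_norm_zero, one_mul, Complex.norm_real, Real.norm_of_nonpos (by linarith)]
    ring

/-- **LEAF L-257-EG10-CORE.**  Assembly on the frequency side.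
PLAN.  `R` from `eg_radii`; `C'` from `eg_Mj_int`.  Good set: `egMj g R 0 x < ⊤` (`eg_M0_ae`) and, for all `j`, the conclusion of `eg_heat_ae` for `egMj g R j` (`ae_all_iff`).  `v` from `eg_rep`.
`‖egU g a t x - v t‖ₑ ≤ (K_a ⋆ M_j)(x) + ‖egU g_j a t x - egS g_j t x‖ₑ + M_j x` (`eg_envelope`, `eg_smooth_part`, `eg_rep`).  Given `ε`: `j` with `M_j x < ε/4` (`eg_Mj_tendsto`), then `a` small.  `Metric.tendstoUniformlyOn_iff`. -/
theorem eg_core (hn : 1 ≤ n) {p C : ℝ} (hp : 2 < p) (hC : 0 ≤ C) (hS : EgShort n p C) {g : EgV n → ℂ} (hg : EgSob g) :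
    ∀ᵐ x : EgV n, ∃ v : ℝ → ℂ, ContinuousOn v (Set.Ico 0 1) ∧
      TendstoUniformlyOn (fun a t => egU g a t x) v (𝓝[>] (0 : ℝ)) (Set.Ico 0 1) := by
  obtain ⟨R, -, -, h0, hd, hN, hL2⟩ := eg_radii hg
  obtain ⟨C', hC', hMint⟩ := eg_Mj_int hn hp hC hS
  have hM := hMint g R hd hN
  have hae0 : ∀ᵐ x : EgV n, egMj g R 0 x < ⊤ := eg_M0_ae (eg_Mj_meas hd 0) ENNReal.ofReal_ne_top (hM 0)
  have haej : ∀ᵐ x : EgV n, ∀ j : ℕ, ∀ ε : ℝ≥0∞, 0 < ε → ∀ᶠ a in 𝓝[>] (0 : ℝ),
      ∫⁻ y, ENNReal.ofReal (egHeat a (x - y)) * egMj g R j y ≤ egMj g R j x + ε :=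
    ae_all_iff.2 fun j => eg_heat_ae (egMj g R j) (eg_Mj_meas hd j) _ ENNReal.ofReal_ne_top (hM j)
  filter_upwards [hae0, haej] with x hx0 hxj
  obtain ⟨v, hvc, hv⟩ := eg_rep h0 hd x hx0
  refine ⟨v, hvc, ?_⟩
  rw [Metric.tendstoUniformlyOn_iff]
  intro ε hε
  have hε4 : 0 < ε / 4 := by positivity
  have hj : ∀ᶠ j in atTop, egMj g R j x < ENNReal.ofReal (ε / 4) :=
    (eg_Mj_tendsto g R x hx0).eventually_lt_const (ENNReal.ofReal_pos.2 hε4)
  obtain ⟨j, hj⟩ := hj.exists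
  obtain ⟨ρ, hρ, hρb⟩ := eg_smooth_part (eg_data_integrable (h0 j))
  have hρe : ∀ᶠ a in 𝓝[>] (0 : ℝ), ρ a < ε / 4 := hρ.eventually_lt_const hε4
  filter_upwards [hxj j (ENNReal.ofReal (ε / 4)) (ENNReal.ofReal_pos.2 hε4), hρe, self_mem_nhdsWithin]
    with a ha1 ha2 (ha : 0 < a) t ht
  have e1 := (eg_envelope hg h0 hd hL2 j a ha t ht x).trans ha1
  have e2 := hρb a ha t x
  have e3 := hv j t ht
  have hMfin : egMj g R j x ≠ ⊤ := (hj.trans ENNReal.ofReal_lt_top).ne
  have hMr : (egMj g R j x).toReal < ε / 4 := ENNReal.toReal_lt_of_lt_ofReal hj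
  have e1' : ‖egU g a t x - egU (egTr g (R j)) a t x‖ ≤ (egMj g R j x).toReal + ε / 4 := by
    have := ENNReal.toReal_mono (ENNReal.add_ne_top.2 ⟨hMfin, ENNReal.ofReal_ne_top⟩) e1
    rwa [toReal_enorm, ENNReal.toReal_add hMfin ENNReal.ofReal_ne_top, ENNReal.toReal_ofReal hε4.le] at this
  have e3' : ‖v t - egS (egTr g (R j)) t x‖ ≤ (egMj g R j x).toReal := by
    have := ENNReal.toReal_mono hMfin e3
    rwa [toReal_enorm] at this
  rw [dist_eq_norm]
  have e : v t - egU g a t x = (v t - egS (egTr g (R j)) t x) - (egU (egTr g (R j)) a t x - egS (egTr g (R j)) t x)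
      - (egU g a t x - egU (egTr g (R j)) a t x) := by ring
  rw [e]
  have t1 := norm_sub_le ((v t - egS (egTr g (R j)) t x) - (egU (egTr g (R j)) a t x - egS (egTr g (R j)) t x))
    (egU g a t x - egU (egTr g (R j)) a t x)
  have t2 := norm_sub_le (v t - egS (egTr g (R j)) t x) (egU (egTr g (R j)) a t x - egS (egTr g (R j)) t x)
  linarith

end Claimed.Agent.R257
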