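import Mathlib

/-!
# ROW 257 (S0497), ENDGAME, unit EG0: DEFINITIONS AND SMALL FACTS          (architect helper194)          CONTRACT
Paper: H `endpoint.tex` (= P `09-endpoint.tex` with `n = 2`); reading report 835.  ONE development for all `n ≥ 1`, Mathlib normalisation of the Fourier transform (`ξ = 2π η`), everything on the FREQUENCY side.
* `egE a t x η = exp(2πi x·η - 4π² i t|η|² - 4π² a|η|²)` (literally the exponential of `Claims.C0425.gaussianSchrodinger`);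
* `egS g t x = ∫ egE 0 t x η g(η) dη` the field of the data `g = 𝓕 f`;  `egGam A τ w η = ∫_A egE 0 (τ x) x η w(x) dx` the dual function of a time graph `τ` and a phase `w`;
* `egChi = φ - φ(2·)`, `φ` a bump (`1` on `|ζ| ≤ 1`, `0` off `|ζ| < 2`): `0 ≤ egChi ≤ 1`, supported in `1/2 ≤ |ζ| ≤ 2`, `φ(η) + ∑_{1 ≤ j ≤ J} egChi(η/2^j) = φ(η/2^J)`.  Only `egChi` (never its square root) has to be smooth;
* `egD j A τ w = 2^{-2js} ∫ egChi(η/2^j) |egGam A τ w η|² dη`  (`= d_j` of the paper),   `egKer j z s = ∫ egChi(η/2^j) egE 0 s z η dη` the pairing kernel;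
* **`EgShort n p C`** = THE ONLY INPUT of the endgame: the dual restricted form of the lossless short-time estimate (`e:short-time`, `prop:shortmax`).
Every `sorry` is a leaf `L-257-EG0-*`.  Statements are frozen; auxiliary lemmas directly above your theorem, prefix `eg_`; edit only your block.
-/

set_option autoImplicit false

namespace Claimed.Agent.R257

open MeasureTheory Filter Topology Metric Set
open scoped ENNReal ContDiff ComplexConjugate

/-- the space -/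
abbrev EgV (n : ℕ) : Type := EuclideanSpace ℝ (Fin n)

variable {n : ℕ}

/-- the critical exponent `s = n / (2 (n + 1))` -/
noncomputable def egs (n : ℕ) : ℝ := (n : ℝ) / (2 * ((n : ℝ) + 1))

/-- the character -/
noncomputable def egE (a t : ℝ) (x η : EgV n) : ℂ :=
  Complex.exp (2 * Real.pi * Complex.I * ((inner ℝ x η : ℝ) : ℂ)
      - 4 * (Real.pi : ℂ) ^ 2 * Complex.I * ((t * ‖η‖ ^ 2 : ℝ) : ℂ)
      - 4 * (Real.pi : ℂ) ^ 2 * ((a * ‖η‖ ^ 2 : ℝ) : ℂ))

/-- the field of the frequency data `g` -/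
noncomputable def egS (g : EgV n → ℂ) (t : ℝ) (x : EgV n) : ℂ := ∫ η, egE 0 t x η * g η

/-- the dual function of the set `A`, the time graph `τ` and the phase `w` -/
noncomputable def egGam (A : Set (EgV n)) (τ : EgV n → ℝ) (w : EgV n → ℂ) (η : EgV n) : ℂ := ∫ x in A, egE 0 (τ x) x η * w x

/-- the bump `φ` -/
noncomputable def egBump (n : ℕ) : ContDiffBump (0 : EgV n) := ⟨1, 2, one_pos, one_lt_two⟩

/-- the annular cut-off `χ = φ - φ(2·)` -/
noncomputable def egChi (ζ : EgV n) : ℝ := egBump n ζ - egBump n ((2 : ℝ) • ζ)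

/-- the cut-off at frequency `2^j` -/
noncomputable def egChiJ (j : ℕ) (η : EgV n) : ℝ := egChi (((2 : ℝ) ^ j)⁻¹ • η)

/-- the normalised dual energy `d_j` -/
noncomputable def egD (j : ℕ) (A : Set (EgV n)) (τ : EgV n → ℝ) (w : EgV n → ℂ) : ℝ :=
  ((2 : ℝ) ^ j) ^ (-(2 * egs n)) * ∫ η, egChiJ j η * ‖egGam A τ w η‖ ^ 2

/-- the pairing kernel -/
noncomputable def egKer (j : ℕ) (z : EgV n) (s : ℝ) : ℂ := ∫ η, (egChiJ j η : ℂ) * egE 0 s z η

/-- the Sobolev weight `(1 + 4π²|η|²)^s` -/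
noncomputable def egW (η : EgV n) : ℝ := (1 + 4 * Real.pi ^ 2 * ‖η‖ ^ 2) ^ (egs n)

/-- the heat kernel: its Fourier transform is `exp(-4π² a|η|²)` -/
noncomputable def egHeat (a : ℝ) (y : EgV n) : ℝ := (4 * Real.pi * a) ^ (-(n : ℝ) / 2) * Real.exp (-‖y‖ ^ 2 / (4 * a))

/-- the part of `A` whose times lie in the dyadic interval `[k 2^-a, (k+1) 2^-a)` -/
def egPc (A : Set (EgV n)) (τ : EgV n → ℝ) (a k : ℕ) : Set (EgV n) := A ∩ τ ⁻¹' Set.Ico ((k : ℝ) / 2 ^ a) (((k : ℝ) + 1) / 2 ^ a)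

/-- admissible data of a dual function: a measurable subset of a unit ball, a SIMPLE time function, a measurable phase -/
structure EgDat (x₀ : EgV n) (A : Set (EgV n)) (τ : EgV n → ℝ) (w : EgV n → ℂ) : Prop where
  mA : MeasurableSet A
  sub : A ⊆ ball x₀ 1
  mτ : Measurable τ
  fin : (Set.range τ).Finite
  mw : Measurable w
  w1 : ∀ x, ‖w x‖ ≤ 1

/-- **THE INTERFACE.**  Dual restricted form of the lossless short-time maximal estimate at frequency `2^j` on a time window of length `2^-j`. -/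
def EgShort (n : ℕ) (p C : ℝ) : Prop :=
  ∀ (j : ℕ) (x₀ : EgV n) (A : Set (EgV n)) (τ : EgV n → ℝ) (w : EgV n → ℂ) (t₀ : ℝ), EgDat x₀ A τ w →
    (∀ x ∈ A, τ x ∈ Set.Icc t₀ (t₀ + 1 / 2 ^ j)) →
    ∫ η in {η : EgV n | (2 : ℝ) ^ j / 2 ≤ ‖η‖ ∧ ‖η‖ ≤ 2 * 2 ^ j}, ‖egGam A τ w η‖ ^ 2
      ≤ C * ((2 : ℝ) ^ j) ^ (2 * egs n) * (volume A).toReal ^ (2 - 2 / p)

/-! ## Small facts: the character (leaf L-257-EG0-E) -/

theorem eg_s_pos (hn : 1 ≤ n) : 0 < egs n := by
  unfold egs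
  have : (1 : ℝ) ≤ n := by exact_mod_cast hn
  positivity

theorem eg_s_lt : egs n < 1 / 2 := by
  unfold egs
  have : (0 : ℝ) ≤ n := Nat.cast_nonneg n
  rw [div_lt_div_iff₀ (by positivity) (by norm_num)]
  linarith

/-- `Complex.norm_exp`, the first two terms are purely imaginary. -/
theorem eg_E_norm (a t : ℝ) (x η : EgV n) : ‖egE a t x η‖ = Real.exp (-(4 * Real.pi ^ 2 * (a * ‖η‖ ^ 2))) := by
  unfold egE
  rw [Complex.norm_exp]
  congr 1
  have e : (2 * Real.pi * Complex.I * ((inner ℝ x η : ℝ) : ℂ)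
      - 4 * (Real.pi : ℂ) ^ 2 * Complex.I * ((t * ‖η‖ ^ 2 : ℝ) : ℂ)
      - 4 * (Real.pi : ℂ) ^ 2 * ((a * ‖η‖ ^ 2 : ℝ) : ℂ)) =
      ((-(4 * Real.pi ^ 2 * (a * ‖η‖ ^ 2)) : ℝ) : ℂ) +
        ((2 * Real.pi * inner ℝ x η - 4 * Real.pi ^ 2 * (t * ‖η‖ ^ 2) : ℝ) : ℂ) * Complex.I := by
    push_cast
    ring
  rw [e, Complex.add_re, Complex.ofReal_re, Complex.re_ofReal_mul, Complex.I_re, mul_zero, add_zero]

theorem eg_E_norm_zero (t : ℝ) (x η : EgV n) : ‖egE 0 t x η‖ = 1 := by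
  rw [eg_E_norm]
  simp

/-- `Complex.exp_add`. -/
theorem eg_E_split (a t : ℝ) (x η : EgV n) : egE a t x η = egE 0 t x η * (Real.exp (-(4 * Real.pi ^ 2 * (a * ‖η‖ ^ 2))) : ℝ) := by
  unfold egE
  rw [Complex.ofReal_exp, ← Complex.exp_add]
  congr 1
  push_cast
  ring

/-- `← Complex.exp_conj`, `← Complex.exp_add`, `inner_sub_left`. -/
theorem eg_E_mul_conj (t t' : ℝ) (x y η : EgV n) : egE 0 t x η * conj (egE 0 t' y η) = egE 0 (t - t') (x - y) η := by
  unfold egE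
  rw [← Complex.exp_conj, ← Complex.exp_add]
  congr 1
  simp only [map_sub, map_mul, Complex.conj_ofReal, Complex.conj_I, inner_sub_left, map_pow, map_ofNat]
  push_cast
  ring

/-- joint continuity (`fun_prop` / `Continuous.cexp`). -/
theorem eg_E_cont : Continuous fun q : ℝ × ℝ × EgV n × EgV n => egE q.1 q.2.1 q.2.2.1 q.2.2.2 := by
  unfold egE
  fun_prop

/-! ## Small facts: the cut-offs (leaf L-257-EG0-CHI) -/

theorem eg_bump_one (ζ : EgV n) (h : ‖ζ‖ ≤ 1) : egBump n ζ = 1 := by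
  apply ContDiffBump.one_of_mem_closedBall
  rw [mem_closedBall, dist_zero_right]
  exact h

theorem eg_bump_zero (ζ : EgV n) (h : 2 ≤ ‖ζ‖) : egBump n ζ = 0 := by
  apply ContDiffBump.zero_of_le_dist
  rw [dist_zero_right]
  exact h

theorem eg_norm_two_smul (ζ : EgV n) : ‖(2 : ℝ) • ζ‖ = 2 * ‖ζ‖ := by
  rw [norm_smul, Real.norm_eq_abs, abs_of_pos (by norm_num : (0 : ℝ) < 2)]

/-- `φ(2ζ) ≤ 1 = φ(ζ)` for `|ζ| ≤ 1`, `φ(2ζ) = 0` for `|ζ| ≥ 1` (`ContDiffBump.one_of_mem_closedBall`, `.zero_of_le_dist`, `.le_one`, `.nonneg`). -/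
theorem eg_chi_nonneg (ζ : EgV n) : 0 ≤ egChi ζ := by
  unfold egChi
  rcases le_total ‖ζ‖ 1 with h | h
  · rw [eg_bump_one ζ h]
    linarith [(egBump n).le_one (x := (2 : ℝ) • ζ)]
  · rw [eg_bump_zero ((2 : ℝ) • ζ) (by rw [eg_norm_two_smul]; linarith)]
    linarith [(egBump n).nonneg (x := ζ)]

theorem eg_chi_le_one (ζ : EgV n) : egChi ζ ≤ 1 := by
  unfold egChi
  linarith [(egBump n).le_one (x := ζ), (egBump n).nonneg (x := (2 : ℝ) • ζ)]

theorem eg_chi_supp (ζ : EgV n) (h : egChi ζ ≠ 0) : 1 / 2 ≤ ‖ζ‖ ∧ ‖ζ‖ ≤ 2 := by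
  constructor
  · by_contra hcon
    have hlt : ‖ζ‖ < 1 / 2 := not_le.1 hcon
    apply h
    unfold egChi
    rw [eg_bump_one ζ (by linarith), eg_bump_one ((2 : ℝ) • ζ) (by rw [eg_norm_two_smul]; linarith), sub_self]
  · by_contra hcon
    have hlt : 2 < ‖ζ‖ := not_le.1 hcon
    apply h
    unfold egChi
    rw [eg_bump_zero ζ hlt.le, eg_bump_zero ((2 : ℝ) • ζ) (by rw [eg_norm_two_smul]; linarith), sub_self]

theorem eg_chi_smooth : ContDiff ℝ ∞ (egChi : EgV n → ℝ) := by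
  unfold egChi
  exact (egBump n).contDiff.sub ((egBump n).contDiff.comp (contDiff_const_smul (2 : ℝ)))

theorem eg_chiJ_supp (j : ℕ) (η : EgV n) (h : egChiJ j η ≠ 0) : (2 : ℝ) ^ j / 2 ≤ ‖η‖ ∧ ‖η‖ ≤ 2 * 2 ^ j := by
  have h1 := eg_chi_supp _ h
  have hp : (0 : ℝ) < 2 ^ j := by positivity
  rw [norm_smul, Real.norm_eq_abs, abs_of_pos (inv_pos.2 hp), inv_mul_eq_div, le_div_iff₀ hp, div_le_iff₀ hp] at h1
  constructor <;> linarith [h1.1, h1.2]

/-- telescoping: `egChiJ (j+1) η = φ(η/2^(j+1)) - φ(η/2^j)`. -/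
theorem eg_chi_tele (J : ℕ) (η : EgV n) :
    egBump n η + ∑ j ∈ Finset.range J, egChiJ (j + 1) η = egBump n (((2 : ℝ) ^ J)⁻¹ • η) := by
  induction J with
  | zero => simp
  | succ J ih =>
    rw [Finset.sum_range_succ, ← add_assoc, ih]
    unfold egChiJ egChi
    have e : (2 : ℝ) • ((2 : ℝ) ^ (J + 1))⁻¹ • η = ((2 : ℝ) ^ J)⁻¹ • η := by
      rw [smul_smul]
      congr 1
      rw [pow_succ]
      field_simp
    rw [e]
    ring

/-- consequence of `eg_chi_tele`, `ContDiffBump.le_one`, `ContDiffBump.nonneg`. -/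
theorem eg_chi_sum_le (J : ℕ) (η : EgV n) : ∑ j ∈ Finset.range J, egChiJ (j + 1) η ≤ 1 := by
  have h := eg_chi_tele J η
  linarith [(egBump n).le_one (x := ((2 : ℝ) ^ J)⁻¹ • η), (egBump n).nonneg (x := η)]

/-! ## Small facts: the dual functions (leaf L-257-EG0-GAM) -/

theorem eg_dat_mono {x₀ : EgV n} {A B : Set (EgV n)} {τ : EgV n → ℝ} {w : EgV n → ℂ} (h : EgDat x₀ A τ w) (hB : MeasurableSet B)
    (hBA : B ⊆ A) : EgDat x₀ B τ w :=
  ⟨hB, hBA.trans h.sub, h.mτ, h.fin, h.mw, h.w1⟩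

theorem eg_dat_pc {x₀ : EgV n} {A : Set (EgV n)} {τ : EgV n → ℝ} {w : EgV n → ℂ} (h : EgDat x₀ A τ w) (a k : ℕ) :
    EgDat x₀ (egPc A τ a k) τ w :=
  eg_dat_mono h (h.mA.inter (h.mτ measurableSet_Ico)) Set.inter_subset_left

theorem eg_gam_vol {x₀ : EgV n} {A : Set (EgV n)} {τ : EgV n → ℝ} {w : EgV n → ℂ} (h : EgDat x₀ A τ w) : volume A < ⊤ :=
  (measure_mono h.sub).trans_lt measure_ball_lt_top

theorem eg_gam_meas {x₀ : EgV n} {A : Set (EgV n)} {τ : EgV n → ℝ} {w : EgV n → ℂ} (h : EgDat x₀ A τ w) (η : EgV n) :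
    Measurable fun x => egE 0 (τ x) x η * w x :=
  (eg_E_cont.measurable.comp
    (measurable_const.prodMk (h.mτ.prodMk (measurable_id.prodMk measurable_const)))).mul h.mw

theorem eg_gam_bound {x₀ : EgV n} {A : Set (EgV n)} {τ : EgV n → ℝ} {w : EgV n → ℂ} (h : EgDat x₀ A τ w) (η x : EgV n) :
    ‖egE 0 (τ x) x η * w x‖ ≤ 1 := by
  rw [norm_mul, eg_E_norm_zero, one_mul]
  exact h.w1 x

theorem eg_gam_chiJ_cont (j : ℕ) : Continuous (egChiJ j : EgV n → ℝ) :=
  eg_chi_smooth.continuous.comp (continuous_const_smul _)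

theorem eg_gam_chiJ_compact (j : ℕ) : HasCompactSupport (egChiJ j : EgV n → ℝ) := by
  refine HasCompactSupport.intro (isCompact_closedBall (0 : EgV n) (2 * 2 ^ j)) fun η hη => ?_
  by_contra h
  exact hη (mem_closedBall_zero_iff.2 (eg_chiJ_supp j η h).2)

theorem eg_gam_chiJ_int (j : ℕ) {F : EgV n → ℝ} (hF : Continuous F) : Integrable fun η => egChiJ j η * F η :=
  ((eg_gam_chiJ_cont j).mul hF).integrable_of_hasCompactSupport (eg_gam_chiJ_compact j).mul_right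

/-- Minkowski in the weighted `L²` space, for continuous functions. -/
theorem eg_gam_minkowski (j : ℕ) {u v : EgV n → ℂ} (hu : Continuous u) (hv : Continuous v) :
    ∫ η, egChiJ j η * ‖u η + v η‖ ^ 2 ≤
      (Real.sqrt (∫ η, egChiJ j η * ‖u η‖ ^ 2) + Real.sqrt (∫ η, egChiJ j η * ‖v η‖ ^ 2)) ^ 2 := by
  have hχ : ∀ η : EgV n, 0 ≤ egChiJ j η := fun η => eg_chi_nonneg _
  have i1 : Integrable fun η => egChiJ j η * ‖u η‖ ^ 2 := eg_gam_chiJ_int j (hu.norm.pow 2)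
  have i2 : Integrable fun η => egChiJ j η * ‖v η‖ ^ 2 := eg_gam_chiJ_int j (hv.norm.pow 2)
  have i3 : Integrable fun η => egChiJ j η * (‖u η‖ * ‖v η‖) := eg_gam_chiJ_int j (hu.norm.mul hv.norm)
  set a2 := ∫ η, egChiJ j η * ‖u η‖ ^ 2 with ha2
  set b2 := ∫ η, egChiJ j η * ‖v η‖ ^ 2 with hb2
  set c := ∫ η, egChiJ j η * (‖u η‖ * ‖v η‖) with hc
  have ha0 : 0 ≤ a2 := integral_nonneg fun η => mul_nonneg (hχ η) (by positivity)
  have hb0 : 0 ≤ b2 := integral_nonneg fun η => mul_nonneg (hχ η) (by positivity)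
  have hc0 : 0 ≤ c := integral_nonneg fun η => mul_nonneg (hχ η) (by positivity)
  have hq : ∀ s : ℝ, 0 ≤ a2 * (s * s) + (2 * c) * s + b2 := by
    intro s
    have j1 : Integrable fun η => egChiJ j η * ‖u η‖ ^ 2 * (s * s) := i1.mul_const _
    have j2 : Integrable fun η => 2 * (egChiJ j η * (‖u η‖ * ‖v η‖)) * s := (i3.const_mul 2).mul_const _
    have j12 : Integrable fun η => egChiJ j η * ‖u η‖ ^ 2 * (s * s) + 2 * (egChiJ j η * (‖u η‖ * ‖v η‖)) * s :=
      j1.add j2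
    have e : ∫ η, egChiJ j η * (s * ‖u η‖ + ‖v η‖) ^ 2 = a2 * (s * s) + (2 * c) * s + b2 := by
      have e0 : ∀ η, egChiJ j η * (s * ‖u η‖ + ‖v η‖) ^ 2 = (egChiJ j η * ‖u η‖ ^ 2 * (s * s) +
          2 * (egChiJ j η * (‖u η‖ * ‖v η‖)) * s) + egChiJ j η * ‖v η‖ ^ 2 := fun η => by ring
      simp only [e0]
      rw [integral_add j12 i2, integral_add j1 j2, integral_mul_const, integral_mul_const, integral_const_mul]
    rw [← e]
    exact integral_nonneg fun η => mul_nonneg (hχ η) (sq_nonneg _)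
  have hd := discrim_le_zero hq
  unfold discrim at hd
  have hcs : c ≤ Real.sqrt a2 * Real.sqrt b2 := by
    rw [← Real.sqrt_mul ha0]
    refine Real.le_sqrt_of_sq_le ?_
    nlinarith
  have h1 : ∫ η, egChiJ j η * ‖u η + v η‖ ^ 2 ≤ a2 + 2 * c + b2 := by
    have j2 : Integrable fun η => 2 * (egChiJ j η * (‖u η‖ * ‖v η‖)) := i3.const_mul 2
    have j12 : Integrable fun η => egChiJ j η * ‖u η‖ ^ 2 + 2 * (egChiJ j η * (‖u η‖ * ‖v η‖)) := i1.add j2
    have e : ∫ η, egChiJ j η * (‖u η‖ + ‖v η‖) ^ 2 = a2 + 2 * c + b2 := by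
      have e0 : ∀ η, egChiJ j η * (‖u η‖ + ‖v η‖) ^ 2 = (egChiJ j η * ‖u η‖ ^ 2 +
          2 * (egChiJ j η * (‖u η‖ * ‖v η‖))) + egChiJ j η * ‖v η‖ ^ 2 := fun η => by ring
      simp only [e0]
      rw [integral_add j12 i2, integral_add i1 j2, integral_const_mul]
    rw [← e]
    refine integral_mono (eg_gam_chiJ_int j ((hu.add hv).norm.pow 2))
      (eg_gam_chiJ_int j ((hu.norm.add hv.norm).pow 2)) fun η => ?_
    exact mul_le_mul_of_nonneg_left (pow_le_pow_left₀ (norm_nonneg _) (norm_add_le _ _) 2) (hχ η)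
  refine h1.trans ?_
  have s1 := Real.sq_sqrt ha0
  have s2 := Real.sq_sqrt hb0
  nlinarith

/-- the integrand is measurable in `(x, η)` and bounded by `1`, `A` has finite measure. -/
theorem eg_Gam_integrable {x₀ : EgV n} {A : Set (EgV n)} {τ : EgV n → ℝ} {w : EgV n → ℂ} (h : EgDat x₀ A τ w) (η : EgV n) :
    IntegrableOn (fun x => egE 0 (τ x) x η * w x) A :=
  Measure.integrableOn_of_bounded (eg_gam_vol h).ne (eg_gam_meas h η).aestronglyMeasurable
    (Filter.Eventually.of_forall fun x => eg_gam_bound h η x)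

theorem eg_Gam_norm_le {x₀ : EgV n} {A : Set (EgV n)} {τ : EgV n → ℝ} {w : EgV n → ℂ} (h : EgDat x₀ A τ w) (η : EgV n) :
    ‖egGam A τ w η‖ ≤ (volume A).toReal := by
  have := norm_setIntegral_le_of_norm_le_const (eg_gam_vol h) fun x _ => eg_gam_bound h η x
  rwa [one_mul] at this

/-- dominated convergence (`continuous_of_dominated`). -/
theorem eg_Gam_cont {x₀ : EgV n} {A : Set (EgV n)} {τ : EgV n → ℝ} {w : EgV n → ℂ} (h : EgDat x₀ A τ w) :
    Continuous (egGam A τ w) := by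
  have hb : Integrable (fun _ : EgV n => (1 : ℝ)) (volume.restrict A) :=
    integrableOn_const (eg_gam_vol h).ne
  have hc : ∀ x : EgV n, Continuous fun η : EgV n => egE 0 (τ x) x η * w x := by
    intro x
    unfold egE
    fun_prop
  exact continuous_of_dominated (F := fun η x => egE 0 (τ x) x η * w x) (bound := fun _ => (1 : ℝ))
    (fun η => (eg_gam_meas h η).aestronglyMeasurable)
    (fun η => Filter.Eventually.of_forall fun x => eg_gam_bound h η x) hb (Filter.Eventually.of_forall hc)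

theorem eg_Gam_union {x₀ : EgV n} {A B : Set (EgV n)} {τ : EgV n → ℝ} {w : EgV n → ℂ} (hA : EgDat x₀ A τ w) (hB : EgDat x₀ B τ w)
    (hAB : Disjoint A B) (η : EgV n) : egGam (A ∪ B) τ w η = egGam A τ w η + egGam B τ w η :=
  setIntegral_union hAB hB.mA (eg_Gam_integrable hA η) (eg_Gam_integrable hB η)

/-- `egChiJ j` is continuous with compact support, `egGam` is continuous. -/
theorem eg_D_integrable {x₀ : EgV n} {A : Set (EgV n)} {τ : EgV n → ℝ} {w : EgV n → ℂ} (h : EgDat x₀ A τ w) (j : ℕ) :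
    Integrable fun η => egChiJ j η * ‖egGam A τ w η‖ ^ 2 :=
  eg_gam_chiJ_int j ((eg_Gam_cont h).norm.pow 2)

theorem eg_D_nonneg (j : ℕ) (A : Set (EgV n)) (τ : EgV n → ℝ) (w : EgV n → ℂ) : 0 ≤ egD j A τ w := by
  unfold egD
  refine mul_nonneg (Real.rpow_nonneg (by positivity) _) (integral_nonneg fun η => ?_)
  exact mul_nonneg (eg_chi_nonneg _) (by positivity)

/-- Minkowski in `L²(egChiJ j dη)` (`eLpNorm_add_le` for the measure `volume.withDensity`, or Cauchy-Schwarz `integral_mul_le_Lp_mul_Lq_of_nonneg` by hand) + `eg_Gam_union`. -/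
theorem eg_D_sqrt_union {x₀ : EgV n} {A B : Set (EgV n)} {τ : EgV n → ℝ} {w : EgV n → ℂ} (hA : EgDat x₀ A τ w) (hB : EgDat x₀ B τ w)
    (hAB : Disjoint A B) (j : ℕ) : Real.sqrt (egD j (A ∪ B) τ w) ≤ Real.sqrt (egD j A τ w) + Real.sqrt (egD j B τ w) := by
  unfold egD
  have hK : (0 : ℝ) ≤ ((2 : ℝ) ^ j) ^ (-(2 * egs n)) := Real.rpow_nonneg (by positivity) _
  rw [Real.sqrt_mul hK, Real.sqrt_mul hK, Real.sqrt_mul hK, ← mul_add]
  refine mul_le_mul_of_nonneg_left ?_ (Real.sqrt_nonneg _)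
  have h1 := eg_gam_minkowski j (eg_Gam_cont hA) (eg_Gam_cont hB)
  simp only [eg_Gam_union hA hB hAB]
  refine (Real.sqrt_le_sqrt h1).trans ?_
  rw [Real.sqrt_sq (add_nonneg (Real.sqrt_nonneg _) (Real.sqrt_nonneg _))]

/-- the two children of a dyadic time interval -/
theorem eg_pc_split (A : Set (EgV n)) (τ : EgV n → ℝ) (a k : ℕ) :
    egPc A τ a k = egPc A τ (a + 1) (2 * k) ∪ egPc A τ (a + 1) (2 * k + 1) ∧
      Disjoint (egPc A τ (a + 1) (2 * k)) (egPc A τ (a + 1) (2 * k + 1)) := by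
  have hP : (0 : ℝ) < 2 ^ (a + 1) := by positivity
  have e1 : ((2 * k : ℕ) : ℝ) / 2 ^ (a + 1) = (k : ℝ) / 2 ^ a := by
    push_cast
    rw [pow_succ]
    field_simp
  have e2 : (((2 * k + 1 : ℕ) : ℝ) + 1) / 2 ^ (a + 1) = ((k : ℝ) + 1) / 2 ^ a := by
    push_cast
    rw [pow_succ]
    field_simp
    ring
  have e3 : (((2 * k : ℕ) : ℝ) + 1) / 2 ^ (a + 1) = ((2 * k + 1 : ℕ) : ℝ) / 2 ^ (a + 1) := by
    push_cast
    rfl
  unfold egPc
  constructor
  · rw [← Set.inter_union_distrib_left, ← Set.preimage_union, e3, Set.Ico_union_Ico_eq_Ico, e1, e2]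
    · exact div_le_div_of_nonneg_right (by push_cast; linarith) hP.le
    · exact div_le_div_of_nonneg_right (by linarith) hP.le
  · rw [Set.disjoint_left]
    rintro x ⟨-, h1⟩ ⟨-, h2⟩
    have h3 := h1.2
    rw [e3] at h3
    exact absurd h2.1 (not_le.2 h3)

theorem eg_pc_root (A : Set (EgV n)) (τ : EgV n → ℝ) (h : ∀ x ∈ A, τ x ∈ Set.Ico (0 : ℝ) 1) : egPc A τ 0 0 = A := by
  unfold egPc
  rw [Set.inter_eq_left]
  intro x hx
  simpa using h x hx

/-- `A` is the disjoint union of its pieces of depth `a`. -/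
theorem eg_pc_cover (A : Set (EgV n)) (τ : EgV n → ℝ) (h : ∀ x ∈ A, τ x ∈ Set.Ico (0 : ℝ) 1) (a : ℕ) :
    A = ⋃ k ∈ Finset.range (2 ^ a), egPc A τ a k ∧ ∀ k k', k ≠ k' → Disjoint (egPc A τ a k) (egPc A τ a k') := by
  have hP : (0 : ℝ) < 2 ^ a := by positivity
  constructor
  · ext x
    simp only [Set.mem_iUnion, Finset.mem_range, exists_prop]
    constructor
    · intro hx
      obtain ⟨h0, h1⟩ := h x hx
      have hn : 0 ≤ τ x * 2 ^ a := mul_nonneg h0 hP.le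
      refine ⟨⌊τ x * 2 ^ a⌋₊, ?_, hx, ?_, ?_⟩
      · rw [Nat.floor_lt hn]
        push_cast
        nlinarith
      · rw [div_le_iff₀ hP]
        exact Nat.floor_le hn
      · rw [lt_div_iff₀ hP]
        exact Nat.lt_floor_add_one _
    · rintro ⟨k, -, hx⟩
      exact hx.1
  · have key : ∀ k k' : ℕ, k < k' → Disjoint (egPc A τ a k) (egPc A τ a k') := by
      intro k k' hk
      rw [Set.disjoint_left]
      rintro x ⟨-, h1⟩ ⟨-, h2⟩
      have h3 : ((k : ℝ) + 1) / 2 ^ a ≤ (k' : ℝ) / 2 ^ a :=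
        div_le_div_of_nonneg_right (by exact_mod_cast hk) hP.le
      exact absurd (h1.2.trans_le (h3.trans h2.1)) (lt_irrefl _)
    intro k k' hk
    rcases lt_or_gt_of_ne hk with h1 | h1
    · exact key k k' h1
    · exact (key k' k h1).symm

end Claimed.Agent.R257
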