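import Mathlib

/-!
# ROW 257 (S0497), ENDGAME, unit EG-ORTH: ALMOST ORTHOGONALITY, pointwise form (Mathlib only)          (architect helper194)          PROVED
Used twice: time separation (`Sep.lean`) and spatial localisation (`Loc.lean`).  No Hilbert space: expand the square pointwise.
-/

set_option autoImplicit false

namespace Claimed.Agent.R257

open MeasureTheory
open scoped ComplexConjugate

/-- **LEAF L-257-EG-ORTH.**  `∫ χ |∑_k G_k|² ≤ m ∑_k ∫ χ |G_k|² + ∑_{(k,k') far} |∫ χ G_k conj G_k'|` if every index has at most `m` near indices.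
PLAN.  Pointwise `‖∑ G_k‖² = Re ∑_k ∑_k' G_k conj G_k'` (`Complex.mul_conj`, `Finset.sum_mul_sum`, `map_sum`).  Split the inner sum by `near k k'` (`Finset.sum_filter_add_sum_filter_not`).
Near terms: `Re (G_k conj G_k') ≤ (‖G_k‖² + ‖G_k'‖²)/2`; `∑_k ∑_{k' near k} (‖G_k‖² + ‖G_k'‖²)/2 ≤ m ∑_k ‖G_k‖²` (symmetry of `near`, `Finset.sum_comm'`).
Far terms: multiply by `χ`, integrate (`integral_finset_sum`, `hint`), `Re z ≤ ‖z‖`.   The diagonal case `k' = k` of `hint` gives the integrability of `χ ‖G_k‖²`. -/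
theorem eg_orth {X ι : Type*} [MeasurableSpace X] (μ : Measure X) (F : Finset ι) (G : ι → X → ℂ) (χ : X → ℝ) (hχ : ∀ x, 0 ≤ χ x)
    (hint : ∀ k ∈ F, ∀ k' ∈ F, Integrable (fun x => (χ x : ℂ) * (G k x * conj (G k' x))) μ)
    (near : ι → ι → Prop) [DecidableRel near] (hsym : ∀ k k', near k k' → near k' k) (m : ℕ)
    (hm : ∀ k ∈ F, (F.filter (near k)).card ≤ m) :
    ∫ x, χ x * ‖∑ k ∈ F, G k x‖ ^ 2 ∂μ ≤ m * ∑ k ∈ F, ∫ x, χ x * ‖G k x‖ ^ 2 ∂μ
      + ∑ k ∈ F, ∑ k' ∈ F.filter (fun k' => ¬ near k k'), ‖∫ x, (χ x : ℂ) * (G k x * conj (G k' x)) ∂μ‖ := by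
  classical
  set I : ι → ι → ℂ := fun k k' => ∫ x, (χ x : ℂ) * (G k x * conj (G k' x)) ∂μ with hI
  set a : ι → ℝ := fun k => ∫ x, χ x * ‖G k x‖ ^ 2 ∂μ with ha
  -- the diagonal
  have hdiag : ∀ k x, ((χ x : ℂ) * (G k x * conj (G k x))).re = χ x * ‖G k x‖ ^ 2 := by
    intro k x
    rw [Complex.mul_conj, Complex.normSq_eq_norm_sq, ← Complex.ofReal_mul, Complex.ofReal_re]
  have hai : ∀ k ∈ F, Integrable (fun x => χ x * ‖G k x‖ ^ 2) μ := by
    intro k hk
    have := (hint k hk k hk).re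
    refine this.congr (Filter.Eventually.of_forall fun x => ?_)
    exact hdiag k x
  have ha0 : ∀ k, 0 ≤ a k := fun k => integral_nonneg fun x => mul_nonneg (hχ x) (by positivity)
  -- the left side
  have hL : ∫ x, χ x * ‖∑ k ∈ F, G k x‖ ^ 2 ∂μ = ∑ k ∈ F, ∑ k' ∈ F, (I k k').re := by
    have h1 : ∀ x, χ x * ‖∑ k ∈ F, G k x‖ ^ 2 = (∑ k ∈ F, ∑ k' ∈ F, (χ x : ℂ) * (G k x * conj (G k' x))).re := by
      intro x
      have : ∑ k ∈ F, ∑ k' ∈ F, (χ x : ℂ) * (G k x * conj (G k' x)) = (χ x : ℂ) * ((∑ k ∈ F, G k x) * conj (∑ k ∈ F, G k x)) := by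
        rw [map_sum, Finset.sum_mul_sum, Finset.mul_sum]
        refine Finset.sum_congr rfl fun k _ => ?_
        rw [Finset.mul_sum]
      rw [this, Complex.mul_conj, Complex.normSq_eq_norm_sq, ← Complex.ofReal_mul, Complex.ofReal_re]
    have h2 : Integrable (fun x => ∑ k ∈ F, ∑ k' ∈ F, (χ x : ℂ) * (G k x * conj (G k' x))) μ :=
      integrable_finsetSum _ fun k hk => integrable_finsetSum _ fun k' hk' => hint k hk k' hk'
    calc ∫ x, χ x * ‖∑ k ∈ F, G k x‖ ^ 2 ∂μ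
        = ∫ x, (∑ k ∈ F, ∑ k' ∈ F, (χ x : ℂ) * (G k x * conj (G k' x))).re ∂μ := integral_congr_ae (Filter.Eventually.of_forall h1)
      _ = (∫ x, ∑ k ∈ F, ∑ k' ∈ F, (χ x : ℂ) * (G k x * conj (G k' x)) ∂μ).re := integral_re h2
      _ = ∑ k ∈ F, ∑ k' ∈ F, (I k k').re := by
          rw [integral_finsetSum _ fun k hk => integrable_finsetSum _ fun k' hk' => hint k hk k' hk', Complex.re_sum]
          refine Finset.sum_congr rfl fun k hk => ?_
          rw [integral_finsetSum _ fun k' hk' => hint k hk k' hk', Complex.re_sum]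
  -- near terms
  have hnear : ∀ k ∈ F, ∀ k' ∈ F, (I k k').re ≤ (a k + a k') / 2 := by
    intro k hk k' hk'
    have e1 : (I k k').re = ∫ x, ((χ x : ℂ) * (G k x * conj (G k' x))).re ∂μ := (integral_re (hint k hk k' hk')).symm
    have e2 : (a k + a k') / 2 = ∫ x, (χ x * ‖G k x‖ ^ 2 + χ x * ‖G k' x‖ ^ 2) / 2 ∂μ := by
      rw [integral_div, integral_add (hai k hk) (hai k' hk')]
    rw [e1, e2]
    refine integral_mono (hint k hk k' hk').re (((hai k hk).add (hai k' hk')).div_const 2) fun x => ?_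
    show ((χ x : ℂ) * (G k x * conj (G k' x))).re ≤ (χ x * ‖G k x‖ ^ 2 + χ x * ‖G k' x‖ ^ 2) / 2
    rw [Complex.re_ofReal_mul]
    have h3 : (G k x * conj (G k' x)).re ≤ ‖G k x‖ * ‖G k' x‖ := by
      refine (Complex.re_le_norm _).trans (le_of_eq ?_)
      rw [norm_mul, Complex.norm_conj]
    have h4 : ‖G k x‖ * ‖G k' x‖ ≤ (‖G k x‖ ^ 2 + ‖G k' x‖ ^ 2) / 2 := by nlinarith [sq_nonneg (‖G k x‖ - ‖G k' x‖)]
    nlinarith [mul_le_mul_of_nonneg_left (h3.trans h4) (hχ x)]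
  have hcount1 : ∑ k ∈ F, ∑ _k' ∈ F.filter (near k), a k ≤ m * ∑ k ∈ F, a k := by
    rw [Finset.mul_sum]
    refine Finset.sum_le_sum fun k hk => ?_
    rw [Finset.sum_const, nsmul_eq_mul]
    exact mul_le_mul_of_nonneg_right (by exact_mod_cast hm k hk) (ha0 k)
  have hcount2 : ∑ k ∈ F, ∑ k' ∈ F.filter (near k), a k' ≤ m * ∑ k ∈ F, a k := by
    have : ∑ k ∈ F, ∑ k' ∈ F.filter (near k), a k' = ∑ k' ∈ F, ∑ _k ∈ F.filter (near k'), a k' := by
      simp only [Finset.sum_filter]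
      rw [Finset.sum_comm]
      refine Finset.sum_congr rfl fun k' _ => Finset.sum_congr rfl fun k _ => ?_
      by_cases h : near k k'
      · rw [if_pos h, if_pos (hsym _ _ h)]
      · rw [if_neg h, if_neg fun h' => h (hsym _ _ h')]
    rw [this]
    exact hcount1
  rw [hL]
  have hsplit : ∀ k ∈ F, ∑ k' ∈ F, (I k k').re
      ≤ ∑ k' ∈ F.filter (near k), (a k + a k') / 2 + ∑ k' ∈ F.filter (fun k' => ¬ near k k'), ‖I k k'‖ := by
    intro k hk
    rw [← Finset.sum_filter_add_sum_filter_not F (near k)]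
    refine add_le_add (Finset.sum_le_sum fun k' hk' => hnear k hk k' (Finset.mem_filter.1 hk').1)
      (Finset.sum_le_sum fun k' _ => Complex.re_le_norm _)
  calc ∑ k ∈ F, ∑ k' ∈ F, (I k k').re
      ≤ ∑ k ∈ F, (∑ k' ∈ F.filter (near k), (a k + a k') / 2 + ∑ k' ∈ F.filter (fun k' => ¬ near k k'), ‖I k k'‖) :=
        Finset.sum_le_sum hsplit
    _ = (∑ k ∈ F, ∑ _k' ∈ F.filter (near k), a k + ∑ k ∈ F, ∑ k' ∈ F.filter (near k), a k') / 2
          + ∑ k ∈ F, ∑ k' ∈ F.filter (fun k' => ¬ near k k'), ‖I k k'‖ := by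
        rw [Finset.sum_add_distrib]
        congr 1
        rw [← Finset.sum_add_distrib, Finset.sum_div]
        refine Finset.sum_congr rfl fun k _ => ?_
        rw [← Finset.sum_add_distrib, Finset.sum_div]
    _ ≤ m * ∑ k ∈ F, a k + ∑ k ∈ F, ∑ k' ∈ F.filter (fun k' => ¬ near k k'), ‖I k k'‖ := by
        have := hcount1
        have := hcount2
        linarith

end Claimed.Agent.R257
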