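import Claimed.Agent.R257.End.Kernel
import Claimed.Agent.R257.End.Orth

/-!
# ROW 257 (S0497), ENDGAME, unit EG5: MASS BOUND AND SPATIAL LOCALISATION          (architect helper194)          CONTRACT
Paper: H `endpoint.tex` l.224-275 `(e:first-descendant)`, `(e:second-descendant)`, `(e:interpolated-descendant)` = P `lem:endpoint-localized-dual`.
`N = 2^j`, relative depth `κ ≤ j`, `r = 2^-κ`, time window of length `r/N = 2^-(j+κ)`.
-/

set_option autoImplicit false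

namespace Claimed.Agent.R257

open MeasureTheory Filter Topology Metric Set
open scoped ENNReal ComplexConjugate

variable {n : ℕ}

/-- **LEAF L-257-EG5-FIRST.**  `egChiJ j ≤` indicator of the annulus (`eg_chiJ_supp`, `eg_chi_le_one`, `eg_chi_nonneg`; `setIntegral` vs `integral_indicator`, `integral_mono`), `EgShort`, `Real.rpow_neg`, `Real.rpow_add`. -/
theorem eg_first {p C : ℝ} (hS : EgShort n p C) (j : ℕ) {x₀ : EgV n} {A : Set (EgV n)} {τ : EgV n → ℝ} {w : EgV n → ℂ} (t₀ : ℝ)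
    (h : EgDat x₀ A τ w) (ht : ∀ x ∈ A, τ x ∈ Set.Icc t₀ (t₀ + 1 / 2 ^ j)) :
    egD j A τ w ≤ C * (volume A).toReal ^ (2 - 2 / p) := by
  have h1 := hS j x₀ A τ w t₀ h ht
  set Ann : Set (EgV n) := {η : EgV n | (2 : ℝ) ^ j / 2 ≤ ‖η‖ ∧ ‖η‖ ≤ 2 * 2 ^ j} with hAnn
  have mAnn : MeasurableSet Ann :=
    (measurableSet_le measurable_const measurable_norm).inter (measurableSet_le measurable_norm measurable_const)
  have hcont : Continuous fun η => ‖egGam A τ w η‖ ^ 2 := (eg_Gam_cont h).norm.pow 2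
  have hsub : Ann ⊆ closedBall (0 : EgV n) (2 * 2 ^ j) := fun η hη => mem_closedBall_zero_iff.2 hη.2
  have hint : IntegrableOn (fun η => ‖egGam A τ w η‖ ^ 2) Ann :=
    (hcont.locallyIntegrable.integrableOn_isCompact (isCompact_closedBall _ _)).mono_set hsub
  have h2 : ∫ η, egChiJ j η * ‖egGam A τ w η‖ ^ 2 ≤ ∫ η in Ann, ‖egGam A τ w η‖ ^ 2 := by
    rw [← integral_indicator mAnn]
    refine integral_mono (eg_D_integrable h j) (hint.integrable_indicator mAnn) fun η => ?_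
    by_cases hη : η ∈ Ann
    · rw [Set.indicator_of_mem hη]
      calc egChiJ j η * ‖egGam A τ w η‖ ^ 2 ≤ 1 * ‖egGam A τ w η‖ ^ 2 :=
            mul_le_mul_of_nonneg_right (eg_chi_le_one _) (by positivity)
        _ = _ := one_mul _
    · rw [Set.indicator_of_notMem hη]
      have h0 : egChiJ j η = 0 := by
        by_contra hne
        exact hη (eg_chiJ_supp j η hne)
      simp only [h0, zero_mul, le_refl]
  have hK : (0 : ℝ) < ((2 : ℝ) ^ j) ^ (2 * egs n) := Real.rpow_pos_of_pos (by positivity) _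
  unfold egD
  rw [Real.rpow_neg (by positivity)]
  calc (((2 : ℝ) ^ j) ^ (2 * egs n))⁻¹ * ∫ η, egChiJ j η * ‖egGam A τ w η‖ ^ 2
      ≤ (((2 : ℝ) ^ j) ^ (2 * egs n))⁻¹ * (C * ((2 : ℝ) ^ j) ^ (2 * egs n) * (volume A).toReal ^ (2 - 2 / p)) :=
        mul_le_mul_of_nonneg_left (h2.trans h1) (inv_nonneg.2 hK.le)
    _ = C * (volume A).toReal ^ (2 - 2 / p) := by
        field_simp

theorem eg_E_rescale (r : ℝ) (hr : 0 < r) (x₁ X η : EgV n) (t₁ t : ℝ) :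
    egE 0 t (x₁ + r • X) η = egE 0 t₁ x₁ η * egE 0 ((t - t₁) / r ^ 2) X (r • η) := by
  unfold egE
  rw [← Complex.exp_add]
  congr 1
  rw [inner_add_left, real_inner_smul_left, real_inner_smul_right, norm_smul, Real.norm_of_nonneg hr.le]
  have e : (t - t₁) / r ^ 2 * (r * ‖η‖) ^ 2 = (t - t₁) * ‖η‖ ^ 2 := by
    field_simp
  rw [e]
  push_cast
  ring

open scoped Pointwise in
/-- the affine change of variables, for an arbitrary set -/
theorem eg_resc_cv (r : ℝ) (hr : 0 < r) (x₁ : EgV n) (A : Set (EgV n)) (f : EgV n → ℂ) :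
    ∫ x in A, f x = (r ^ n : ℝ) • ∫ X in (fun X => x₁ + r • X) ⁻¹' A, f (x₁ + r • X) := by
  have h1 := (measurePreserving_add_left (volume : Measure (EgV n)) x₁).setIntegral_preimage_emb (measurableEmbedding_addLeft x₁) f A
  have h2 := Measure.setIntegral_comp_smul_of_pos (volume : Measure (EgV n)) (fun y => f (x₁ + y))
    ((fun X : EgV n => r • X) ⁻¹' ((fun y => x₁ + y) ⁻¹' A)) hr
  have hs : r • ((fun X : EgV n => r • X) ⁻¹' ((fun y => x₁ + y) ⁻¹' A)) = (fun y => x₁ + y) ⁻¹' A := by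
    rw [Set.preimage_smul₀ hr.ne', smul_inv_smul₀ hr.ne']
  rw [hs, finrank_euclideanSpace_fin, h1] at h2
  have h3 : ∫ X in (fun X => x₁ + r • X) ⁻¹' A, f (x₁ + r • X) = (r ^ n)⁻¹ • ∫ y in A, f y := h2
  rw [h3, smul_smul, mul_inv_cancel₀ (pow_pos hr n).ne', one_smul]

/-- **LEAF L-257-EG5-RESC.**  `x = x₁ + r X`, `t = t₁ + r² T`, `η = ζ / r`: the phase splits into a factor of modulus one independent of `X` and the same phase in `(X, T, ζ)`.
`MeasureTheory.Measure.setIntegral_comp_smul_of_pos`, translation invariance (`integral_add_left_eq_self` on indicators / `MeasurePreserving`). -/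
theorem eg_Gam_rescale (r : ℝ) (hr : 0 < r) (x₁ : EgV n) (t₁ : ℝ) (A : Set (EgV n)) (τ : EgV n → ℝ) (w : EgV n → ℂ) (η : EgV n) :
    ‖egGam A τ w η‖ = r ^ n * ‖egGam ((fun X => x₁ + r • X) ⁻¹' A) (fun X => (τ (x₁ + r • X) - t₁) / r ^ 2)
      (fun X => w (x₁ + r • X)) (r • η)‖ := by
  unfold egGam
  rw [eg_resc_cv r hr x₁ A]
  have e : ∀ X : EgV n, egE 0 (τ (x₁ + r • X)) (x₁ + r • X) η * w (x₁ + r • X)
      = egE 0 t₁ x₁ η * (egE 0 ((τ (x₁ + r • X) - t₁) / r ^ 2) X (r • η) * w (x₁ + r • X)) := fun X => by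
    rw [eg_E_rescale r hr x₁ X η t₁, mul_assoc]
  simp_rw [e]
  rw [integral_const_mul, norm_smul, norm_mul, eg_E_norm_zero, one_mul, Real.norm_of_nonneg (by positivity)]

/-- the annulus of `EgShort` -/
theorem eg_sb_ann_meas (a b : ℝ) : MeasurableSet {η : EgV n | a ≤ ‖η‖ ∧ ‖η‖ ≤ b} :=
  (measurableSet_le measurable_const measurable_norm).inter (measurableSet_le measurable_norm measurable_const)

/-- `d_j` is bounded by the energy on the annulus -/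
theorem eg_sb_D_le {x₀ : EgV n} {A : Set (EgV n)} {τ : EgV n → ℝ} {w : EgV n → ℂ} (h : EgDat x₀ A τ w) (j : ℕ) :
    egD j A τ w ≤ ((2 : ℝ) ^ j) ^ (-(2 * egs n)) *
      ∫ η in {η : EgV n | (2 : ℝ) ^ j / 2 ≤ ‖η‖ ∧ ‖η‖ ≤ 2 * 2 ^ j}, ‖egGam A τ w η‖ ^ 2 := by
  unfold egD
  refine mul_le_mul_of_nonneg_left ?_ (Real.rpow_nonneg (by positivity) _)
  have hc : Continuous fun η => ‖egGam A τ w η‖ ^ 2 := (eg_Gam_cont h).norm.pow 2
  have hi : IntegrableOn (fun η => ‖egGam A τ w η‖ ^ 2) {η : EgV n | (2 : ℝ) ^ j / 2 ≤ ‖η‖ ∧ ‖η‖ ≤ 2 * 2 ^ j} :=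
    (hc.continuousOn.integrableOn_compact (isCompact_closedBall (0 : EgV n) (2 * 2 ^ j))).mono_set
      fun η hη => mem_closedBall_zero_iff.2 hη.2
  rw [← integral_indicator (eg_sb_ann_meas _ _)]
  refine integral_mono (eg_D_integrable h j) ((integrable_indicator_iff (eg_sb_ann_meas _ _)).2 hi) fun η => ?_
  by_cases hη : egChiJ j η = 0
  · simp only [hη, zero_mul]
    exact indicator_nonneg (fun _ _ => by positivity) _
  · have hm : η ∈ {η : EgV n | (2 : ℝ) ^ j / 2 ≤ ‖η‖ ∧ ‖η‖ ≤ 2 * 2 ^ j} := eg_chiJ_supp j η hη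
    rw [indicator_of_mem hm]
    exact mul_le_of_le_one_left (by positivity) (eg_chi_le_one _)

/-- the rescaled data -/
theorem eg_sb_dat {x₀ x₁ : EgV n} {A : Set (EgV n)} {τ : EgV n → ℝ} {w : EgV n → ℂ} (h : EgDat x₀ A τ w) {r : ℝ} (hr : 0 < r)
    (hA : A ⊆ ball x₁ r) (t₁ : ℝ) :
    EgDat (0 : EgV n) ((fun X => x₁ + r • X) ⁻¹' A) (fun X => (τ (x₁ + r • X) - t₁) / r ^ 2) (fun X => w (x₁ + r • X)) := by
  have hm : Measurable fun X : EgV n => x₁ + r • X := (measurable_const_smul r).const_add x₁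
  refine ⟨hm h.mA, fun X hX => ?_, ((h.mτ.comp hm).sub_const t₁).div_const _, ?_, h.mw.comp hm, fun X => h.w1 _⟩
  · have h1 := hA hX
    rw [mem_ball, dist_eq_norm, add_sub_cancel_left, norm_smul, Real.norm_of_nonneg hr.le] at h1
    rw [mem_ball_zero_iff]
    nlinarith
  · refine (h.fin.image fun t => (t - t₁) / r ^ 2).subset ?_
    rintro _ ⟨X, rfl⟩
    exact ⟨τ (x₁ + r • X), ⟨_, rfl⟩, rfl⟩

/-- the volume of the rescaled set -/
theorem eg_sb_vol (x₁ : EgV n) (A : Set (EgV n)) {r : ℝ} (hr : 0 < r) :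
    (volume ((fun X => x₁ + r • X) ⁻¹' A)).toReal = (volume A).toReal / r ^ n := by
  have e : (fun X : EgV n => x₁ + r • X) ⁻¹' A = (r • ·) ⁻¹' ((fun y => x₁ + y) ⁻¹' A) := rfl
  rw [e, Measure.addHaar_preimage_smul volume hr.ne', measure_preimage_add, ENNReal.toReal_mul,
    ENNReal.toReal_ofReal (abs_nonneg _), abs_of_pos (inv_pos.2 (pow_pos hr _))]
  simp only [finrank_euclideanSpace, Fintype.card_fin]
  rw [div_eq_inv_mul]

open scoped Pointwise in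
/-- the energy on the annulus after rescaling -/
theorem eg_sb_energy (x₁ : EgV n) (t₁ : ℝ) (A : Set (EgV n)) (τ : EgV n → ℝ) (w : EgV n → ℂ) {r : ℝ} (hr : 0 < r) (a b : ℝ) :
    ∫ η in {η : EgV n | a ≤ ‖η‖ ∧ ‖η‖ ≤ b}, ‖egGam A τ w η‖ ^ 2
      = r ^ n * ∫ ζ in {ζ : EgV n | r * a ≤ ‖ζ‖ ∧ ‖ζ‖ ≤ r * b},
          ‖egGam ((fun X => x₁ + r • X) ⁻¹' A) (fun X => (τ (x₁ + r • X) - t₁) / r ^ 2) (fun X => w (x₁ + r • X)) ζ‖ ^ 2 := by
  have e1 : ∀ η, ‖egGam A τ w η‖ ^ 2 = (r ^ n) ^ 2 * ‖egGam ((fun X => x₁ + r • X) ⁻¹' A)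
      (fun X => (τ (x₁ + r • X) - t₁) / r ^ 2) (fun X => w (x₁ + r • X)) (r • η)‖ ^ 2 := by
    intro η
    rw [eg_Gam_rescale r hr x₁ t₁ A τ w η, mul_pow]
  simp only [e1]
  rw [integral_const_mul]
  have h2 := Measure.setIntegral_comp_smul_of_pos (volume : Measure (EgV n))
    (fun ζ => ‖egGam ((fun X => x₁ + r • X) ⁻¹' A) (fun X => (τ (x₁ + r • X) - t₁) / r ^ 2)
      (fun X => w (x₁ + r • X)) ζ‖ ^ 2) {η : EgV n | a ≤ ‖η‖ ∧ ‖η‖ ≤ b} hr
  have e3 : r • {η : EgV n | a ≤ ‖η‖ ∧ ‖η‖ ≤ b} = {ζ : EgV n | r * a ≤ ‖ζ‖ ∧ ‖ζ‖ ≤ r * b} := by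
    ext ζ
    rw [mem_smul_set_iff_inv_smul_mem₀ hr.ne']
    simp only [Set.mem_ofPred_eq, norm_smul, norm_inv, Real.norm_of_nonneg hr.le]
    rw [inv_mul_eq_div, le_div_iff₀ hr, div_le_iff₀ hr, mul_comm a r, mul_comm b r]
  rw [h2, e3]
  simp only [finrank_euclideanSpace, Fintype.card_fin, smul_eq_mul]
  rw [← mul_assoc]
  congr 1
  have : r ^ n ≠ 0 := (pow_pos hr n).ne'
  field_simp

/-- **LEAF L-257-EG5-BALL.**  One ball of radius `r = 2^-κ`.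
PLAN.  `eg_Gam_rescale` with `r = 2^-κ`, `x₁`, `t₁ = t₀`: `A' ⊆ ball 0 1`, `|A'| = |A|/r^n`, the rescaled times lie in `[0, 1/2^(j-κ)]`, `EgDat 0 A' τ' w'`.  `∫_{Ann(2^j)} |Γ_A(η)|² dη = r^{2n} r^{-n} ∫_{Ann(2^(j-κ))} |Γ_{A'}(ζ)|² dζ`.
`EgShort` at `j - κ`: `d_j(A) ≤ N^{-2s} r^n C (N r)^{2s} (|A|/r^n)^{2-2/p} = C r^{n+2s} (|A|/r^n)^{2-2/p} ≤ C v^{1-2/p} r^{2s} |A|`, `v = |ball 0 1|`, because `|A|/r^n ≤ v` and `2 - 2/p ≥ 1`. -/
theorem eg_small_ball {p C : ℝ} (hp : 2 < p) (hC : 0 ≤ C) (hS : EgShort n p C) : ∃ C' : ℝ, 0 ≤ C' ∧ ∀ (j κ : ℕ), κ ≤ j →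
    ∀ (x₀ x₁ : EgV n) (A : Set (EgV n)) (τ : EgV n → ℝ) (w : EgV n → ℂ) (t₀ : ℝ), EgDat x₀ A τ w → A ⊆ ball x₁ (1 / 2 ^ κ) →
    (∀ x ∈ A, τ x ∈ Set.Icc t₀ (t₀ + 1 / 2 ^ (j + κ))) →
    egD j A τ w ≤ C' * ((2 : ℝ) ^ κ) ^ (-(2 * egs n)) * (volume A).toReal := by
  obtain ⟨v, hv⟩ : ∃ v : ℝ, v = (volume (ball (0 : EgV n) 1)).toReal := ⟨_, rfl⟩
  have hv0 : 0 ≤ v := hv ▸ ENNReal.toReal_nonneg
  refine ⟨C * v ^ (1 - 2 / p), by positivity, fun j κ hκ x₀ x₁ A τ w t₀ hD hA ht => ?_⟩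
  obtain ⟨r, hrdef⟩ : ∃ r : ℝ, r = 1 / 2 ^ κ := ⟨_, rfl⟩
  have hr : 0 < r := by rw [hrdef]; positivity
  rw [← hrdef] at hA
  have hD' := eg_sb_dat hD hr hA t₀
  obtain ⟨i, rfl⟩ : ∃ i, j = κ + i := ⟨j - κ, by omega⟩
  have hri : r * 2 ^ (κ + i) = 2 ^ i := by
    rw [hrdef, pow_add]
    field_simp
  -- the rescaled times
  have ht' : ∀ X ∈ (fun X => x₁ + r • X) ⁻¹' A, (τ (x₁ + r • X) - t₀) / r ^ 2 ∈ Set.Icc (0 : ℝ) (0 + 1 / 2 ^ i) := by
    intro X hX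
    have h1 := ht _ hX
    constructor
    · exact div_nonneg (by linarith [h1.1]) (by positivity)
    · rw [div_le_iff₀ (by positivity), zero_add]
      have e : (1 : ℝ) / 2 ^ i * r ^ 2 = 1 / 2 ^ (κ + i + κ) := by
        rw [hrdef, pow_add, pow_add]
        field_simp
      rw [e]
      linarith [h1.2]
  have hsh := hS i 0 _ _ _ 0 hD' ht'
  rw [eg_sb_vol x₁ A hr] at hsh
  have h1 := eg_sb_D_le hD (κ + i)
  rw [eg_sb_energy x₁ t₀ A τ w hr] at h1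
  have ea : r * (2 ^ (κ + i) / 2) = 2 ^ i / 2 := by rw [← mul_div_assoc, hri]
  have eb : r * (2 * 2 ^ (κ + i)) = 2 * 2 ^ i := by rw [mul_left_comm, hri]
  rw [ea, eb] at h1
  set V := (volume A).toReal with hV
  have hV0 : 0 ≤ V := ENNReal.toReal_nonneg
  have hrn : 0 < r ^ n := pow_pos hr n
  -- `V / r^n ≤ v`
  have hVv : V / r ^ n ≤ v := by
    rw [hV, ← eg_sb_vol x₁ A hr, hv]
    exact ENNReal.toReal_mono measure_ball_lt_top.ne (measure_mono hD'.sub)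
  have hp0 : 0 < p := by linarith
  have h2p : 2 / p < 1 := by rw [div_lt_one hp0]; exact hp
  have hpow : (V / r ^ n) ^ (2 - 2 / p) ≤ v ^ (1 - 2 / p) * (V / r ^ n) := by
    have hq0 : 0 ≤ V / r ^ n := div_nonneg hV0 hrn.le
    have e : (2 : ℝ) - 2 / p = (1 - 2 / p) + 1 := by ring
    rw [e, Real.rpow_add' hq0 (by linarith), Real.rpow_one]
    exact mul_le_mul_of_nonneg_right (Real.rpow_le_rpow hq0 hVv (by linarith)) hq0
  have hs2 : ((2 : ℝ) ^ (κ + i)) ^ (-(2 * egs n)) * ((2 : ℝ) ^ i) ^ (2 * egs n) = ((2 : ℝ) ^ κ) ^ (-(2 * egs n)) := by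
    rw [pow_add, Real.mul_rpow (by positivity) (by positivity), mul_assoc, ← Real.rpow_add (by positivity)]
    simp
  calc egD (κ + i) A τ w ≤ ((2 : ℝ) ^ (κ + i)) ^ (-(2 * egs n)) * (r ^ n * (C * ((2 : ℝ) ^ i) ^ (2 * egs n) *
        (V / r ^ n) ^ (2 - 2 / p))) := by
        refine h1.trans (mul_le_mul_of_nonneg_left (mul_le_mul_of_nonneg_left hsh hrn.le) (by positivity))
    _ ≤ ((2 : ℝ) ^ (κ + i)) ^ (-(2 * egs n)) * (r ^ n * (C * ((2 : ℝ) ^ i) ^ (2 * egs n) *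
        (v ^ (1 - 2 / p) * (V / r ^ n)))) := by
        gcongr
    _ = C * v ^ (1 - 2 / p) * (((2 : ℝ) ^ (κ + i)) ^ (-(2 * egs n)) * ((2 : ℝ) ^ i) ^ (2 * egs n)) * (r ^ n * (V / r ^ n)) := by
        ring
    _ = C * v ^ (1 - 2 / p) * ((2 : ℝ) ^ κ) ^ (-(2 * egs n)) * V := by
        rw [hs2, mul_div_cancel₀ _ hrn.ne']

/-- the cube of side `ℓ` and index `q` -/
def egCube (ℓ : ℝ) (q : Fin n → ℤ) : Set (EgV n) := {x | ∀ i, ⌊x i / ℓ⌋ = q i}

theorem eg_cube_meas (ℓ : ℝ) (q : Fin n → ℤ) : MeasurableSet (egCube ℓ q : Set (EgV n)) := by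
  have : (egCube ℓ q : Set (EgV n)) = ⋂ i, {x : EgV n | ⌊x i / ℓ⌋ = q i} := by
    ext x
    simp [egCube]
  rw [this]
  refine MeasurableSet.iInter fun i => ?_
  have hm : Measurable fun x : EgV n => ⌊x i / ℓ⌋ := by fun_prop
  exact hm (measurableSet_singleton (q i))

theorem eg_cube_disj (ℓ : ℝ) {q q' : Fin n → ℤ} (h : q ≠ q') : Disjoint (egCube ℓ q : Set (EgV n)) (egCube ℓ q') := by
  rw [Set.disjoint_left]
  intro x hx hx'
  exact h (funext fun i => (hx i).symm.trans (hx' i))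

theorem eg_cube_coord {ℓ : ℝ} (hℓ : 0 < ℓ) {q : Fin n → ℤ} {x : EgV n} (hx : x ∈ egCube ℓ q) (i : Fin n) :
    ℓ * q i ≤ x i ∧ x i < ℓ * q i + ℓ := by
  have h := hx i
  rw [Int.floor_eq_iff] at h
  obtain ⟨h1, h2⟩ := h
  rw [le_div_iff₀ hℓ] at h1
  rw [div_lt_iff₀ hℓ] at h2
  constructor <;> nlinarith

/-- the indices of the cubes which meet `ball x₀ 1` -/
noncomputable def egIdx (ℓ : ℝ) (x₀ : EgV n) : Finset (Fin n → ℤ) :=
  Fintype.piFinset fun i => Finset.Icc ⌊(x₀ i - 1) / ℓ⌋ ⌊(x₀ i + 1) / ℓ⌋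

theorem eg_coord_le (x : EgV n) (i : Fin n) : |x i| ≤ ‖x‖ := by
  simpa using PiLp.norm_apply_le x i

theorem eg_norm_le_coord (x : EgV n) (b : ℝ) (hb : 0 ≤ b) (h : ∀ i, |x i| ≤ b) : ‖x‖ ≤ Real.sqrt n * b := by
  rw [EuclideanSpace.norm_eq]
  have : ∑ i, ‖x i‖ ^ 2 ≤ n * b ^ 2 := by
    calc ∑ i, ‖x i‖ ^ 2 ≤ ∑ _i : Fin n, b ^ 2 := Finset.sum_le_sum fun i _ => by
          rw [Real.norm_eq_abs]
          exact pow_le_pow_left₀ (abs_nonneg _) (h i) 2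
      _ = n * b ^ 2 := by simp
  calc Real.sqrt (∑ i, ‖x i‖ ^ 2) ≤ Real.sqrt (n * b ^ 2) := Real.sqrt_le_sqrt this
    _ = Real.sqrt n * b := by rw [Real.sqrt_mul (Nat.cast_nonneg n), Real.sqrt_sq hb]

theorem eg_cube_cover {ℓ : ℝ} (hℓ : 0 < ℓ) {x₀ : EgV n} {A : Set (EgV n)} (hA : A ⊆ ball x₀ 1) :
    A = ⋃ q ∈ egIdx ℓ x₀, A ∩ egCube ℓ q := by
  ext x
  simp only [mem_iUnion, mem_inter_iff, exists_prop]
  constructor
  · intro hx
    refine ⟨fun i => ⌊x i / ℓ⌋, ?_, hx, fun i => rfl⟩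
    rw [egIdx, Fintype.mem_piFinset]
    intro i
    have h1 : |x i - x₀ i| < 1 := by
      have h3 := eg_coord_le (x - x₀) i
      have h2 : ‖x - x₀‖ < 1 := by simpa [dist_eq_norm] using hA hx
      have h4 : (x - x₀) i = x i - x₀ i := rfl
      rw [h4] at h3
      linarith
    rw [abs_lt] at h1
    rw [Finset.mem_Icc]
    exact ⟨Int.floor_le_floor (div_le_div_of_nonneg_right (by linarith) hℓ.le),
      Int.floor_le_floor (div_le_div_of_nonneg_right (by linarith) hℓ.le)⟩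
  · rintro ⟨q, _, hx, _⟩
    exact hx

theorem eg_near_card (F : Finset (Fin n → ℤ)) (K : ℕ) (q : Fin n → ℤ) :
    (F.filter fun q' => ∀ i, |q i - q' i| ≤ (K : ℤ)).card ≤ (2 * K + 1) ^ n := by
  calc (F.filter fun q' => ∀ i, |q i - q' i| ≤ (K : ℤ)).card
      ≤ (Fintype.piFinset fun i => Finset.Icc (q i - K) (q i + K)).card := Finset.card_le_card (by
        intro q' hq'
        rw [Finset.mem_filter] at hq'
        rw [Fintype.mem_piFinset]
        intro i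
        have := hq'.2 i
        rw [abs_le] at this
        rw [Finset.mem_Icc]
        constructor <;> linarith [this.1, this.2])
    _ = (2 * K + 1) ^ n := by
        rw [Fintype.card_piFinset]
        have : ∀ i : Fin n, (Finset.Icc (q i - K) (q i + K)).card = 2 * K + 1 := by
          intro i
          rw [Int.card_Icc]
          have : q i + K + 1 - (q i - K) = ((2 * K + 1 : ℕ) : ℤ) := by
            push_cast
            ring
          rw [this, Int.toNat_natCast]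
        simp [this]

/-- **LEAF L-257-EG5-SECOND** `(e:second-descendant)`.
PLAN.  `r = 2^-κ`, `ℓ = r/(⌈√n⌉₊ + 1)`; cubes `A_q = A ∩ {x | ∀ i, ⌊x i / ℓ⌋ = q i}`, `q : Fin n → ℤ`; diameter `< r`, so `A_q ⊆ ball x_q r` for any `x_q ∈ A_q`; only finitely many `q` (in a `Fintype.piFinset` of `Finset.Icc`) are needed since `A ⊆ ball x₀ 1`.
`c₁` from `eg_ker_space`; `near q q' :⇔ ∀ i, |q i - q' i| ≤ K`, `K = ⌈(c₁ + 1) r/ℓ⌉`: at most `(2K+1)^n` near indices.  `eg_orth`.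
Near part: `eg_small_ball` for every `A_q`, `∑_q |A_q| = |A|`.   Far pairs: `|x - y| ≥ (K - 1) ℓ ≥ c₁ r ≥ c₁ N |τ x - τ y|`; `eg_ker_space`, `eg_pair_le` with `κ(z) = C N^n/(1 + N|z|)^(n+2)`;
`∑_{q,q'} ∫_{A_q} ∫_{A_q'} κ(x - y) ≤ ∫_A ∫ κ(x - y) dy dx ≤ C_schur |A|` (`eg_schur`);   `N^{-2s} ≤ r^{2s}` since `N r ≥ 1`. -/
theorem eg_second (hn : 1 ≤ n) {p C : ℝ} (hp : 2 < p) (hC : 0 ≤ C) (hS : EgShort n p C) : ∃ C' : ℝ, 0 ≤ C' ∧ ∀ (j κ : ℕ), κ ≤ j →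
    ∀ (x₀ : EgV n) (A : Set (EgV n)) (τ : EgV n → ℝ) (w : EgV n → ℂ) (t₀ : ℝ), EgDat x₀ A τ w →
    (∀ x ∈ A, τ x ∈ Set.Icc t₀ (t₀ + 1 / 2 ^ (j + κ))) →
    egD j A τ w ≤ C' * ((2 : ℝ) ^ κ) ^ (-(2 * egs n)) * (volume A).toReal := by
  obtain ⟨Cb, hCb, hball⟩ := eg_small_ball hp hC hS
  obtain ⟨c₁, Ck, hc₁, hCk, hker⟩ := eg_ker_space (n := n) hn
  obtain ⟨Cs, hCs, hschur⟩ := eg_schur n
  set mm : ℕ := ⌈Real.sqrt n⌉₊ + 1 with hmm
  set K : ℕ := ⌈c₁ * mm⌉₊ with hK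
  refine ⟨((2 * K + 1) ^ n : ℕ) * Cb + Ck * Cs, by positivity, ?_⟩
  intro j κ hκ x₀ A τ w t₀ hd ht
  set r : ℝ := 1 / 2 ^ κ with hr
  have hr0 : 0 < r := by positivity
  have hmm0 : (0 : ℝ) < mm := by
    rw [hmm]
    positivity
  set ℓ : ℝ := r / mm with hℓd
  have hℓ : 0 < ℓ := div_pos hr0 hmm0
  have hℓmm : ℓ * mm = r := by
    rw [hℓd]
    field_simp
  set F : Finset (Fin n → ℤ) := egIdx ℓ x₀ with hF
  set P : (Fin n → ℤ) → Set (EgV n) := fun q => A ∩ egCube ℓ q with hP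
  have hPm : ∀ q, MeasurableSet (P q) := fun q => hd.mA.inter (eg_cube_meas ℓ q)
  have hPd : ∀ q, EgDat x₀ (P q) τ w := fun q => eg_dat_mono hd (hPm q) inter_subset_left
  have hPdisj : ∀ q q', q ≠ q' → Disjoint (P q) (P q') := fun q q' h =>
    (eg_cube_disj ℓ h).mono inter_subset_right inter_subset_right
  have hcov : A = ⋃ q ∈ F, P q := eg_cube_cover hℓ hd.sub
  have hpw : ∀ F' : Finset (Fin n → ℤ), (↑F' : Set (Fin n → ℤ)).PairwiseDisjoint P := fun F' q _ q' _ h => hPdisj q q' h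
  have hfinA : volume A ≠ ⊤ := measure_ne_top_of_subset hd.sub measure_ball_lt_top.ne
  have hfinP : ∀ q, volume (P q) ≠ ⊤ := fun q => measure_ne_top_of_subset inter_subset_left hfinA
  have hGam : ∀ η, egGam A τ w η = ∑ q ∈ F, egGam (P q) τ w η := by
    intro η
    have h1 : egGam A τ w η = ∫ x in ⋃ q ∈ F, P q, egE 0 (τ x) x η * w x := by
      rw [← hcov]
      rfl
    rw [h1]
    exact integral_biUnion_finset F (fun q _ => hPm q) (fun q _ q' _ h => hPdisj q q' h)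
      (fun q _ => eg_Gam_integrable (hPd q) η)
  have hvol : volume A = ∑ q ∈ F, volume (P q) := by
    have h1 : volume A = volume (⋃ q ∈ F, P q) := by rw [← hcov]
    rw [h1]
    exact measure_biUnion_finset (hpw F) (fun q _ => hPm q)
  have hvolR : (volume A).toReal = ∑ q ∈ F, (volume (P q)).toReal := by
    rw [hvol, ENNReal.toReal_sum fun q _ => hfinP q]
  -- almost orthogonality
  have horth := eg_orth volume F (fun q => egGam (P q) τ w) (egChiJ j) (fun η => eg_chi_nonneg _)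
    (fun q _ q' _ => eg_pair_integrable j (hPd q) (hPd q')) (fun q q' => ∀ i, |q i - q' i| ≤ (K : ℤ))
    (fun q q' h i => by rw [abs_sub_comm]; exact h i) ((2 * K + 1) ^ n) (fun q _ => eg_near_card F K q)
  set s2 : ℝ := ((2 : ℝ) ^ j) ^ (-(2 * egs n)) with hs2
  set ρ2 : ℝ := ((2 : ℝ) ^ κ) ^ (-(2 * egs n)) with hρ2
  have hs20 : 0 ≤ s2 := Real.rpow_nonneg (by positivity) _
  have hρ20 : 0 ≤ ρ2 := Real.rpow_nonneg (by positivity) _
  have hs2ρ2 : s2 ≤ ρ2 := by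
    refine Real.rpow_le_rpow_of_nonpos (by positivity) (pow_le_pow_right₀ (by norm_num) hκ) ?_
    have := eg_s_pos hn
    linarith
  -- near part
  have hnear : ∀ q, egD j (P q) τ w ≤ Cb * ρ2 * (volume (P q)).toReal := by
    intro q
    refine hball j κ hκ x₀ (WithLp.toLp 2 fun i => ℓ * (q i : ℝ)) (P q) τ w t₀ (hPd q) ?_ (fun x hx => ht x hx.1)
    intro x hx
    rw [mem_ball, dist_eq_norm]
    have h1 : ‖x - WithLp.toLp 2 (fun i => ℓ * (q i : ℝ))‖ ≤ Real.sqrt n * ℓ := by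
      refine eg_norm_le_coord _ ℓ hℓ.le fun i => ?_
      have h2 := eg_cube_coord hℓ hx.2 i
      have h3 : (x - WithLp.toLp 2 (fun i => ℓ * (q i : ℝ))) i = x i - ℓ * (q i : ℝ) := rfl
      rw [h3, abs_le]
      constructor <;> linarith [h2.1, h2.2]
    have h4 : Real.sqrt n < mm := by
      have := Nat.le_ceil (Real.sqrt n)
      rw [hmm]
      push_cast
      linarith
    calc ‖x - WithLp.toLp 2 (fun i => ℓ * (q i : ℝ))‖ ≤ Real.sqrt n * ℓ := h1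
      _ < mm * ℓ := mul_lt_mul_of_pos_right h4 hℓ
      _ = 1 / 2 ^ κ := by rw [mul_comm, hℓmm]
  -- far part
  set κf : EgV n → ℝ := fun z => Ck * (((2 : ℝ) ^ j) ^ n / (1 + 2 ^ j * ‖z‖) ^ (n + 2)) with hκf
  have hκm : Measurable κf := by
    rw [hκf]
    fun_prop
  have hκ0 : ∀ z, 0 ≤ κf z := fun z => by
    rw [hκf]
    positivity
  have hfar : ∀ q q', (¬ ∀ i, |q i - q' i| ≤ (K : ℤ)) → ∀ x ∈ P q, ∀ y ∈ P q', ‖egKer j (x - y) (τ x - τ y)‖ ≤ κf (x - y) := by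
    intro q q' hqq x hx y hy
    have hgoal := hker j (x - y) (τ x - τ y) ?_
    · rw [mul_div_assoc] at hgoal
      exact hgoal
    push Not at hqq
    obtain ⟨i, hi⟩ := hqq
    have hxc := eg_cube_coord hℓ hx.2 i
    have hyc := eg_cube_coord hℓ hy.2 i
    have hKc : c₁ * mm ≤ K := Nat.le_ceil _
    have hℓK : c₁ * r ≤ ℓ * K := by
      rw [← hℓmm]
      nlinarith
    have hcoord : ℓ * K ≤ |x i - y i| := by
      rcases le_or_gt 0 (q i - q' i) with h0 | h0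
      · rw [abs_of_nonneg h0] at hi
        have h5 : ((K : ℤ) : ℝ) + 1 ≤ (q i : ℝ) - (q' i : ℝ) := by exact_mod_cast hi
        have h6 : ℓ * ((K : ℝ) + 1) ≤ ℓ * ((q i : ℝ) - (q' i : ℝ)) := mul_le_mul_of_nonneg_left (by simpa using h5) hℓ.le
        refine le_trans ?_ (le_abs_self _)
        nlinarith [hxc.1, hyc.2]
      · rw [abs_of_neg h0] at hi
        have h5 : ((K : ℤ) : ℝ) + 1 ≤ (q' i : ℝ) - (q i : ℝ) := by
          have : (K : ℤ) + 1 ≤ q' i - q i := by omega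
          exact_mod_cast this
        have h6 : ℓ * ((K : ℝ) + 1) ≤ ℓ * ((q' i : ℝ) - (q i : ℝ)) := mul_le_mul_of_nonneg_left (by simpa using h5) hℓ.le
        refine le_trans ?_ (neg_le_abs _)
        nlinarith [hxc.2, hyc.1]
    have hnorm : |x i - y i| ≤ ‖x - y‖ := eg_coord_le (x - y) i
    have hτ : |τ x - τ y| ≤ 1 / 2 ^ (j + κ) := by
      have h1 := ht x hx.1
      have h2 := ht y hy.1
      rw [abs_le]
      constructor <;> linarith [h1.1, h1.2, h2.1, h2.2]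
    have h7 : c₁ * 2 ^ j * |τ x - τ y| ≤ c₁ * r := by
      calc c₁ * 2 ^ j * |τ x - τ y| ≤ c₁ * 2 ^ j * (1 / 2 ^ (j + κ)) := mul_le_mul_of_nonneg_left hτ (by positivity)
        _ = c₁ * r := by
          rw [hr, pow_add]
          field_simp
    linarith
  set cc : ℝ≥0∞ := ∫⁻ z, ENNReal.ofReal (κf z) with hcc
  have hccle : cc ≤ ENNReal.ofReal (Ck * Cs) := by
    obtain ⟨hi1, hi2⟩ := hschur j
    rw [hcc, ← ofReal_integral_eq_lintegral_ofReal (hi1.const_mul Ck) (Eventually.of_forall hκ0)]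
    refine ENNReal.ofReal_le_ofReal ?_
    rw [integral_const_mul]
    exact mul_le_mul_of_nonneg_left hi2 hCk
  have hgm : Measurable fun q : EgV n × EgV n => ENNReal.ofReal (κf (q.1 - q.2)) :=
    (hκm.comp (measurable_fst.sub measurable_snd)).ennreal_ofReal
  have hrow : ∀ (F' : Finset (Fin n → ℤ)) (q : Fin n → ℤ),
      ∑ q' ∈ F', ∫⁻ x in P q, ∫⁻ y in P q', ENNReal.ofReal (κf (x - y)) ≤ cc * volume (P q) := by
    intro F' q
    rw [← lintegral_finsetSum _ fun q' _ => Measurable.lintegral_prod_right' (ν := volume.restrict (P q')) hgm]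
    calc ∫⁻ x in P q, ∑ q' ∈ F', ∫⁻ y in P q', ENNReal.ofReal (κf (x - y))
        ≤ ∫⁻ _x in P q, cc := by
          refine lintegral_mono fun x => ?_
          rw [← lintegral_biUnion_finset (hpw F') (fun q' _ => hPm q')]
          refine (setLIntegral_le_lintegral _ _).trans (le_of_eq ?_)
          exact lintegral_sub_left_eq_self (fun z => ENNReal.ofReal (κf z)) x
      _ = cc * volume (P q) := by rw [setLIntegral_const]
  have hSfar : ∑ q ∈ F, ∑ q' ∈ F.filter (fun q' => ¬ ∀ i, |q i - q' i| ≤ (K : ℤ)),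
      ‖∫ η, (egChiJ j η : ℂ) * (egGam (P q) τ w η * conj (egGam (P q') τ w η))‖ ≤ Ck * Cs * (volume A).toReal := by
    rw [← ENNReal.ofReal_le_ofReal_iff (by positivity), ENNReal.ofReal_sum_of_nonneg fun q _ => Finset.sum_nonneg fun q' _ => norm_nonneg _]
    calc ∑ q ∈ F, ENNReal.ofReal (∑ q' ∈ F.filter (fun q' => ¬ ∀ i, |q i - q' i| ≤ (K : ℤ)),
            ‖∫ η, (egChiJ j η : ℂ) * (egGam (P q) τ w η * conj (egGam (P q') τ w η))‖)
        ≤ ∑ q ∈ F, cc * volume (P q) := by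
          refine Finset.sum_le_sum fun q _ => ?_
          rw [ENNReal.ofReal_sum_of_nonneg fun q' _ => norm_nonneg _]
          refine le_trans (Finset.sum_le_sum fun q' hq' => ?_) (hrow _ q)
          exact eg_pair_le j (hPd q) (hPd q') κf hκm hκ0 (hfar q q' (Finset.mem_filter.1 hq').2)
      _ = cc * volume A := by rw [← Finset.mul_sum, ← hvol]
      _ ≤ ENNReal.ofReal (Ck * Cs) * volume A := by gcongr
      _ = ENNReal.ofReal (Ck * Cs * (volume A).toReal) := by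
          rw [ENNReal.ofReal_mul (by positivity : (0 : ℝ) ≤ Ck * Cs), ENNReal.ofReal_toReal hfinA]
  -- assembly
  have hD : egD j A τ w = s2 * ∫ η, egChiJ j η * ‖∑ q ∈ F, egGam (P q) τ w η‖ ^ 2 := by
    unfold egD
    simp only [hGam]
    rfl
  have hDq : ∀ q, s2 * ∫ η, egChiJ j η * ‖egGam (P q) τ w η‖ ^ 2 = egD j (P q) τ w := fun q => rfl
  have hvA0 : 0 ≤ (volume A).toReal := ENNReal.toReal_nonneg
  calc egD j A τ w = s2 * ∫ η, egChiJ j η * ‖∑ q ∈ F, egGam (P q) τ w η‖ ^ 2 := hD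
    _ ≤ s2 * (((2 * K + 1) ^ n : ℕ) * (∑ q ∈ F, ∫ η, egChiJ j η * ‖egGam (P q) τ w η‖ ^ 2)
          + ∑ q ∈ F, ∑ q' ∈ F.filter (fun q' => ¬ ∀ i, |q i - q' i| ≤ (K : ℤ)),
            ‖∫ η, (egChiJ j η : ℂ) * (egGam (P q) τ w η * conj (egGam (P q') τ w η))‖) :=
        mul_le_mul_of_nonneg_left horth hs20
    _ = ((2 * K + 1) ^ n : ℕ) * ∑ q ∈ F, egD j (P q) τ w
          + s2 * ∑ q ∈ F, ∑ q' ∈ F.filter (fun q' => ¬ ∀ i, |q i - q' i| ≤ (K : ℤ)),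
            ‖∫ η, (egChiJ j η : ℂ) * (egGam (P q) τ w η * conj (egGam (P q') τ w η))‖ := by
        rw [mul_add, mul_left_comm, Finset.mul_sum]
        simp only [hDq]
    _ ≤ ((2 * K + 1) ^ n : ℕ) * ∑ q ∈ F, Cb * ρ2 * (volume (P q)).toReal + ρ2 * (Ck * Cs * (volume A).toReal) := by
        refine add_le_add (mul_le_mul_of_nonneg_left (Finset.sum_le_sum fun q _ => hnear q) (by positivity)) ?_
        exact mul_le_mul hs2ρ2 hSfar (Finset.sum_nonneg fun q _ => Finset.sum_nonneg fun q' _ => norm_nonneg _) hρ20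
    _ = (((2 * K + 1) ^ n : ℕ) * Cb + Ck * Cs) * ρ2 * (volume A).toReal := by
        rw [← Finset.mul_sum, ← hvolR]
        ring

/-- **LEAF L-257-EG5-INTERP** `(e:interpolated-descendant)`: geometric mean, `α = 3/2 - 1/p`, `θ = 2^(-s/2)`.
PLAN.  `d ≤ X` and `d ≤ Y` give `d ≤ √(X Y)` (`Real.le_sqrt`, `mul_le_mul`); `√(|A|^{2-2/p} |A|) = |A|^{3/2-1/p}`, `√((2^κ)^{-2s}) = (2^{-s/2})^{2κ}` (`Real.sqrt_eq_rpow`, `Real.rpow_mul`, `Real.rpow_natCast`).  `eg_first` applies because `1/2^(j+κ) ≤ 1/2^j`. -/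
theorem eg_interp (hn : 1 ≤ n) {p C : ℝ} (hp : 2 < p) (hC : 0 ≤ C) (hS : EgShort n p C) : ∃ C' : ℝ, 0 ≤ C' ∧ ∀ (j κ : ℕ), κ ≤ j →
    ∀ (x₀ : EgV n) (A : Set (EgV n)) (τ : EgV n → ℝ) (w : EgV n → ℂ) (t₀ : ℝ), EgDat x₀ A τ w →
    (∀ x ∈ A, τ x ∈ Set.Icc t₀ (t₀ + 1 / 2 ^ (j + κ))) →
    egD j A τ w ≤ C' * ((2 : ℝ) ^ (-(egs n / 2))) ^ (2 * κ) * (volume A).toReal ^ (3 / 2 - 1 / p) := by
  obtain ⟨C₂, hC₂, h2⟩ := eg_second hn hp hC hS
  refine ⟨Real.sqrt (C * C₂), Real.sqrt_nonneg _, fun j κ hκ x₀ A τ w t₀ hD ht => ?_⟩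
  have hp0 : 0 < p := by linarith
  have hV : 0 ≤ (volume A).toReal := ENNReal.toReal_nonneg
  set V := (volume A).toReal with hVdef
  have hd0 := eg_D_nonneg j A τ w
  have hX : egD j A τ w ≤ C * V ^ (2 - 2 / p) := by
    refine eg_first hS j t₀ hD fun x hx => ?_
    have h3 := ht x hx
    refine ⟨h3.1, h3.2.trans ?_⟩
    have : (1 : ℝ) / 2 ^ (j + κ) ≤ 1 / 2 ^ j :=
      one_div_le_one_div_of_le (by positivity) (pow_le_pow_right₀ (by norm_num) (Nat.le_add_right j κ))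
    linarith
  have hY := h2 j κ hκ x₀ A τ w t₀ hD ht
  have hR0 : 0 ≤ Real.sqrt (C * C₂) * ((2 : ℝ) ^ (-(egs n / 2))) ^ (2 * κ) * V ^ (3 / 2 - 1 / p) := by positivity
  rw [← pow_le_pow_iff_left₀ hd0 hR0 (two_ne_zero)]
  have e1 : (((2 : ℝ) ^ (-(egs n / 2))) ^ (2 * κ)) ^ 2 = ((2 : ℝ) ^ κ) ^ (-(2 * egs n)) := by
    rw [← pow_mul, ← Real.rpow_natCast, ← Real.rpow_mul (by norm_num), ← Real.rpow_natCast 2 κ,
      ← Real.rpow_mul (by norm_num)]
    congr 1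
    push_cast
    ring
  have e2 : (V ^ (3 / 2 - 1 / p)) ^ 2 = V ^ (2 - 2 / p) * V := by
    have h1p : 1 / p < 1 / 2 := one_div_lt_one_div_of_lt (by norm_num) hp
    have h4 : (2 - 2 / p) + 1 ≠ 0 := by
      have : 2 / p = 2 * (1 / p) := by ring
      rw [this]
      intro h
      linarith
    have h5 := Real.rpow_add' hV h4
    rw [Real.rpow_one] at h5
    rw [← h5, ← Real.rpow_natCast, ← Real.rpow_mul hV]
    congr 1
    push_cast
    ring
  rw [mul_pow, mul_pow, Real.sq_sqrt (mul_nonneg hC hC₂), e1, e2, sq]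
  calc egD j A τ w * egD j A τ w ≤ (C * V ^ (2 - 2 / p)) * (C₂ * ((2 : ℝ) ^ κ) ^ (-(2 * egs n)) * V) :=
        mul_le_mul hX hY hd0 (by positivity)
    _ = _ := by ring

end Claimed.Agent.R257
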