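import Mathlib

/-!
# ROW 257 (S0497), ENDGAME, unit EG6: THE COMMON TIME TREE (Mathlib only, no analysis)          (architect + prover helper194)

Paper: H `endpoint.tex` l.280-320 (= P `09-endpoint.tex` l.361-450), second half of the proof of `e:dual-square`.
Abstract form.  `m a k` = mass of the dyadic interval `[k 2^-a, (k+1) 2^-a)`, `e j a k` = normalised `L²` norm of the dual function of frequency `2^j` of that interval.
Hypotheses: masses are additive, norms are subadditive, and `e j (j+κ) k ^ 2 ≤ C θ^(2κ) m^α` for the relative depths `κ ≤ j` (`θ = 2^(-s/2) < 1`, `α = 3/2 - 1/p > 1`).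
Conclusion `eg_tree`: `∑_j ∑_{I ∈ D_j} e_j(I)² ≤ C' m(root)^α`, uniformly in the number of frequencies.
Proof: heavier-child path of length `j` from every `I ∈ D_j`; weighted Cauchy-Schwarz; the lighter children at fixed relative depth have distinct parents at absolute depth `j + i`;
convexity deficit `(a+b)^α - a^α - b^α ≥ (2^(α-1) - 1) min(a,b)^α` (weaker constant than the paper's `2^α - 2`, two-line proof) and telescoping.
-/

set_option autoImplicit false

namespace Claimed.Agent.R257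

open Finset

/-- the convexity deficit -/
theorem eg_deficit (α : ℝ) (hα : 1 < α) (a b : ℝ) (ha : 0 ≤ a) (hb : 0 ≤ b) :
    a ^ α + b ^ α + (2 ^ (α - 1) - 1) * (min a b) ^ α ≤ (a + b) ^ α := by
  wlog h : b ≤ a generalizing a b
  · have := this b a hb ha (le_of_not_ge h)
    rw [min_comm, add_comm b a] at this
    linarith
  rw [min_eq_right h]
  have hα0 : α - 1 + 1 ≠ 0 := by
    rw [sub_add_cancel]
    linarith
  have e1 : ∀ x : ℝ, 0 ≤ x → x ^ α = x ^ (α - 1) * x := by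
    intro x hx
    have := Real.rpow_add_one' hx hα0
    rwa [sub_add_cancel] at this
  have h1 : a ^ (α - 1) ≤ (a + b) ^ (α - 1) := Real.rpow_le_rpow ha (by linarith) (by linarith)
  have h2 : (2 * b) ^ (α - 1) ≤ (a + b) ^ (α - 1) := Real.rpow_le_rpow (by linarith) (by linarith) (by linarith)
  rw [Real.mul_rpow (by norm_num) hb] at h2
  rw [e1 (a + b) (by linarith), e1 a ha, e1 b hb]
  have h3 := mul_le_mul_of_nonneg_right h1 ha
  have h4 := mul_le_mul_of_nonneg_right h2 hb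
  nlinarith

theorem eg_sum_two_mul (F : ℕ → ℝ) (N : ℕ) : ∑ k ∈ range (2 * N), F k = ∑ k ∈ range N, (F (2 * k) + F (2 * k + 1)) := by
  induction N with
  | zero => simp
  | succ N ih =>
    rw [show 2 * (N + 1) = 2 * N + 1 + 1 by ring, sum_range_succ, sum_range_succ, ih, sum_range_succ]
    ring

theorem eg_geom_le (θ : ℝ) (hθ0 : 0 < θ) (hθ1 : θ < 1) (n : ℕ) : ∑ i ∈ range n, θ ^ i ≤ 1 / (1 - θ) := by
  have h := mul_neg_geom_sum θ n
  have h1 : 0 < 1 - θ := by linarith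
  rw [le_div_iff₀ h1, mul_comm, h]
  have : 0 ≤ θ ^ n := by positivity
  linarith

/-- the sum of the `α`-powers of the masses at depth `a` -/
noncomputable def egPhi (α : ℝ) (m : ℕ → ℕ → ℝ) (a : ℕ) : ℝ := ∑ k ∈ range (2 ^ a), m a k ^ α

/-- the sum of the `α`-powers of the lighter children of the nodes at depth `a` -/
noncomputable def egLam (α : ℝ) (m : ℕ → ℕ → ℝ) (a : ℕ) : ℝ :=
  ∑ k ∈ range (2 ^ a), (min (m (a + 1) (2 * k)) (m (a + 1) (2 * k + 1))) ^ α

section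

variable (α : ℝ) (m : ℕ → ℕ → ℝ)

theorem eg_lam_nonneg (hm0 : ∀ a k, 0 ≤ m a k) (a : ℕ) : 0 ≤ egLam α m a :=
  sum_nonneg fun k _ => Real.rpow_nonneg (le_min (hm0 _ _) (hm0 _ _)) _

theorem eg_phi_nonneg (hm0 : ∀ a k, 0 ≤ m a k) (a : ℕ) : 0 ≤ egPhi α m a :=
  sum_nonneg fun k _ => Real.rpow_nonneg (hm0 _ _) _

theorem eg_phi_step (hα : 1 < α) (hm0 : ∀ a k, 0 ≤ m a k) (hm : ∀ a k, m a k = m (a + 1) (2 * k) + m (a + 1) (2 * k + 1)) (a : ℕ) :
    egPhi α m (a + 1) + (2 ^ (α - 1) - 1) * egLam α m a ≤ egPhi α m a := by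
  unfold egPhi egLam
  rw [pow_succ', eg_sum_two_mul, mul_sum, ← sum_add_distrib]
  refine sum_le_sum fun k _ => ?_
  rw [hm a k]
  exact eg_deficit α hα _ _ (hm0 _ _) (hm0 _ _)

theorem eg_c_pos (hα : 1 < α) : 0 < (2 : ℝ) ^ (α - 1) - 1 := by
  have : (1 : ℝ) < 2 ^ (α - 1) := Real.one_lt_rpow (by norm_num) (by linarith)
  linarith

theorem eg_phi_le (hα : 1 < α) (hm0 : ∀ a k, 0 ≤ m a k) (hm : ∀ a k, m a k = m (a + 1) (2 * k) + m (a + 1) (2 * k + 1)) (a : ℕ) :
    egPhi α m a ≤ m 0 0 ^ α := by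
  induction a with
  | zero => simp [egPhi]
  | succ a ih =>
    have h1 := eg_phi_step α m hα hm0 hm a
    have h2 := mul_nonneg (eg_c_pos α hα).le (eg_lam_nonneg α m hm0 a)
    linarith

theorem eg_lam_sum (hα : 1 < α) (hm0 : ∀ a k, 0 ≤ m a k) (hm : ∀ a k, m a k = m (a + 1) (2 * k) + m (a + 1) (2 * k + 1)) (i J : ℕ) :
    (2 ^ (α - 1) - 1) * ∑ j ∈ range J, egLam α m (i + j) ≤ m 0 0 ^ α := by
  have key : (2 ^ (α - 1) - 1) * ∑ j ∈ range J, egLam α m (i + j) + egPhi α m (i + J) ≤ egPhi α m i := by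
    induction J with
    | zero => simp
    | succ J ih =>
      rw [sum_range_succ, mul_add]
      have := eg_phi_step α m hα hm0 hm (i + J)
      rw [← add_assoc i J 1]
      linarith
  have h1 := eg_phi_nonneg α m hm0 (i + J)
  have h2 := eg_phi_le α m hα hm0 hm i
  linarith

end

/-- the heavier-child path starting at the node `(j, k)` -/
noncomputable def egHv (m : ℕ → ℕ → ℝ) (j k : ℕ) : ℕ → ℕ
  | 0 => k
  | i + 1 => if m (j + i + 1) (2 * egHv m j k i + 1) ≤ m (j + i + 1) (2 * egHv m j k i) then 2 * egHv m j k i else 2 * egHv m j k i + 1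

/-- the lighter child at the step `i` of the path -/
noncomputable def egLt (m : ℕ → ℕ → ℝ) (j k i : ℕ) : ℕ :=
  if m (j + i + 1) (2 * egHv m j k i + 1) ≤ m (j + i + 1) (2 * egHv m j k i) then 2 * egHv m j k i + 1 else 2 * egHv m j k i

section

variable (m : ℕ → ℕ → ℝ) (j k : ℕ)

theorem eg_hv_div (i : ℕ) : egHv m j k i / 2 ^ i = k := by
  induction i with
  | zero => simp [egHv]
  | succ i ih =>
    have : egHv m j k (i + 1) / 2 = egHv m j k i := by
      simp only [egHv]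
      split_ifs <;> omega
    rw [pow_succ', ← Nat.div_div_eq_div_mul, this, ih]

theorem eg_hv_lt (hk : k < 2 ^ j) (i : ℕ) : egHv m j k i < 2 ^ (j + i) := by
  induction i with
  | zero => simpa [egHv] using hk
  | succ i ih =>
    have e : 2 ^ (j + (i + 1)) = 2 * 2 ^ (j + i) := by rw [← add_assoc, pow_succ']
    rw [e]
    simp only [egHv]
    split_ifs <;> omega

theorem eg_lt_mass (i : ℕ) :
    m (j + i + 1) (egLt m j k i) = min (m (j + i + 1) (2 * egHv m j k i)) (m (j + i + 1) (2 * egHv m j k i + 1)) := by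
  unfold egLt
  split_ifs with h
  · rw [min_eq_right h]
  · rw [min_eq_left (le_of_not_ge h)]

theorem eg_hv_mass (hm0 : ∀ a k, 0 ≤ m a k) (hm : ∀ a k, m a k = m (a + 1) (2 * k) + m (a + 1) (2 * k + 1)) (i : ℕ) :
    m (j + i) (egHv m j k i) ≤ m j k := by
  induction i with
  | zero => simp [egHv]
  | succ i ih =>
    refine le_trans ?_ ih
    rw [hm (j + i) (egHv m j k i), ← add_assoc j i 1]
    have h1 := hm0 (j + i + 1) (2 * egHv m j k i)
    have h2 := hm0 (j + i + 1) (2 * egHv m j k i + 1)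
    simp only [egHv]
    split_ifs <;> linarith

theorem eg_chain (e : ℕ → ℕ → ℝ) (he : ∀ a k, e a k ≤ e (a + 1) (2 * k) + e (a + 1) (2 * k + 1)) (r : ℕ) :
    e j k ≤ ∑ i ∈ range r, e (j + i + 1) (egLt m j k i) + e (j + r) (egHv m j k r) := by
  induction r with
  | zero => simp [egHv]
  | succ r ih =>
    refine ih.trans ?_
    rw [sum_range_succ, ← add_assoc j r 1]
    have := he (j + r) (egHv m j k r)
    simp only [egHv, egLt]
    split_ifs <;> linarith

end

/-- weighted Cauchy-Schwarz -/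
theorem eg_cs (n : ℕ) (y ω : ℕ → ℝ) (hω : ∀ i, 0 < ω i) :
    (∑ i ∈ range n, y i) ^ 2 ≤ (∑ i ∈ range n, ω i) * ∑ i ∈ range n, y i ^ 2 / ω i := by
  rcases Nat.eq_zero_or_pos n with rfl | hn
  · simp
  have h := sq_sum_div_le_sum_sq_div (range n) y (g := ω) (fun i _ => hω i)
  have hpos : 0 < ∑ i ∈ range n, ω i := sum_pos (fun i _ => hω i) ⟨0, mem_range.2 hn⟩
  rw [div_le_iff₀ hpos] at h
  linarith

/-- one starting interval -/
theorem eg_tree_node (α θ C : ℝ) (hθ0 : 0 < θ) (hθ1 : θ < 1) (hC : 0 ≤ C)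
    (m : ℕ → ℕ → ℝ) (e : ℕ → ℕ → ℝ) (j : ℕ)
    (hm0 : ∀ a k, 0 ≤ m a k) (hm : ∀ a k, m a k = m (a + 1) (2 * k) + m (a + 1) (2 * k + 1))
    (he0 : ∀ a k, 0 ≤ e a k) (he : ∀ a k, e a k ≤ e (a + 1) (2 * k) + e (a + 1) (2 * k + 1))
    (hα : 0 ≤ α) (hb : ∀ κ k, κ ≤ j → e (j + κ) k ^ 2 ≤ C * θ ^ (2 * κ) * m (j + κ) k ^ α) (k : ℕ) :
    e j k ^ 2 ≤ C / (1 - θ) * (∑ i ∈ range j, θ ^ i *
        (min (m (j + i + 1) (2 * egHv m j k i)) (m (j + i + 1) (2 * egHv m j k i + 1))) ^ α + θ ^ j * m j k ^ α) := by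
  have h1θ : 0 < 1 - θ := by linarith
  set y : ℕ → ℝ := fun i => if i < j then e (j + i + 1) (egLt m j k i) else e (j + j) (egHv m j k j) with hy
  have hsum : ∑ i ∈ range (j + 1), y i = ∑ i ∈ range j, e (j + i + 1) (egLt m j k i) + e (j + j) (egHv m j k j) := by
    rw [sum_range_succ]
    congr 1
    · refine sum_congr rfl fun i hi => ?_
      simp only [hy, if_pos (mem_range.1 hi)]
    · simp only [hy, lt_irrefl, if_false]
  have hch := eg_chain m j k e he j
  rw [← hsum] at hch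
  have hsq : e j k ^ 2 ≤ (∑ i ∈ range (j + 1), y i) ^ 2 := pow_le_pow_left₀ (he0 j k) hch 2
  have hcs := eg_cs (j + 1) y (fun i => θ ^ i) (fun i => by positivity)
  have hgeo := eg_geom_le θ hθ0 hθ1 (j + 1)
  have hterm : ∑ i ∈ range (j + 1), y i ^ 2 / θ ^ i ≤ C * (∑ i ∈ range j, θ ^ i *
        (min (m (j + i + 1) (2 * egHv m j k i)) (m (j + i + 1) (2 * egHv m j k i + 1))) ^ α + θ ^ j * m j k ^ α) := by
    rw [sum_range_succ, mul_add, mul_sum]
    refine add_le_add (sum_le_sum fun i hi => ?_) ?_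
    · have hi' := mem_range.1 hi
      simp only [hy, if_pos hi']
      have hθi : 0 < θ ^ i := by positivity
      rw [div_le_iff₀ hθi]
      have h := hb (i + 1) (egLt m j k i) (by omega)
      rw [← add_assoc j i 1, eg_lt_mass m j k i] at h
      refine h.trans ?_
      set μ := (min (m (j + i + 1) (2 * egHv m j k i)) (m (j + i + 1) (2 * egHv m j k i + 1))) ^ α with hμ
      have hμ0 : 0 ≤ μ := Real.rpow_nonneg (le_min (hm0 _ _) (hm0 _ _)) _
      have e1 : θ ^ (2 * (i + 1)) = θ ^ i * θ ^ i * θ ^ 2 := by ring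
      have e2 : θ ^ 2 ≤ 1 := pow_le_one₀ hθ0.le hθ1.le
      rw [e1]
      have h5 : 0 ≤ C * (θ ^ i * θ ^ i) * μ := by positivity
      nlinarith
    · simp only [hy, lt_irrefl, if_false]
      have hθj : 0 < θ ^ j := by positivity
      rw [div_le_iff₀ hθj]
      have h := hb j (egHv m j k j) le_rfl
      refine h.trans ?_
      have h6 : m (j + j) (egHv m j k j) ^ α ≤ m j k ^ α := Real.rpow_le_rpow (hm0 _ _) (eg_hv_mass m j k hm0 hm j) hα
      have e1 : θ ^ (2 * j) = θ ^ j * θ ^ j := by ring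
      rw [e1]
      have h7 : 0 ≤ C * (θ ^ j * θ ^ j) := by positivity
      nlinarith [mul_le_mul_of_nonneg_left h6 h7]
  have hnn : 0 ≤ ∑ i ∈ range (j + 1), y i ^ 2 / θ ^ i := sum_nonneg fun i _ => by positivity
  calc e j k ^ 2 ≤ (∑ i ∈ range (j + 1), θ ^ i) * ∑ i ∈ range (j + 1), y i ^ 2 / θ ^ i := hsq.trans hcs
    _ ≤ (1 / (1 - θ)) * ∑ i ∈ range (j + 1), y i ^ 2 / θ ^ i := mul_le_mul_of_nonneg_right hgeo hnn
    _ ≤ (1 / (1 - θ)) * (C * (∑ i ∈ range j, θ ^ i *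
        (min (m (j + i + 1) (2 * egHv m j k i)) (m (j + i + 1) (2 * egHv m j k i + 1))) ^ α + θ ^ j * m j k ^ α)) :=
        mul_le_mul_of_nonneg_left hterm (by positivity)
    _ = _ := by ring

/-- the lighter children at relative depth `i + 1` of the paths starting at depth `j` have distinct parents at depth `j + i` -/
theorem eg_light_sum (α : ℝ) (m : ℕ → ℕ → ℝ) (hm0 : ∀ a k, 0 ≤ m a k) (j i : ℕ) :
    ∑ k ∈ range (2 ^ j), (min (m (j + i + 1) (2 * egHv m j k i)) (m (j + i + 1) (2 * egHv m j k i + 1))) ^ α ≤ egLam α m (j + i) := by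
  unfold egLam
  have hinj : Set.InjOn (fun k => egHv m j k i) (range (2 ^ j) : Set ℕ) := by
    intro k _ k' _ h
    have h1 := eg_hv_div m j k i
    have h2 := eg_hv_div m j k' i
    simp only at h
    rw [← h1, ← h2, h]
  rw [← sum_image (f := fun h => (min (m (j + i + 1) (2 * h)) (m (j + i + 1) (2 * h + 1))) ^ α) hinj]
  refine sum_le_sum_of_subset_of_nonneg ?_ fun h _ _ => Real.rpow_nonneg (le_min (hm0 _ _) (hm0 _ _)) _
  intro h hh
  obtain ⟨k, hk, rfl⟩ := mem_image.1 hh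
  exact mem_range.2 (eg_hv_lt m j k (mem_range.1 hk) i)

/-- **EG6: summation on the common time tree.** -/
theorem eg_tree (α θ C : ℝ) (hα : 1 < α) (hθ0 : 0 < θ) (hθ1 : θ < 1) (hC : 0 ≤ C)
    (m : ℕ → ℕ → ℝ) (e : ℕ → ℕ → ℕ → ℝ)
    (hm0 : ∀ a k, 0 ≤ m a k) (hm : ∀ a k, m a k = m (a + 1) (2 * k) + m (a + 1) (2 * k + 1))
    (he0 : ∀ j a k, 0 ≤ e j a k) (he : ∀ j a k, e j a k ≤ e j (a + 1) (2 * k) + e j (a + 1) (2 * k + 1))
    (hb : ∀ j κ k, κ ≤ j → e j (j + κ) k ^ 2 ≤ C * θ ^ (2 * κ) * m (j + κ) k ^ α) (J : ℕ) :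
    ∑ j ∈ range J, ∑ k ∈ range (2 ^ j), e j j k ^ 2 ≤ C / (1 - θ) ^ 2 * (1 / (2 ^ (α - 1) - 1) + 1) * m 0 0 ^ α := by
  have h1θ : 0 < 1 - θ := by linarith
  have hc := eg_c_pos α hα
  set Φ0 := m 0 0 ^ α with hΦ0
  have hΦ0nn : 0 ≤ Φ0 := Real.rpow_nonneg (hm0 0 0) _
  have hK : 0 ≤ C / (1 - θ) := by positivity
  -- one frequency
  have hj : ∀ j, ∑ k ∈ range (2 ^ j), e j j k ^ 2 ≤ C / (1 - θ) * (∑ i ∈ range J, θ ^ i * egLam α m (i + j) + θ ^ j * Φ0) ∨ J ≤ j := by
    intro j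
    by_cases hjJ : J ≤ j
    · exact Or.inr hjJ
    left
    have hjJ' : j ≤ J := by omega
    calc ∑ k ∈ range (2 ^ j), e j j k ^ 2
        ≤ ∑ k ∈ range (2 ^ j), C / (1 - θ) * (∑ i ∈ range j, θ ^ i *
            (min (m (j + i + 1) (2 * egHv m j k i)) (m (j + i + 1) (2 * egHv m j k i + 1))) ^ α + θ ^ j * m j k ^ α) :=
          sum_le_sum fun k _ => eg_tree_node α θ C hθ0 hθ1 hC m (e j) j hm0 hm (he0 j) (he j) (by linarith) (hb j) k
      _ = C / (1 - θ) * (∑ i ∈ range j, θ ^ i * ∑ k ∈ range (2 ^ j),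
            (min (m (j + i + 1) (2 * egHv m j k i)) (m (j + i + 1) (2 * egHv m j k i + 1))) ^ α + θ ^ j * egPhi α m j) := by
          rw [← mul_sum, sum_add_distrib, sum_comm, egPhi, mul_sum (range (2 ^ j))]
          congr 2
          exact sum_congr rfl fun i _ => (mul_sum _ _ _).symm
      _ ≤ C / (1 - θ) * (∑ i ∈ range J, θ ^ i * egLam α m (i + j) + θ ^ j * Φ0) := by
          refine mul_le_mul_of_nonneg_left (add_le_add ?_ ?_) hK
          · calc ∑ i ∈ range j, θ ^ i * ∑ k ∈ range (2 ^ j),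
                  (min (m (j + i + 1) (2 * egHv m j k i)) (m (j + i + 1) (2 * egHv m j k i + 1))) ^ α
                ≤ ∑ i ∈ range j, θ ^ i * egLam α m (i + j) := by
                  refine sum_le_sum fun i _ => mul_le_mul_of_nonneg_left ?_ (by positivity)
                  rw [add_comm i j]
                  exact eg_light_sum α m hm0 j i
              _ ≤ ∑ i ∈ range J, θ ^ i * egLam α m (i + j) :=
                  sum_le_sum_of_subset_of_nonneg (range_subset_range.2 hjJ') fun i _ _ =>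
                    mul_nonneg (by positivity) (eg_lam_nonneg α m hm0 _)
          · exact mul_le_mul_of_nonneg_left (eg_phi_le α m hα hm0 hm j) (by positivity)
  have hgeo := eg_geom_le θ hθ0 hθ1 J
  have hA : ∑ j ∈ range J, ∑ i ∈ range J, θ ^ i * egLam α m (i + j) ≤ 1 / (1 - θ) * (Φ0 / (2 ^ (α - 1) - 1)) := by
    rw [sum_comm]
    calc ∑ i ∈ range J, ∑ j ∈ range J, θ ^ i * egLam α m (i + j)
        = ∑ i ∈ range J, θ ^ i * ∑ j ∈ range J, egLam α m (i + j) := sum_congr rfl fun i _ => (mul_sum _ _ _).symm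
      _ ≤ ∑ i ∈ range J, θ ^ i * (Φ0 / (2 ^ (α - 1) - 1)) := by
          refine sum_le_sum fun i _ => mul_le_mul_of_nonneg_left ?_ (by positivity)
          rw [le_div_iff₀ hc, mul_comm]
          exact eg_lam_sum α m hα hm0 hm i J
      _ = (∑ i ∈ range J, θ ^ i) * (Φ0 / (2 ^ (α - 1) - 1)) := (sum_mul _ _ _).symm
      _ ≤ 1 / (1 - θ) * (Φ0 / (2 ^ (α - 1) - 1)) := mul_le_mul_of_nonneg_right hgeo (by positivity)
  have hB : ∑ j ∈ range J, θ ^ j * Φ0 ≤ 1 / (1 - θ) * Φ0 := by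
    rw [← sum_mul]
    exact mul_le_mul_of_nonneg_right hgeo hΦ0nn
  calc ∑ j ∈ range J, ∑ k ∈ range (2 ^ j), e j j k ^ 2
      ≤ ∑ j ∈ range J, C / (1 - θ) * (∑ i ∈ range J, θ ^ i * egLam α m (i + j) + θ ^ j * Φ0) := by
        refine sum_le_sum fun j hjm => ?_
        rcases hj j with h | h
        · exact h
        · exact absurd (mem_range.1 hjm) (by omega)
    _ = C / (1 - θ) * (∑ j ∈ range J, ∑ i ∈ range J, θ ^ i * egLam α m (i + j) + ∑ j ∈ range J, θ ^ j * Φ0) := by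
        rw [← mul_sum, sum_add_distrib]
    _ ≤ C / (1 - θ) * (1 / (1 - θ) * (Φ0 / (2 ^ (α - 1) - 1)) + 1 / (1 - θ) * Φ0) :=
        mul_le_mul_of_nonneg_left (add_le_add hA hB) hK
    _ = C / (1 - θ) ^ 2 * (1 / (2 ^ (α - 1) - 1) + 1) * Φ0 := by
        field_simp

end Claimed.Agent.R257
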