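import Claimed.Agent.R257.End.Sep
import Claimed.Agent.R257.End.Loc
import Claimed.Agent.R257.End.Tree

/-!
# ROW 257 (S0497), ENDGAME, unit EG7: THE DUAL SQUARE SUM          (architect helper194)          PROVED (modulo its imports)
Paper: H `endpoint.tex` l.180 `e:dual-square` = P `lem:endpoint-square-sum`.
-/

set_option autoImplicit false

namespace Claimed.Agent.R257

open MeasureTheory Filter Topology Metric Set
open scoped ENNReal

variable {n : ℕ}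

/-- **LEAF L-257-EG7.**  `∑_j d_j(A) ≤ C`, the same `τ`, `w` for all frequencies.
PLAN.  `m a k = |egPc A τ a k|`, `e j a k = √(egD j (egPc A τ a k) τ w)`.  Additivity of `m`: `eg_pc_split`, `measure_union`, finiteness (`A ⊆ ball`).  Subadditivity of `e`: `eg_pc_split`, `eg_D_sqrt_union`, `eg_dat_pc`.
Bound: `eg_interp` with `t₀ = k/2^(j+κ)` (`Ico ⊆ Icc`), `Real.sq_sqrt`.   `eg_tree` with `α = 3/2 - 1/p > 1`, `θ = 2^(-s/2) ∈ (0,1)` (`eg_s_pos`).  `m 0 0 = |A| ≤ |ball x₀ 1|` (`eg_pc_root`), which does not depend on `x₀`.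
`eg_time_sep`, `∑_j (1/4)^j ≤ 4/3`. -/
theorem eg_dual_square (hn : 1 ≤ n) {p C : ℝ} (hp : 2 < p) (hC : 0 ≤ C) (hS : EgShort n p C) : ∃ C' : ℝ, 0 ≤ C' ∧
    ∀ (x₀ : EgV n) (A : Set (EgV n)) (τ : EgV n → ℝ) (w : EgV n → ℂ), EgDat x₀ A τ w → (∀ x ∈ A, τ x ∈ Set.Ico (0 : ℝ) 1) →
    ∀ J : ℕ, ∑ j ∈ Finset.range J, egD j A τ w ≤ C' := by
  obtain ⟨C1, hC1, hsep⟩ := eg_time_sep (n := n) hn
  obtain ⟨C2, hC2, hint⟩ := eg_interp hn hp hC hS
  set α : ℝ := 3 / 2 - 1 / p with hαd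
  set θ : ℝ := (2 : ℝ) ^ (-(egs n / 2)) with hθd
  have hα : 1 < α := by
    have : 1 / p < 1 / 2 := one_div_lt_one_div_of_lt (by norm_num) hp
    rw [hαd]
    linarith
  have hθ0 : 0 < θ := Real.rpow_pos_of_pos (by norm_num) _
  have hθ1 : θ < 1 := Real.rpow_lt_one_of_one_lt_of_neg (by norm_num) (by have := eg_s_pos hn; linarith)
  have h1θ : 0 < 1 - θ := by linarith
  have hc := eg_c_pos α hα
  set v : ℝ := (volume (ball (0 : EgV n) 1)).toReal with hv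
  set K : ℝ := C2 / (1 - θ) ^ 2 * (1 / (2 ^ (α - 1) - 1) + 1) with hK
  have hK0 : 0 ≤ K := by positivity
  have hv0 : 0 ≤ v := ENNReal.toReal_nonneg
  refine ⟨C1 * (K * v ^ α) + C1 * (4 / 3), by positivity, ?_⟩
  intro x₀ A τ w hd hτ J
  set m : ℕ → ℕ → ℝ := fun a k => (volume (egPc A τ a k)).toReal with hmdef
  set e : ℕ → ℕ → ℕ → ℝ := fun j a k => Real.sqrt (egD j (egPc A τ a k) τ w) with hedef
  have hfin : ∀ a k, volume (egPc A τ a k) ≠ ⊤ := fun a k =>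
    measure_ne_top_of_subset (eg_dat_pc hd a k).sub measure_ball_lt_top.ne
  have hm0 : ∀ a k, 0 ≤ m a k := fun a k => ENNReal.toReal_nonneg
  have hm : ∀ a k, m a k = m (a + 1) (2 * k) + m (a + 1) (2 * k + 1) := by
    intro a k
    obtain ⟨h1, h2⟩ := eg_pc_split A τ a k
    show (volume (egPc A τ a k)).toReal = _
    rw [h1, measure_union h2 (eg_dat_pc hd (a + 1) (2 * k + 1)).mA, ENNReal.toReal_add (hfin _ _) (hfin _ _)]
  have he0 : ∀ j a k, 0 ≤ e j a k := fun j a k => Real.sqrt_nonneg _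
  have he : ∀ j a k, e j a k ≤ e j (a + 1) (2 * k) + e j (a + 1) (2 * k + 1) := by
    intro j a k
    obtain ⟨h1, h2⟩ := eg_pc_split A τ a k
    show Real.sqrt (egD j (egPc A τ a k) τ w) ≤ _
    rw [h1]
    exact eg_D_sqrt_union (eg_dat_pc hd _ _) (eg_dat_pc hd _ _) h2 j
  have hb : ∀ j κ k, κ ≤ j → e j (j + κ) k ^ 2 ≤ C2 * θ ^ (2 * κ) * m (j + κ) k ^ α := by
    intro j κ k hκ
    show Real.sqrt (egD j (egPc A τ (j + κ) k) τ w) ^ 2 ≤ _
    rw [Real.sq_sqrt (eg_D_nonneg _ _ _ _)]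
    refine hint j κ hκ x₀ (egPc A τ (j + κ) k) τ w ((k : ℝ) / 2 ^ (j + κ)) (eg_dat_pc hd _ _) fun x hx => ?_
    have hx2 : τ x ∈ Set.Ico ((k : ℝ) / 2 ^ (j + κ)) (((k : ℝ) + 1) / 2 ^ (j + κ)) := hx.2
    refine ⟨hx2.1, ?_⟩
    rw [← add_div]
    exact hx2.2.le
  have htree := eg_tree α θ C2 hα hθ0 hθ1 hC2 m e hm0 hm he0 he hb J
  have hroot : m 0 0 ≤ v := by
    show (volume (egPc A τ 0 0)).toReal ≤ _
    rw [eg_pc_root A τ hτ, hv, ← Measure.addHaar_ball_center volume x₀ 1]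
    exact ENNReal.toReal_mono measure_ball_lt_top.ne (measure_mono hd.sub)
  have hroot' : m 0 0 ^ α ≤ v ^ α := Real.rpow_le_rpow (hm0 0 0) hroot (by linarith)
  have hgeo := eg_geom_le (1 / 4 : ℝ) (by norm_num) (by norm_num) J
  have hsq : ∀ j k, e j j k ^ 2 = egD j (egPc A τ j k) τ w := fun j k => Real.sq_sqrt (eg_D_nonneg _ _ _ _)
  calc ∑ j ∈ Finset.range J, egD j A τ w
      ≤ ∑ j ∈ Finset.range J, (C1 * ∑ k ∈ Finset.range (2 ^ j), egD j (egPc A τ j k) τ w + C1 * (1 / 4 : ℝ) ^ j) :=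
        Finset.sum_le_sum fun j _ => hsep j x₀ A τ w hd hτ
    _ = C1 * ∑ j ∈ Finset.range J, ∑ k ∈ Finset.range (2 ^ j), e j j k ^ 2 + C1 * ∑ j ∈ Finset.range J, (1 / 4 : ℝ) ^ j := by
        rw [Finset.sum_add_distrib, ← Finset.mul_sum, ← Finset.mul_sum]
        simp only [hsq]
    _ ≤ C1 * (K * v ^ α) + C1 * (4 / 3) := by
        refine add_le_add (mul_le_mul_of_nonneg_left ?_ hC1) (mul_le_mul_of_nonneg_left ?_ hC1)
        · exact htree.trans (mul_le_mul_of_nonneg_left hroot' hK0)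
        · refine hgeo.trans (le_of_eq ?_)
          norm_num

end Claimed.Agent.R257
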