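import Claimed.Agent.R257.End.Defs
import Claimed.Agent.R255.Pk.NspMain

/-!
# ROW 257 (S0497), ENDGAME, units EG2 + EG3: THE PAIRING KERNEL          (architect helper194)          CONTRACT
`egKer j z s = ∫ χ(η/N) e^{2πi z·η - 4π² i s|η|²} dη`, `N = 2^j`.  After `η = N ζ`: `N^n ∫ χ(ζ) e^{iφ(ζ)} dζ`, `φ(ζ) = 2π N z·ζ - 4π² N² s |ζ|²`, `∇φ = 2π N z - 8π² N² s ζ`, `1/2 ≤ |ζ| ≤ 2` on the support.
TOOL (on main, sorry-free, any finite-dimensional space): `Claimed.Agent.R255.pk_nsp` = non-stationary phase along a FIXED direction `e` with `∂_e φ ≥ m` on an open `Ω ⊇ S ⊇ tsupport a`; `∂_e φ` is affine here, so `Cb` is immediate.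
Every `sorry` is a leaf `L-257-EG2-*` / `L-257-EG3`.  Statements are frozen; auxiliary lemmas directly above your theorem, prefix `eg_`.
-/

set_option autoImplicit false

namespace Claimed.Agent.R257

open MeasureTheory Filter Topology Metric Set
open scoped ENNReal ContDiff ComplexConjugate

variable {n : ℕ}

-- helpers of eg_ker_scale
theorem eg_ker_resc (j : ℕ) (z : EgV n) (s : ℝ) (η : EgV n) :
    egE 0 (((2 : ℝ) ^ j) ^ 2 * s) (((2 : ℝ) ^ j) • z) (((2 : ℝ) ^ j)⁻¹ • η) = egE 0 s z η := by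
  have hN : (0 : ℝ) < (2 : ℝ) ^ j := by positivity
  unfold egE
  have e1 : (inner ℝ (((2 : ℝ) ^ j) • z) (((2 : ℝ) ^ j)⁻¹ • η) : ℝ) = inner ℝ z η := by
    rw [inner_smul_left, inner_smul_right]
    simp only [conj_trivial]
    rw [← mul_assoc, mul_inv_cancel₀ hN.ne', one_mul]
  have e2 : ((2 : ℝ) ^ j) ^ 2 * s * ‖((2 : ℝ) ^ j)⁻¹ • η‖ ^ 2 = s * ‖η‖ ^ 2 := by
    rw [norm_smul, Real.norm_of_nonneg (inv_nonneg.2 hN.le)]
    field_simp
  rw [e1, e2]
  simp

/-- **LEAF L-257-EG2-SCALE.**  `η = 2^j ζ` (`MeasureTheory.Measure.integral_comp_smul`, `finrank_euclideanSpace_fin`), `inner_smul_right`, `norm_smul`. -/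
theorem eg_ker_scale (j : ℕ) (z : EgV n) (s : ℝ) :
    egKer j z s = (((2 : ℝ) ^ j) ^ n : ℝ) * ∫ ζ, (egChi ζ : ℂ) * egE 0 (((2 : ℝ) ^ j) ^ 2 * s) (((2 : ℝ) ^ j) • z) ζ := by
  have hN : (0 : ℝ) < (2 : ℝ) ^ j := by positivity
  have h := Measure.integral_comp_smul (volume : Measure (EgV n))
    (fun ζ : EgV n => (egChi ζ : ℂ) * egE 0 (((2 : ℝ) ^ j) ^ 2 * s) (((2 : ℝ) ^ j) • z) ζ) (((2 : ℝ) ^ j)⁻¹)
  simp only [eg_ker_resc] at h
  unfold egKer egChiJ
  rw [h, finrank_euclideanSpace_fin, inv_pow, inv_inv, abs_of_pos (by positivity)]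
  rw [Complex.real_smul]

-- helpers of eg_ker_le
theorem eg_chi_abs_le (ζ : EgV n) : |egChi ζ| ≤ (closedBall (0 : EgV n) 2).indicator (fun _ => (1 : ℝ)) ζ := by
  by_cases h : egChi ζ = 0
  · rw [h, abs_zero]
    exact Set.indicator_nonneg (fun _ _ => zero_le_one) _
  · have h2 := (eg_chi_supp ζ h).2
    rw [Set.indicator_of_mem (by simpa using h2), abs_of_nonneg (eg_chi_nonneg ζ)]
    exact eg_chi_le_one ζ

/-- **LEAF L-257-EG2-SCALE.**  the trivial bound: `|χ| ≤ 1` on `closedBall 0 2`. -/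
theorem eg_ker_le (j : ℕ) (z : EgV n) (s : ℝ) : ‖egKer j z s‖ ≤ (volume (closedBall (0 : EgV n) 2)).toReal * ((2 : ℝ) ^ j) ^ n := by
  have hN : (0 : ℝ) < (2 : ℝ) ^ j := by positivity
  rw [eg_ker_scale, norm_mul, Complex.norm_real, Real.norm_of_nonneg (by positivity), mul_comm]
  refine mul_le_mul_of_nonneg_right ?_ (by positivity)
  have h1 : ∫ ζ : EgV n, (closedBall (0 : EgV n) 2).indicator (fun _ => (1 : ℝ)) ζ = (volume (closedBall (0 : EgV n) 2)).toReal := by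
    rw [integral_indicator measurableSet_closedBall]
    simp [Measure.real]
  rw [← h1]
  refine norm_integral_le_of_norm_le ?_ (Filter.Eventually.of_forall fun ζ => ?_)
  · exact (integrable_indicator_iff measurableSet_closedBall).2
      (integrableOn_const (by exact (measure_closedBall_lt_top).ne))
  · rw [norm_mul, eg_E_norm_zero, mul_one, Complex.norm_real, Real.norm_eq_abs]
    exact eg_chi_abs_le ζ

/-- the character as `exp (i φ)`. -/
theorem eg_E_phase (s : ℝ) (z ζ : EgV n) :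
    egE 0 s z ζ = Complex.exp (Complex.I * ((2 * Real.pi * inner ℝ z ζ - 4 * Real.pi ^ 2 * s * ‖ζ‖ ^ 2 : ℝ) : ℂ)) := by
  unfold egE
  congr 1
  push_cast
  ring

/-- the directional derivative of the phase. -/
theorem eg_phase_fderiv (s : ℝ) (z ζ e : EgV n) :
    fderiv ℝ (fun ζ : EgV n => 2 * Real.pi * inner ℝ z ζ - 4 * Real.pi ^ 2 * s * ‖ζ‖ ^ 2) ζ e
      = 2 * Real.pi * inner ℝ z e - 8 * Real.pi ^ 2 * s * inner ℝ ζ e := by
  have h1 : HasFDerivAt (fun ζ : EgV n => (inner ℝ z ζ : ℝ)) (innerSL ℝ z) ζ := (innerSL ℝ z).hasFDerivAt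
  have h2 : HasFDerivAt (fun ζ : EgV n => ‖ζ‖ ^ 2) (2 • innerSL ℝ ζ) ζ := (hasStrictFDerivAt_norm_sq ζ).hasFDerivAt
  have h3 : HasFDerivAt (fun ζ : EgV n => 2 * Real.pi * inner ℝ z ζ - 4 * Real.pi ^ 2 * s * ‖ζ‖ ^ 2) _ ζ :=
    (h1.const_mul (2 * Real.pi)).sub (h2.const_mul (4 * Real.pi ^ 2 * s))
  rw [h3.fderiv]
  simp
  ring

/-- non-stationary phase for the quadratic phase, a FIXED amplitude, uniformly in the parameters. -/
theorem eg_nsp_core (M : ℕ) (K : ℝ) {Ω S : Set (EgV n)} {a : EgV n → ℂ} (hΩ : IsOpen Ω) (hΩ3 : Ω ⊆ ball 0 3)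
    (hS : IsCompact S) (hSΩ : S ⊆ Ω) (ha : ContDiff ℝ ∞ a) (hsupp : tsupport a ⊆ S) :
    ∃ C : ℝ, 0 ≤ C ∧ ∀ (z : EgV n) (s : ℝ) (e : EgV n) (m : ℝ), ‖e‖ ≤ 1 → 0 < m →
      (∀ ζ ∈ Ω, m ≤ 2 * Real.pi * inner ℝ z e - 8 * Real.pi ^ 2 * s * inner ℝ ζ e) →
      2 * Real.pi * ‖z‖ + 24 * Real.pi ^ 2 * |s| ≤ K * m →
      ‖∫ ζ, a ζ * egE 0 s z ζ‖ ≤ C * (m ^ M)⁻¹ := by
  have hcs : HasCompactSupport a := hS.of_isClosed_subset (isClosed_tsupport a) hsupp
  have hB : ∀ j : ℕ, ∃ C, ∀ z, ‖iteratedFDeriv ℝ j a z‖ ≤ C := fun j =>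
    (ha.continuous_iteratedFDeriv (m := j) (by exact_mod_cast le_top)).bounded_above_of_compact_support
      (hcs.iteratedFDeriv j)
  choose b hb using hB
  obtain ⟨C, hC0, hC⟩ := R255.pk_nsp (volume : Measure (EgV n)) M b (fun _ => K)
  refine ⟨C * (volume S).toReal, by positivity, fun z s e m he hm hlow hup => ?_⟩
  have h := hC Ω S a (fun ζ => 2 * Real.pi * inner ℝ z ζ - 4 * Real.pi ^ 2 * s * ‖ζ‖ ^ 2) e m hΩ hS hSΩ he hm ha hsupp
    (fun j _ z => hb j z) ?_ ?_ ?_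
  · simp only [eg_E_phase]
    calc _ ≤ _ := h
      _ = _ := by ring
  · refine ContDiff.contDiffOn ?_
    exact ((contDiff_const.mul (contDiff_const.inner ℝ contDiff_id)).sub (contDiff_const.mul (contDiff_norm_sq ℝ)))
  · intro ζ hζ
    rw [eg_phase_fderiv]
    exact hlow ζ hζ
  · simp only [eg_phase_fderiv]
    have hpi : 0 < Real.pi := Real.pi_pos
    have h1 : R255.Cb (fun _ => ‖2 * Real.pi * (inner ℝ z e : ℝ)‖) Ω (fun _ : EgV n => 2 * Real.pi * (inner ℝ z e : ℝ)) :=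
      R255.pk_cb_const _
    have hT : ∀ ζ : EgV n, ‖((8 * Real.pi ^ 2 * s) • innerSL ℝ e) ζ‖ ≤ 8 * Real.pi ^ 2 * |s| * ‖ζ‖ := by
      intro ζ
      have h0 : |(inner ℝ e ζ : ℝ)| ≤ ‖e‖ * ‖ζ‖ := abs_real_inner_le_norm e ζ
      have h00 : ‖e‖ * ‖ζ‖ ≤ 1 * ‖ζ‖ := mul_le_mul_of_nonneg_right he (norm_nonneg _)
      simp only [_root_.smul_apply, innerSL_apply_apply, smul_eq_mul, Real.norm_eq_abs, abs_mul]
      rw [abs_of_pos (by positivity : (0 : ℝ) < 8), abs_of_pos (by positivity : (0 : ℝ) < Real.pi ^ 2)]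
      exact mul_le_mul_of_nonneg_left (by linarith) (by positivity)
    have h2 : R255.Cb (fun j => if j = 0 then 24 * Real.pi ^ 2 * |s| else ‖(8 * Real.pi ^ 2 * s) • innerSL ℝ e‖) Ω
        (fun ζ : EgV n => ((8 * Real.pi ^ 2 * s) • innerSL ℝ e) ζ) := by
      refine R255.pk_cb_clm _ fun ζ hζ => (hT ζ).trans ?_
      have h3 : ‖ζ‖ < 3 := by simpa using hΩ3 hζ
      have : 8 * Real.pi ^ 2 * |s| * ‖ζ‖ ≤ 8 * Real.pi ^ 2 * |s| * 3 := mul_le_mul_of_nonneg_left h3.le (by positivity)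
      linarith
    have h3 := (h1.sub hΩ h2).mono (Λ' := fun _ => K * m) subset_rfl (fun j => ?_)
    · refine h3.congr hΩ fun ζ _ => ?_
      simp only [_root_.smul_apply, innerSL_apply_apply, smul_eq_mul]
      rw [real_inner_comm ζ e]
    · have hc : ‖2 * Real.pi * (inner ℝ z e : ℝ)‖ ≤ 2 * Real.pi * ‖z‖ := by
        have h0 : |(inner ℝ z e : ℝ)| ≤ ‖z‖ * ‖e‖ := abs_real_inner_le_norm z e
        have h00 : ‖z‖ * ‖e‖ ≤ ‖z‖ * 1 := mul_le_mul_of_nonneg_left he (norm_nonneg _)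
        rw [Real.norm_eq_abs, abs_mul, abs_of_pos (by positivity : (0 : ℝ) < 2 * Real.pi)]
        exact mul_le_mul_of_nonneg_left (by linarith) (by positivity)
      have hn : ‖(8 * Real.pi ^ 2 * s) • innerSL ℝ e‖ ≤ 8 * Real.pi ^ 2 * |s| :=
        ContinuousLinearMap.opNorm_le_bound _ (by positivity) hT
      have hs : 0 ≤ Real.pi ^ 2 * |s| := by positivity
      show _ + (if j = 0 then _ else _) ≤ _
      split_ifs <;> linarith

/-- one coordinate of a vector of length `≥ 1/2` is `> 1/(4n)`. -/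
theorem eg_sector_cover (hn : 1 ≤ n) (ζ : EgV n) (h : 1 / 2 ≤ ‖ζ‖) : ∃ i : Fin n, 1 / (4 * (n : ℝ)) < |ζ i| := by
  by_contra hc
  push Not at hc
  have hnR : (1 : ℝ) ≤ n := by exact_mod_cast hn
  have h1 : ‖ζ‖ ^ 2 ≤ ∑ _i : Fin n, (1 / (4 * (n : ℝ))) ^ 2 := by
    rw [EuclideanSpace.norm_sq_eq]
    refine Finset.sum_le_sum fun i _ => ?_
    rw [Real.norm_eq_abs]
    exact pow_le_pow_left₀ (abs_nonneg _) (hc i) 2
  rw [Finset.sum_const, Finset.card_univ, Fintype.card_fin, nsmul_eq_mul] at h1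
  have h2 : (n : ℝ) * (1 / (4 * (n : ℝ))) ^ 2 = 1 / (16 * n) := by
    field_simp
    ring
  have h3 : 1 / (16 * (n : ℝ)) ≤ 1 / 16 := by
    apply one_div_le_one_div_of_le (by norm_num)
    linarith
  nlinarith

/-- the smooth sector decomposition of the cut-off. -/
theorem eg_sector_split (hn : 1 ≤ n) : ∃ (a : Fin n × Bool → EgV n → ℂ) (S : Fin n × Bool → Set (EgV n)),
    (∀ σ, ContDiff ℝ ∞ (a σ)) ∧ (∀ σ, IsCompact (S σ)) ∧ (∀ σ, tsupport (a σ) ⊆ S σ) ∧
    (∀ σ, S σ ⊆ {ζ : EgV n | 1 / (4 * (n : ℝ)) < (if σ.2 then 1 else -1) * ζ σ.1} ∩ ball 0 3) ∧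
    ∀ ζ, (egChi ζ : ℂ) = ∑ σ, a σ ζ := by
  have hs₀ : IsClosed {ζ : EgV n | 1 / 2 ≤ ‖ζ‖} := isClosed_le continuous_const continuous_norm
  have hUo : ∀ σ : Fin n × Bool, IsOpen {ζ : EgV n | 1 / (4 * (n : ℝ)) < (if σ.2 then 1 else -1) * ζ σ.1} := fun σ =>
    isOpen_lt continuous_const (continuous_const.mul (EuclideanSpace.proj σ.1 : EgV n →L[ℝ] ℝ).continuous)
  have hcover : {ζ : EgV n | 1 / 2 ≤ ‖ζ‖} ⊆ ⋃ σ : Fin n × Bool, {ζ : EgV n | 1 / (4 * (n : ℝ)) < (if σ.2 then 1 else -1) * ζ σ.1} := by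
    intro ζ hζ
    obtain ⟨i, hi⟩ := eg_sector_cover hn ζ hζ
    rcases lt_abs.1 hi with h | h
    · exact mem_iUnion.2 ⟨(i, true), by simpa using h⟩
    · exact mem_iUnion.2 ⟨(i, false), by simpa using h⟩
  obtain ⟨ρ, hρ⟩ := SmoothPartitionOfUnity.exists_isSubordinate (modelWithCornersSelf ℝ (EgV n)) hs₀ _ hUo hcover
  have hρs : ∀ σ, ContDiff ℝ ∞ (ρ σ) := fun σ => (ρ σ).contMDiff.contDiff
  refine ⟨fun σ ζ => ((ρ σ ζ * egChi ζ : ℝ) : ℂ), fun σ => tsupport (ρ σ) ∩ closedBall 0 2,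
    fun σ => Complex.ofRealCLM.contDiff.comp ((hρs σ).mul eg_chi_smooth),
    fun σ => (isCompact_closedBall 0 2).inter_left (isClosed_tsupport _), fun σ => ?_, fun σ => ?_, fun ζ => ?_⟩
  · refine closure_minimal (fun ζ hζ => ?_) ((isClosed_tsupport _).inter isClosed_closedBall)
    have h0 : ρ σ ζ * egChi ζ ≠ 0 := fun h => hζ (by simp only [h, Complex.ofReal_zero])
    refine ⟨subset_tsupport _ (left_ne_zero_of_mul h0), ?_⟩
    simpa using (eg_chi_supp ζ (right_ne_zero_of_mul h0)).2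
  · exact inter_subset_inter (hρ σ) (closedBall_subset_ball (by norm_num))
  · by_cases h : egChi ζ = 0
    · simp [h]
    · have h1 := ρ.sum_eq_one (x := ζ) (eg_chi_supp ζ h).1
      rw [finsum_eq_sum_of_fintype] at h1
      rw [← Complex.ofReal_sum, ← Finset.sum_mul, h1, one_mul]

/-- **LEAF L-257-EG2-TIME** (`e:initial-time-separation`): the time term dominates.
PLAN.  `c₀ = 2 √n`.  Sectors `U (i, ±) = {ζ | ± ζ i > 1/(4√n)}`: they cover `{1/2 ≤ |ζ|}` (`max_i |ζ i| ≥ |ζ|/√n`).  `SmoothPartitionOfUnity.exists_isSubordinate 𝓘(ℝ, EgV n)` for the closed set `tsupport egChi`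
(finite index type `Fin n × Bool`): `χ = ∑ ρ_σ χ`, `a_σ = ρ_σ χ` smooth (`contMDiff_iff_contDiff`), `tsupport a_σ ⊆ tsupport χ ∩ tsupport ρ_σ =: S_σ` compact `⊆ U σ ∩ ball 0 3 =: Ω_σ`; derivative bounds of the FIXED functions `a_σ` by compactness.
On `Ω_σ`, `e = ± e_i` (sign chosen with the sign of `s`): `|∂_{e_i} φ| ≥ 8π² N² |s| /(4√n) - 2π N |z| ≥ π² N² |s|/√n =: m ≥ 2π² N ≥ N` because `N|s| ≥ c₀`, `|z| ≤ 2`;  `|∂_e φ| ≤ 2πN|z| + 24π²N²|s| ≤ C_n m`, `|D ∂_e φ| ≤ 8π²N²|s| ≤ C_n m`, higher derivatives vanish.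
`pk_nsp M`, `eg_ker_scale`, sum over the `2n` sectors. -/
theorem eg_ker_time (hn : 1 ≤ n) : ∃ c₀ : ℝ, 0 < c₀ ∧ ∀ M : ℕ, ∃ C : ℝ, 0 ≤ C ∧ ∀ (j : ℕ) (z : EgV n) (s : ℝ), ‖z‖ ≤ 2 → c₀ / 2 ^ j ≤ |s| →
    ‖egKer j z s‖ * ((2 : ℝ) ^ j) ^ M ≤ C * ((2 : ℝ) ^ j) ^ n := by
  have hnR : (1 : ℝ) ≤ n := by exact_mod_cast hn
  have hpi : 0 < Real.pi := Real.pi_pos
  have hpi2 : 2 ≤ Real.pi := Real.two_le_pi
  obtain ⟨a, S, ha, hS, hsupp, hSU, hsum⟩ := eg_sector_split hn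
  refine ⟨2 * n, by positivity, fun M => ?_⟩
  have hUo : ∀ σ : Fin n × Bool, IsOpen ({ζ : EgV n | 1 / (4 * (n : ℝ)) < (if σ.2 then 1 else -1) * ζ σ.1} ∩ ball 0 3) := fun σ =>
    (isOpen_lt continuous_const (continuous_const.mul (EuclideanSpace.proj σ.1 : EgV n →L[ℝ] ℝ).continuous)).inter isOpen_ball
  have hcore := fun σ => eg_nsp_core M (1 + 24 * n) (hUo σ) inter_subset_right (hS σ) (hSU σ) (ha σ) (hsupp σ)
  choose C hC0 hC using hcore
  refine ⟨∑ σ, C σ, Finset.sum_nonneg fun σ _ => hC0 σ, fun j z s hz hs => ?_⟩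
  have hsc := eg_ker_scale j z s
  generalize hN : (2 : ℝ) ^ j = N at *
  have hN0 : 0 < N := hN ▸ (by positivity)
  rw [div_le_iff₀ hN0] at hs
  -- the size parameter
  obtain ⟨q, hq, hq2⟩ : ∃ q : ℝ, |s| * N = n * q ∧ 2 ≤ q := by
    refine ⟨|s| * N / n, by field_simp, ?_⟩
    rw [le_div_iff₀ (by positivity)]
    linarith
  have hm : 0 < Real.pi ^ 2 * N * q := by positivity
  have hmN : N ≤ Real.pi ^ 2 * N * q := by
    have h1 : (1 : ℝ) ≤ Real.pi ^ 2 * q := by nlinarith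
    nlinarith
  have h4 : 4 * Real.pi * N ≤ Real.pi ^ 2 * N * q := by
    have h1 : 4 ≤ Real.pi * q := by nlinarith
    have := mul_le_mul_of_nonneg_left h1 (by positivity : 0 ≤ Real.pi * N)
    nlinarith
  have hNz : ‖N • z‖ ≤ 2 * N := by
    rw [norm_smul, Real.norm_eq_abs, abs_of_pos hN0]
    nlinarith
  have hs2 : N ^ 2 * |s| = N * (n * q) := by rw [← hq]; ring
  -- each sector
  have hsec : ∀ σ, ‖∫ ζ, a σ ζ * egE 0 (N ^ 2 * s) (N • z) ζ‖ ≤ C σ * (N ^ M)⁻¹ := by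
    intro σ
    obtain ⟨ε, hε1, hεs⟩ : ∃ ε : ℝ, |ε| = 1 ∧ s * ε = -|s| := by
      rcases le_total 0 s with h | h
      · exact ⟨-1, by simp, by rw [abs_of_nonneg h]; ring⟩
      · exact ⟨1, by simp, by rw [abs_of_nonpos h]; ring⟩
    have hb1 : |(if σ.2 then (1 : ℝ) else -1)| = 1 := by split_ifs <;> simp
    have he : ‖(ε * (if σ.2 then (1 : ℝ) else -1)) • EuclideanSpace.single σ.1 (1 : ℝ)‖ ≤ 1 := by
      rw [norm_smul, Real.norm_eq_abs, abs_mul, hε1, hb1, PiLp.norm_single]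
      simp
    have hI := hC σ (N • z) (N ^ 2 * s) _ (Real.pi ^ 2 * N * q) he hm (fun ζ hζ => ?_) ?_
    · refine hI.trans (mul_le_mul_of_nonneg_left ?_ (hC0 σ))
      exact inv_anti₀ (by positivity) (pow_le_pow_left₀ hN0.le hmN M)
    · have e1 : -(2 * N) ≤ (inner ℝ (N • z) ((ε * (if σ.2 then (1 : ℝ) else -1)) • EuclideanSpace.single σ.1 (1 : ℝ)) : ℝ) := by
        have h1 := abs_real_inner_le_norm (N • z) ((ε * (if σ.2 then (1 : ℝ) else -1)) • EuclideanSpace.single σ.1 (1 : ℝ))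
        have h2 : ‖N • z‖ * ‖(ε * (if σ.2 then (1 : ℝ) else -1)) • EuclideanSpace.single σ.1 (1 : ℝ)‖ ≤ (2 * N) * 1 :=
          mul_le_mul hNz he (norm_nonneg _) (by positivity)
        have h3 := neg_abs_le (inner ℝ (N • z) ((ε * (if σ.2 then (1 : ℝ) else -1)) • EuclideanSpace.single σ.1 (1 : ℝ)) : ℝ)
        linarith
      have e2 : (inner ℝ ζ ((ε * (if σ.2 then (1 : ℝ) else -1)) • EuclideanSpace.single σ.1 (1 : ℝ)) : ℝ)
          = ε * ((if σ.2 then (1 : ℝ) else -1) * ζ σ.1) := by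
        rw [real_inner_smul_right, EuclideanSpace.inner_single_right]
        simp
      have e3 : 1 / (4 * (n : ℝ)) < (if σ.2 then (1 : ℝ) else -1) * ζ σ.1 := hζ.1
      rw [e2]
      have e4 : 8 * Real.pi ^ 2 * (N ^ 2 * s) * (ε * ((if σ.2 then (1 : ℝ) else -1) * ζ σ.1))
          = -(8 * Real.pi ^ 2 * (N * (n * q)) * ((if σ.2 then (1 : ℝ) else -1) * ζ σ.1)) := by
        rw [← hs2]
        linear_combination (8 * Real.pi ^ 2 * N ^ 2 * ((if σ.2 then (1 : ℝ) else -1) * ζ σ.1)) * hεs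
      rw [e4]
      have e5 : 8 * Real.pi ^ 2 * (N * (n * q)) * (1 / (4 * (n : ℝ))) ≤ 8 * Real.pi ^ 2 * (N * (n * q)) * ((if σ.2 then (1 : ℝ) else -1) * ζ σ.1) :=
        mul_le_mul_of_nonneg_left e3.le (by positivity)
      have e6 : 8 * Real.pi ^ 2 * (N * (n * q)) * (1 / (4 * (n : ℝ))) = 2 * (Real.pi ^ 2 * N * q) := by
        field_simp
        ring
      have e7 : 2 * Real.pi * -(2 * N) ≤ 2 * Real.pi * (inner ℝ (N • z) ((ε * (if σ.2 then (1 : ℝ) else -1)) • EuclideanSpace.single σ.1 (1 : ℝ)) : ℝ) :=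
        mul_le_mul_of_nonneg_left e1 (by positivity)
      linarith
    · rw [abs_mul, abs_of_pos (by positivity : 0 < N ^ 2), hs2]
      have e1 : 2 * Real.pi * ‖N • z‖ ≤ 2 * Real.pi * (2 * N) := mul_le_mul_of_nonneg_left hNz (by positivity)
      have e2 : 24 * Real.pi ^ 2 * (N * (n * q)) = 24 * n * (Real.pi ^ 2 * N * q) := by ring
      linarith
  -- summation
  have hint : ∀ σ, Integrable fun ζ => a σ ζ * egE 0 (N ^ 2 * s) (N • z) ζ := by
    intro σ
    have hcs : HasCompactSupport (a σ) := (hS σ).of_isClosed_subset (isClosed_tsupport _) (hsupp σ)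
    refine Continuous.integrable_of_hasCompactSupport ((ha σ).continuous.mul ?_) hcs.mul_right
    have e0 : egE 0 (N ^ 2 * s) (N • z) = fun ζ => Complex.exp (Complex.I *
        ((2 * Real.pi * inner ℝ (N • z) ζ - 4 * Real.pi ^ 2 * (N ^ 2 * s) * ‖ζ‖ ^ 2 : ℝ) : ℂ)) := funext fun ζ => eg_E_phase _ _ _
    rw [e0]
    fun_prop
  have hsplit : ∫ ζ, (egChi ζ : ℂ) * egE 0 (N ^ 2 * s) (N • z) ζ = ∑ σ, ∫ ζ, a σ ζ * egE 0 (N ^ 2 * s) (N • z) ζ := by
    rw [← integral_finsetSum _ fun σ _ => hint σ]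
    refine integral_congr_ae (Eventually.of_forall fun ζ => ?_)
    simp only [hsum ζ, Finset.sum_mul]
  rw [hsc, hsplit, norm_mul, Complex.norm_real, Real.norm_eq_abs, abs_of_pos (by positivity : 0 < N ^ n)]
  have h5 : ‖∑ σ, ∫ ζ, a σ ζ * egE 0 (N ^ 2 * s) (N • z) ζ‖ ≤ (∑ σ, C σ) * (N ^ M)⁻¹ := by
    rw [Finset.sum_mul]
    exact (norm_sum_le _ _).trans (Finset.sum_le_sum fun σ _ => hsec σ)
  calc N ^ n * ‖∑ σ, ∫ ζ, a σ ζ * egE 0 (N ^ 2 * s) (N • z) ζ‖ * N ^ M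
      ≤ N ^ n * ((∑ σ, C σ) * (N ^ M)⁻¹) * N ^ M := by gcongr
    _ = (∑ σ, C σ) * N ^ n := by
        field_simp

/-- **LEAF L-257-EG2-SPACE** (`e:second-descendant`, far pairs): the spatial term dominates.
PLAN.  `c₁ = 16 π`.  If `N|z| ≤ 1`: `eg_ker_le`.  Otherwise `e = z/|z|`, `Ω = ball 0 3`, `S = closedBall 0 2`: `∂_e φ = 2πN|z| - 8π²N² s ζ·e ≥ 2πN|z| - 24π²N²|s| ≥ πN|z|/2 =: m` (take `c₁ = 16π`), `|∂_e φ| ≤ 8 m`, `|D ∂_e φ| = 8π²N²|s| ≤ m`.
`pk_nsp (n + 2)`, `eg_ker_scale`, `1 + N|z| ≤ 2N|z|`. -/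
theorem eg_ker_space (hn : 1 ≤ n) : ∃ c₁ C : ℝ, 0 < c₁ ∧ 0 ≤ C ∧ ∀ (j : ℕ) (z : EgV n) (s : ℝ), c₁ * 2 ^ j * |s| ≤ ‖z‖ →
    ‖egKer j z s‖ ≤ C * ((2 : ℝ) ^ j) ^ n / (1 + 2 ^ j * ‖z‖) ^ (n + 2) := by
  have ha : ContDiff ℝ ∞ (fun ζ : EgV n => (egChi ζ : ℂ)) := Complex.ofRealCLM.contDiff.comp eg_chi_smooth
  have hsupp : tsupport (fun ζ : EgV n => (egChi ζ : ℂ)) ⊆ closedBall 0 2 := by
    refine closure_minimal (fun ζ hζ => ?_) isClosed_closedBall
    have h0 : egChi ζ ≠ 0 := fun h => hζ (by simp [h])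
    simpa using (eg_chi_supp ζ h0).2
  obtain ⟨C, hC0, hC⟩ := eg_nsp_core (n + 2) 7 (isOpen_ball (x := (0 : EgV n)) (ε := 3)) subset_rfl
    (isCompact_closedBall 0 2) (closedBall_subset_ball (by norm_num)) ha hsupp
  have hpi : 0 < Real.pi := Real.pi_pos
  have hpi2 : 2 ≤ Real.pi := Real.two_le_pi
  refine ⟨16 * Real.pi, ((volume (closedBall (0 : EgV n) 2)).toReal + C) * 2 ^ (n + 2), by positivity, by positivity,
    fun j z s h => ?_⟩
  generalize hV : (volume (closedBall (0 : EgV n) 2)).toReal = V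
  have hV0 : 0 ≤ V := hV ▸ ENNReal.toReal_nonneg
  have hle := eg_ker_le j z s
  have hsc := eg_ker_scale j z s
  rw [hV] at hle
  generalize hN : (2 : ℝ) ^ j = N at *
  have hN0 : 0 < N := hN ▸ (by positivity)
  rw [le_div_iff₀ (by positivity)]
  rcases le_total (N * ‖z‖) 1 with h1 | h1
  · have h2 : (1 + N * ‖z‖) ^ (n + 2) ≤ 2 ^ (n + 2) := pow_le_pow_left₀ (by positivity) (by linarith) _
    calc ‖egKer j z s‖ * (1 + N * ‖z‖) ^ (n + 2) ≤ (V * N ^ n) * 2 ^ (n + 2) :=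
          mul_le_mul hle h2 (by positivity) (by positivity)
      _ ≤ (V + C) * 2 ^ (n + 2) * N ^ n := by
          have : 0 ≤ C * 2 ^ (n + 2) * N ^ n := by positivity
          nlinarith
  · have hz : 0 < ‖z‖ := by
      by_contra hz
      have : ‖z‖ = 0 := le_antisymm (not_lt.1 hz) (norm_nonneg _)
      rw [this] at h1
      norm_num at h1
    have hm : 0 < Real.pi * N * ‖z‖ / 2 := by positivity
    have he : ‖‖z‖⁻¹ • z‖ ≤ 1 := by
      rw [norm_smul, norm_inv, norm_norm, inv_mul_cancel₀ hz.ne']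
    have key : 24 * Real.pi ^ 2 * (N ^ 2 * |s|) ≤ 3 / 2 * Real.pi * N * ‖z‖ := by
      have := mul_le_mul_of_nonneg_left h (by positivity : 0 ≤ 3 / 2 * Real.pi * N)
      nlinarith
    have hI := hC (N • z) (N ^ 2 * s) (‖z‖⁻¹ • z) (Real.pi * N * ‖z‖ / 2) he hm (fun ζ hζ => ?_) ?_
    · rw [hsc, norm_mul, Complex.norm_real, Real.norm_eq_abs, abs_of_pos (by positivity : 0 < N ^ n)]
      have h3 : (1 + N * ‖z‖) ^ (n + 2) ≤ (2 * (Real.pi * N * ‖z‖ / 2)) ^ (n + 2) := by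
        refine pow_le_pow_left₀ (by positivity) ?_ _
        have : 2 * (N * ‖z‖) ≤ Real.pi * (N * ‖z‖) := mul_le_mul_of_nonneg_right hpi2 (by positivity)
        linarith
      calc N ^ n * ‖∫ ζ, (egChi ζ : ℂ) * egE 0 (N ^ 2 * s) (N • z) ζ‖ * (1 + N * ‖z‖) ^ (n + 2)
          ≤ N ^ n * (C * ((Real.pi * N * ‖z‖ / 2) ^ (n + 2))⁻¹) * (2 * (Real.pi * N * ‖z‖ / 2)) ^ (n + 2) :=
            mul_le_mul (mul_le_mul_of_nonneg_left hI (by positivity)) h3 (by positivity) (by positivity)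
        _ = C * 2 ^ (n + 2) * N ^ n := by
            rw [mul_pow]
            field_simp
        _ ≤ (V + C) * 2 ^ (n + 2) * N ^ n := by
            have : 0 ≤ V * 2 ^ (n + 2) * N ^ n := by positivity
            nlinarith
    · have e1 : (inner ℝ (N • z) (‖z‖⁻¹ • z) : ℝ) = N * ‖z‖ := by
        rw [real_inner_smul_left, real_inner_smul_right, real_inner_self_eq_norm_sq]
        field_simp
      have h3 : ‖ζ‖ < 3 := by simpa using hζ
      have e2 : |(inner ℝ ζ (‖z‖⁻¹ • z) : ℝ)| ≤ 3 := by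
        refine (abs_real_inner_le_norm _ _).trans ?_
        calc ‖ζ‖ * ‖‖z‖⁻¹ • z‖ ≤ 3 * 1 := mul_le_mul h3.le he (norm_nonneg _) (by norm_num)
          _ = 3 := by norm_num
      have e3 : s * (inner ℝ ζ (‖z‖⁻¹ • z) : ℝ) ≤ |s| * 3 := by
        calc s * (inner ℝ ζ (‖z‖⁻¹ • z) : ℝ) ≤ |s * (inner ℝ ζ (‖z‖⁻¹ • z) : ℝ)| := le_abs_self _
          _ = |s| * |(inner ℝ ζ (‖z‖⁻¹ • z) : ℝ)| := abs_mul _ _
          _ ≤ |s| * 3 := mul_le_mul_of_nonneg_left e2 (abs_nonneg _)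
      rw [e1]
      have e4 : 8 * Real.pi ^ 2 * (N ^ 2 * s) * (inner ℝ ζ (‖z‖⁻¹ • z) : ℝ) ≤ 8 * Real.pi ^ 2 * N ^ 2 * (|s| * 3) := by
        have := mul_le_mul_of_nonneg_left e3 (by positivity : 0 ≤ 8 * Real.pi ^ 2 * N ^ 2)
        linarith
      linarith
    · rw [norm_smul, Real.norm_eq_abs, abs_of_pos hN0, abs_mul, abs_of_pos (by positivity : 0 < N ^ 2)]
      linarith

/-- **LEAF L-257-EG2-SCHUR.**  `z = u/N`; `integrable_one_add_norm` (exponent `n + 2 > n = finrank`), `Real.rpow_natCast`. -/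
theorem eg_schur (n : ℕ) : ∃ C : ℝ, 0 ≤ C ∧ ∀ j : ℕ, Integrable (fun z : EgV n => ((2 : ℝ) ^ j) ^ n / (1 + 2 ^ j * ‖z‖) ^ (n + 2)) ∧
    ∫ z : EgV n, ((2 : ℝ) ^ j) ^ n / (1 + 2 ^ j * ‖z‖) ^ (n + 2) ≤ C := by
  have hint : Integrable (fun u : EgV n => (1 + ‖u‖) ^ (-((n + 2 : ℕ) : ℝ))) := by
    refine integrable_one_add_norm ?_
    rw [finrank_euclideanSpace_fin]
    push_cast
    linarith
  refine ⟨∫ u : EgV n, (1 + ‖u‖) ^ (-((n + 2 : ℕ) : ℝ)), integral_nonneg fun u => by positivity, fun j => ?_⟩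
  have hN : (0 : ℝ) < (2 : ℝ) ^ j := by positivity
  have e : (fun z : EgV n => ((2 : ℝ) ^ j) ^ n / (1 + 2 ^ j * ‖z‖) ^ (n + 2))
      = fun z => ((2 : ℝ) ^ j) ^ n * (fun u : EgV n => (1 + ‖u‖) ^ (-((n + 2 : ℕ) : ℝ))) (((2 : ℝ) ^ j) • z) := by
    funext z
    simp only []
    rw [norm_smul, Real.norm_of_nonneg hN.le, Real.rpow_neg (by positivity), Real.rpow_natCast, div_eq_mul_inv]
  rw [e]
  constructor
  · exact (hint.comp_smul hN.ne').const_mul _
  · have h := Measure.integral_comp_smul (volume : Measure (EgV n))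
      (fun u : EgV n => (1 + ‖u‖) ^ (-((n + 2 : ℕ) : ℝ))) ((2 : ℝ) ^ j)
    rw [integral_const_mul, h, finrank_euclideanSpace_fin, abs_of_pos (by positivity), smul_eq_mul,
      ← mul_assoc, mul_inv_cancel₀ (by positivity), one_mul]

-- helpers of eg_ker_cont
theorem eg_chiJ_cont (j : ℕ) : Continuous (egChiJ j : EgV n → ℝ) := by
  unfold egChiJ
  exact (eg_chi_smooth (n := n)).continuous.comp (continuous_const_smul _)

theorem eg_chiJ_abs_le (j : ℕ) (η : EgV n) :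
    |egChiJ j η| ≤ (closedBall (0 : EgV n) (2 * 2 ^ j)).indicator (fun _ => (1 : ℝ)) η := by
  by_cases h : egChiJ j η = 0
  · rw [h, abs_zero]
    exact Set.indicator_nonneg (fun _ _ => zero_le_one) _
  · have h2 := (eg_chiJ_supp j η h).2
    have h0 : 0 ≤ egChiJ j η := eg_chi_nonneg _
    rw [Set.indicator_of_mem (by simpa using h2), abs_of_nonneg h0]
    exact eg_chi_le_one _

theorem eg_E_comp {X : Type*} [TopologicalSpace X] {a t : X → ℝ} {x η : X → EgV n} (ha : Continuous a) (ht : Continuous t)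
    (hx : Continuous x) (hη : Continuous η) : Continuous fun p => egE (a p) (t p) (x p) (η p) := by
  have h1 : Continuous fun p : X => ((a p, t p, x p, η p) : ℝ × ℝ × EgV n × EgV n) := ha.prodMk (ht.prodMk (hx.prodMk hη))
  have h2 := Continuous.comp (eg_E_cont (n := n)) h1
  exact h2

theorem eg_chiJ_integrable (j : ℕ) : Integrable (egChiJ j : EgV n → ℝ) := by
  refine Integrable.mono' (g := (closedBall (0 : EgV n) (2 * 2 ^ j)).indicator (fun _ => (1 : ℝ))) ?_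
    (eg_chiJ_cont j).aestronglyMeasurable (Filter.Eventually.of_forall fun η => ?_)
  · exact (integrable_indicator_iff measurableSet_closedBall).2
      (integrableOn_const (by exact (measure_closedBall_lt_top).ne))
  · rw [Real.norm_eq_abs]
    exact eg_chiJ_abs_le j η

/-- measurability of the kernel along the graphs (joint continuity of `egKer` by dominated convergence, `τ` measurable). -/
theorem eg_ker_cont (j : ℕ) : Continuous fun q : EgV n × ℝ => egKer j q.1 q.2 := by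
  unfold egKer
  refine continuous_of_dominated (bound := fun η => |egChiJ j η|) (fun q => ?_) (fun q => ?_) ?_ ?_
  · refine Continuous.aestronglyMeasurable ?_
    refine (Complex.continuous_ofReal.comp (eg_chiJ_cont j)).mul ?_
    exact eg_E_comp continuous_const continuous_const continuous_const continuous_id
  · refine Filter.Eventually.of_forall fun η => ?_
    rw [norm_mul, eg_E_norm_zero, mul_one, Complex.norm_real, Real.norm_eq_abs]
  · exact (eg_chiJ_integrable j).abs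
  · refine Filter.Eventually.of_forall fun η => ?_
    refine continuous_const.mul ?_
    exact eg_E_comp continuous_const continuous_snd continuous_fst continuous_const

-- helpers of eg_pair
theorem eg_dat_fin {x₀ : EgV n} {A : Set (EgV n)} {τ : EgV n → ℝ} {w : EgV n → ℂ} (h : EgDat x₀ A τ w) :
    IsFiniteMeasure (volume.restrict A) :=
  ⟨by
    rw [Measure.restrict_apply_univ]
    exact lt_of_le_of_lt (measure_mono h.sub) measure_ball_lt_top⟩

theorem eg_E_meas {τ : EgV n → ℝ} (hτ : Measurable τ) : Measurable fun q : EgV n × EgV n => egE 0 (τ q.2) q.2 q.1 := by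
  have h1 : Measurable fun q : EgV n × EgV n => (((0 : ℝ), τ q.2, q.2, q.1) : ℝ × ℝ × EgV n × EgV n) :=
    measurable_const.prodMk ((hτ.comp measurable_snd).prodMk (measurable_snd.prodMk measurable_fst))
  have h2 := (eg_E_cont (n := n)).measurable.comp h1
  exact h2

theorem eg_pair_G_integrable (j : ℕ) {x₀ : EgV n} {A B : Set (EgV n)} {τ : EgV n → ℝ} {w : EgV n → ℂ} (hA : EgDat x₀ A τ w)
    (hB : EgDat x₀ B τ w) :
    Integrable (Function.uncurry fun (η : EgV n) (p : EgV n × EgV n) =>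
      (egChiJ j η : ℂ) * ((egE 0 (τ p.1) p.1 η * w p.1) * conj (egE 0 (τ p.2) p.2 η * w p.2)))
      (volume.prod ((volume.restrict A).prod (volume.restrict B))) := by
  have : IsFiniteMeasure (volume.restrict A) := eg_dat_fin hA
  have : IsFiniteMeasure (volume.restrict B) := eg_dat_fin hB
  have hb : Integrable (fun q : EgV n × (EgV n × EgV n) => egChiJ j q.1 * (fun _ : EgV n × EgV n => (1 : ℝ)) q.2)
      (volume.prod ((volume.restrict A).prod (volume.restrict B))) :=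
    (eg_chiJ_integrable j).mul_prod (integrable_const (1 : ℝ))
  refine Integrable.mono' hb.abs ?_ (Filter.Eventually.of_forall fun q => ?_)
  · refine Measurable.aestronglyMeasurable ?_
    have i1 : Measurable fun q : EgV n × (EgV n × EgV n) => ((q.1, q.2.1) : EgV n × EgV n) :=
      measurable_fst.prodMk (measurable_fst.comp measurable_snd)
    have i2 : Measurable fun q : EgV n × (EgV n × EgV n) => ((q.1, q.2.2) : EgV n × EgV n) :=
      measurable_fst.prodMk (measurable_snd.comp measurable_snd)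
    have m1' := Measurable.comp (eg_E_meas hA.mτ) i1
    have m2' := Measurable.comp (eg_E_meas hA.mτ) i2
    have m1 : Measurable fun q : EgV n × (EgV n × EgV n) => egE 0 (τ q.2.1) q.2.1 q.1 := m1'
    have m2 : Measurable fun q : EgV n × (EgV n × EgV n) => egE 0 (τ q.2.2) q.2.2 q.1 := m2'
    have m3 : Measurable fun q : EgV n × (EgV n × EgV n) => w q.2.1 := hA.mw.comp (measurable_fst.comp measurable_snd)
    have m4 : Measurable fun q : EgV n × (EgV n × EgV n) => w q.2.2 := hA.mw.comp (measurable_snd.comp measurable_snd)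
    have m5 : Measurable fun q : EgV n × (EgV n × EgV n) => (egChiJ j q.1 : ℂ) :=
      Complex.measurable_ofReal.comp ((eg_chiJ_cont j).measurable.comp measurable_fst)
    exact m5.mul ((m1.mul m3).mul (Complex.continuous_conj.measurable.comp (m2.mul m4)))
  · show ‖(egChiJ j q.1 : ℂ) * ((egE 0 (τ q.2.1) q.2.1 q.1 * w q.2.1) * conj (egE 0 (τ q.2.2) q.2.2 q.1 * w q.2.2))‖
      ≤ |egChiJ j q.1 * 1|
    rw [norm_mul, norm_mul, norm_mul, RCLike.norm_conj, norm_mul, eg_E_norm_zero, eg_E_norm_zero, one_mul, one_mul,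
      Complex.norm_real, Real.norm_eq_abs, mul_one]
    have h1 := hA.w1 q.2.1
    have h2 := hA.w1 q.2.2
    have h3 : ‖w q.2.1‖ * ‖w q.2.2‖ ≤ 1 := by
      calc ‖w q.2.1‖ * ‖w q.2.2‖ ≤ 1 * 1 := mul_le_mul h1 h2 (norm_nonneg _) zero_le_one
        _ = 1 := one_mul 1
    exact mul_le_of_le_one_right (abs_nonneg _) h3

theorem eg_pair_prod (j : ℕ) {x₀ : EgV n} {A B : Set (EgV n)} {τ : EgV n → ℝ} {w : EgV n → ℂ} (hA : EgDat x₀ A τ w)
    (hB : EgDat x₀ B τ w) (η : EgV n) : (egChiJ j η : ℂ) * (egGam A τ w η * conj (egGam B τ w η))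
      = ∫ p, (egChiJ j η : ℂ) * ((egE 0 (τ p.1) p.1 η * w p.1) * conj (egE 0 (τ p.2) p.2 η * w p.2))
          ∂((volume.restrict A).prod (volume.restrict B)) := by
  have : IsFiniteMeasure (volume.restrict A) := eg_dat_fin hA
  have : IsFiniteMeasure (volume.restrict B) := eg_dat_fin hB
  rw [integral_const_mul]
  congr 1
  rw [integral_prod_mul (μ := volume.restrict A) (ν := volume.restrict B) (fun x => egE 0 (τ x) x η * w x)
    (fun y => conj (egE 0 (τ y) y η * w y)), integral_conj]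
  rfl

/-- **LEAF L-257-EG3.**  Fubini (three integrals over sets of finite measure / a compact support, bounded integrand), `eg_E_mul_conj`. -/
theorem eg_pair (j : ℕ) {x₀ : EgV n} {A B : Set (EgV n)} {τ : EgV n → ℝ} {w : EgV n → ℂ} (hA : EgDat x₀ A τ w) (hB : EgDat x₀ B τ w) :
    ∫ η, (egChiJ j η : ℂ) * (egGam A τ w η * conj (egGam B τ w η))
      = ∫ x in A, ∫ y in B, egKer j (x - y) (τ x - τ y) * (w x * conj (w y)) := by
  have : IsFiniteMeasure (volume.restrict A) := eg_dat_fin hA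
  have : IsFiniteMeasure (volume.restrict B) := eg_dat_fin hB
  have hG := eg_pair_G_integrable j hA hB
  -- step 1: the product of the two dual functions is an integral over the product
  simp only [eg_pair_prod j hA hB]
  -- step 2: Fubini
  rw [integral_integral_swap hG]
  -- step 3: the inner integral is the kernel
  have e3 : ∀ p : EgV n × EgV n, ∫ η, (egChiJ j η : ℂ) * ((egE 0 (τ p.1) p.1 η * w p.1) * conj (egE 0 (τ p.2) p.2 η * w p.2))
      = egKer j (p.1 - p.2) (τ p.1 - τ p.2) * (w p.1 * conj (w p.2)) := by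
    intro p
    unfold egKer
    rw [← integral_mul_const]
    refine integral_congr_ae (Filter.Eventually.of_forall fun η => ?_)
    simp only []
    rw [← eg_E_mul_conj, map_mul]
    ring
  simp only [e3]
  -- step 4: iterated integral
  have hH : Integrable (fun p : EgV n × EgV n => egKer j (p.1 - p.2) (τ p.1 - τ p.2) * (w p.1 * conj (w p.2)))
      ((volume.restrict A).prod (volume.restrict B)) := by
    have := hG.integral_prod_right
    simpa only [Function.uncurry, e3] using this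
  exact integral_prod _ hH

/-- integrability for `eg_orth`. -/
theorem eg_pair_integrable (j : ℕ) {x₀ : EgV n} {A B : Set (EgV n)} {τ : EgV n → ℝ} {w : EgV n → ℂ} (hA : EgDat x₀ A τ w)
    (hB : EgDat x₀ B τ w) : Integrable fun η => (egChiJ j η : ℂ) * (egGam A τ w η * conj (egGam B τ w η)) := by
  have : IsFiniteMeasure (volume.restrict A) := eg_dat_fin hA
  have : IsFiniteMeasure (volume.restrict B) := eg_dat_fin hB
  refine (eg_pair_G_integrable j hA hB).integral_prod_left.congr (Filter.Eventually.of_forall fun η => ?_)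
  exact (eg_pair_prod j hA hB η).symm

/-- **LEAF L-257-EG3.**  consequence of `eg_pair`: a pointwise bound `κ (x - y)` of the kernel on `A × B` bounds the pairing. -/
theorem eg_pair_le (j : ℕ) {x₀ : EgV n} {A B : Set (EgV n)} {τ : EgV n → ℝ} {w : EgV n → ℂ} (hA : EgDat x₀ A τ w) (hB : EgDat x₀ B τ w)
    (κ : EgV n → ℝ) (hκ : Measurable κ) (hκ0 : ∀ z, 0 ≤ κ z) (h : ∀ x ∈ A, ∀ y ∈ B, ‖egKer j (x - y) (τ x - τ y)‖ ≤ κ (x - y)) :
    ENNReal.ofReal ‖∫ η, (egChiJ j η : ℂ) * (egGam A τ w η * conj (egGam B τ w η))‖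
      ≤ ∫⁻ x in A, ∫⁻ y in B, ENNReal.ofReal (κ (x - y)) := by
  rw [eg_pair j hA hB, ofReal_norm]
  refine (enorm_integral_le_lintegral_enorm _).trans ?_
  refine setLIntegral_mono' hA.mA fun x hx => ?_
  refine (enorm_integral_le_lintegral_enorm _).trans ?_
  refine setLIntegral_mono' hB.mA fun y hy => ?_
  rw [← ofReal_norm]
  refine ENNReal.ofReal_le_ofReal ?_
  rw [norm_mul, norm_mul, RCLike.norm_conj]
  have h1 := hA.w1 x
  have h2 := hA.w1 y
  have h3 : ‖w x‖ * ‖w y‖ ≤ 1 := by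
    calc ‖w x‖ * ‖w y‖ ≤ 1 * 1 := mul_le_mul h1 h2 (norm_nonneg _) zero_le_one
      _ = 1 := one_mul 1
  exact (mul_le_of_le_one_right (norm_nonneg _) h3).trans (h x hx y hy)

end Claimed.Agent.R257
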