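import Claimed.Agent.R257.End.Core
import Claimed.Prelude.Def_0425

/-!
# ROW 257 (S0497), ENDGAME, unit EG10b: FROM `EgShort` TO THE STATEMENT          (architect helper194)          CONTRACT
`eg_main` has literally the conclusion of `Claims.C0425.ClaimedFrozen.S0497`; it needs `∃ p > 2, ∃ C, EgShort n p C`.
-/

set_option autoImplicit false

namespace Claimed.Agent.R257

open MeasureTheory Filter Topology Metric Set Claims.C0425
open scoped ENNReal FourierTransform

variable {n : ℕ}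

theorem eg_gs_eq (f : Lp ℂ 2 (volume : Measure (EgV n))) (a : ℝ) (x : EgV n) (t : ℝ) :
    gaussianSchrodinger f a x t = egU (fun η => (𝓕 f : Lp ℂ 2 (volume : Measure (EgV n))) η) a t x := rfl

/-- the `L²` pairing with a fixed `L²` function is continuous -/
theorem eg_pars_cont (g : EgV n → ℂ) (hg : MemLp g 2 volume) :
    Continuous fun h : Lp ℂ 2 (volume : Measure (EgV n)) => ∫ y, g y * h y := by
  have hs : MemLp (star g) 2 volume := hg.star
  have : (fun h : Lp ℂ 2 (volume : Measure (EgV n)) => ∫ y, g y * h y) = fun h => inner ℂ (hs.toLp (star g)) h := by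
    funext h
    rw [L2.inner_def]
    refine integral_congr_ae ?_
    filter_upwards [hs.coeFn_toLp] with y hy
    rw [hy]
    simp [mul_comm]
  rw [this]
  exact continuous_const.inner continuous_id

/-- an integrable bounded function is square integrable -/
theorem eg_pars_memLp (g : EgV n → ℂ) (hg : Integrable g) (C : ℝ) (hC : ∀ y, ‖g y‖ ≤ C) : MemLp g 2 volume := by
  rw [memLp_two_iff_integrable_sq_norm hg.1]
  refine Integrable.mono' (hg.norm.const_mul C) (hg.1.norm.pow 2) (Eventually.of_forall fun y => ?_)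
  rw [Real.norm_of_nonneg (by positivity), sq]
  exact mul_le_mul_of_nonneg_right (hC y) (norm_nonneg _)

/-- the multiplication formula -/
theorem eg_pars_mult (φ ψ : EgV n → ℂ) (hφ : Integrable φ) (hψ : Integrable ψ) : ∫ ξ, 𝓕 φ ξ * ψ ξ = ∫ η, φ η * 𝓕 ψ η := by
  simpa using! VectorFourier.integral_fourierIntegral_smul_eq_flip (L := innerₗ (EgV n))
    Real.continuous_fourierChar continuous_inner hφ hψ

/-- the character as a Gaussian -/
theorem eg_pars_E (a : ℝ) (x η : EgV n) :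
    egE a 0 x η = Complex.exp (-((4 * Real.pi ^ 2 * a : ℝ) : ℂ) * ‖η‖ ^ 2 + 2 * Real.pi * Complex.I * (inner ℝ x η : ℝ)) := by
  unfold egE
  congr 1
  push_cast
  ring

theorem eg_pars_E_integrable (a : ℝ) (ha : 0 < a) (x : EgV n) : Integrable fun η => egE a 0 x η := by
  have hb : 0 < (((4 * Real.pi ^ 2 * a : ℝ) : ℂ)).re := by
    rw [Complex.ofReal_re]
    positivity
  have := GaussianFourier.integrable_cexp_neg_mul_sq_norm_add hb (2 * Real.pi * Complex.I) x
  refine this.congr (Eventually.of_forall fun η => ?_)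
  simp only
  rw [eg_pars_E]

/-- the Fourier transform of the character is the heat kernel -/
theorem eg_pars_fourier (a : ℝ) (ha : 0 < a) (x y : EgV n) : 𝓕 (fun η => egE a 0 x η) y = (egHeat a (x - y) : ℂ) := by
  have hb : 0 < (((4 * Real.pi ^ 2 * a : ℝ) : ℂ)).re := by
    rw [Complex.ofReal_re]
    positivity
  have h := fourier_gaussian_innerProductSpace' hb x y
  have e : (fun η => egE a 0 x η) = fun v : EgV n =>
      Complex.exp (-((4 * Real.pi ^ 2 * a : ℝ) : ℂ) * ‖v‖ ^ 2 + 2 * Real.pi * Complex.I * (inner ℝ x v : ℝ)) := by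
    funext η
    exact eg_pars_E a x η
  rw [e, h, finrank_euclideanSpace_fin]
  unfold egHeat
  have hpi : (0 : ℝ) < Real.pi := Real.pi_pos
  have e1 : (Real.pi : ℂ) / ((4 * Real.pi ^ 2 * a : ℝ) : ℂ) = (((4 * Real.pi * a)⁻¹ : ℝ) : ℂ) := by
    rw [← Complex.ofReal_div]
    congr 1
    field_simp
  have e2 : ((n : ℂ) / 2) = (((n : ℝ) / 2 : ℝ) : ℂ) := by push_cast; ring
  have e3 : -(Real.pi : ℂ) ^ 2 * (‖x - y‖ : ℂ) ^ 2 / ((4 * Real.pi ^ 2 * a : ℝ) : ℂ) = ((-‖x - y‖ ^ 2 / (4 * a) : ℝ) : ℂ) := by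
    push_cast
    field_simp
  rw [e1, e2, e3, ← Complex.ofReal_cpow (by positivity), ← Complex.ofReal_exp, ← Complex.ofReal_mul]
  congr 2
  rw [Real.inv_rpow (by positivity), ← Real.rpow_neg (by positivity)]
  congr 1
  ring

/-- **LEAF L-257-EG10-PARS.**  Parseval with the Gaussian: `∫ e^{2πi x·η - 4π² a|η|²} (𝓕 f)(η) dη = ∫ K_a(x - y) f(y) dy` for `f ∈ L²`.
PLAN.  Both sides are continuous in `f ∈ L²` (Cauchy-Schwarz; `Lp.norm_fourier_eq` / `MeasureTheory.Lp.norm_fourier_eq`), Schwartz functions are dense (`SchwartzMap.denseRange_toLpCLM`), `SchwartzMap.toLp_fourier_eq`.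
For a Schwartz `f`: the multiplication formula `VectorFourier.integral_fourierIntegral_smul_eq_flip` (`Real.integral_fourier_mul_eq`-type lemma: `∫ 𝓕 f · φ = ∫ f · 𝓕 φ` for integrable `f`, `φ`) with `φ(η) = egE a 0 x η`, whose Fourier transform is `y ↦ egHeat a (x - y)` (`eg_heat_fourier` + Fourier inversion, or directly `fourier_gaussian_innerProductSpace'`). -/
theorem eg_parseval (f : Lp ℂ 2 (volume : Measure (EgV n))) (a : ℝ) (ha : 0 < a) (x : EgV n) :
    egU (fun η => (𝓕 f : Lp ℂ 2 (volume : Measure (EgV n))) η) a 0 x = ∫ y, (egHeat a (x - y) : ℂ) * f y := by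
  unfold egU
  have hφi := eg_pars_E_integrable a ha x
  have hφ2 : MemLp (fun η => egE a 0 x η) 2 volume := by
    refine eg_pars_memLp _ hφi 1 fun η => ?_
    rw [eg_E_norm]
    apply Real.exp_le_one_iff.mpr
    have : 0 ≤ 4 * Real.pi ^ 2 * (a * ‖η‖ ^ 2) := by positivity
    linarith
  have hHi : Integrable fun y : EgV n => ((egHeat a (x - y) : ℝ) : ℂ) := ((eg_heat_integral a ha).1.comp_sub_left x).ofReal
  have hH2 : MemLp (fun y : EgV n => ((egHeat a (x - y) : ℝ) : ℂ)) 2 volume := by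
    refine eg_pars_memLp _ hHi ((4 * Real.pi * a) ^ (-(n : ℝ) / 2)) fun y => ?_
    rw [Complex.norm_real, Real.norm_of_nonneg (eg_heat_nonneg a ha _)]
    unfold egHeat
    have h1 : Real.exp (-‖x - y‖ ^ 2 / (4 * a)) ≤ 1 := by
      apply Real.exp_le_one_iff.mpr
      have : 0 ≤ ‖x - y‖ ^ 2 / (4 * a) := by positivity
      rw [neg_div]
      linarith
    have h2 : 0 ≤ (4 * Real.pi * a) ^ (-(n : ℝ) / 2) := by positivity
    nlinarith
  refine DenseRange.induction_on (p := fun f : Lp ℂ 2 (volume : Measure (EgV n)) =>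
      ∫ η, egE a 0 x η * (𝓕 f : Lp ℂ 2 (volume : Measure (EgV n))) η = ∫ y, (egHeat a (x - y) : ℂ) * f y)
    (SchwartzMap.denseRange_toLpCLM (E := EgV n) (F := ℂ) (μ := volume) (p := 2) ENNReal.ofNat_ne_top) f ?_ ?_
  · refine isClosed_eq ?_ (eg_pars_cont _ hH2)
    exact (eg_pars_cont _ hφ2).comp (FourierTransform.fourierCLM ℂ (Lp ℂ 2 (volume : Measure (EgV n)))).continuous
  · intro ψ
    rw [SchwartzMap.toLpCLM_apply, SchwartzMap.toLp_fourier_eq]
    have h1 : ∫ η, egE a 0 x η * ((𝓕 ψ).toLp 2 : Lp ℂ 2 (volume : Measure (EgV n))) η = ∫ η, egE a 0 x η * 𝓕 (ψ : EgV n → ℂ) η := by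
      refine integral_congr_ae ?_
      filter_upwards [(𝓕 ψ).coeFn_toLp 2 volume] with η hη
      rw [hη, SchwartzMap.fourier_coe]
    have h2 : ∫ y, (egHeat a (x - y) : ℂ) * (ψ.toLp 2 : Lp ℂ 2 (volume : Measure (EgV n))) y = ∫ y, (egHeat a (x - y) : ℂ) * ψ y := by
      refine integral_congr_ae ?_
      filter_upwards [ψ.coeFn_toLp 2 volume] with y hy
      rw [hy]
    rw [h1, h2, ← eg_pars_mult _ _ hφi ψ.integrable]
    refine integral_congr_ae (Eventually.of_forall fun y => ?_)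
    simp only
    rw [eg_pars_fourier a ha x y]

/-- **LEAF L-257-EG10-MAIN.**  Glue.
PLAN.  `g = ⇑(𝓕 f)` is measurable (`Lp.stronglyMeasurable`), `EgSob g` is `hf` (`egW`, `Real.rpow` is `^`).  `eg_core` gives `v` with uniform convergence on `Ico 0 1`; restrict to `Ioo 0 1` (`TendstoUniformlyOn.mono`).
At `t = 0`: `egU g a 0 x → v 0` (`TendstoUniformlyOn.tendsto_at`), and `egU g a 0 x = ∫ egHeat a (x - y) f y → f x` a.e. (`eg_parseval`, `eg_heat_L2_ae`, `Lp.memLp`); uniqueness of limits (`𝓝[>] 0` is `NeBot`). -/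
theorem eg_main (hn : 1 ≤ n) {p C : ℝ} (hp : 2 < p) (hC : 0 ≤ C) (hS : EgShort n p C)
    (f : Lp ℂ 2 (volume : Measure (EuclideanSpace ℝ (Fin n))))
    (hf : Integrable (fun η : EuclideanSpace ℝ (Fin n) =>
      Real.rpow (1 + 4 * Real.pi ^ 2 * ‖η‖ ^ 2) ((n : ℝ) / (2 * ((n : ℝ) + 1))) *
        ‖(𝓕 f : Lp ℂ 2 (volume : Measure (EuclideanSpace ℝ (Fin n)))) η‖ ^ 2)) :
    ∀ᵐ x : EuclideanSpace ℝ (Fin n), ∃ v : ℝ → ℂ, v 0 = f x ∧ ContinuousOn v (Set.Ico 0 1) ∧
      TendstoUniformlyOn (fun a t => gaussianSchrodinger f a x t) v (𝓝[>] (0 : ℝ)) (Set.Ioo 0 1) := by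
  have hg : EgSob (fun η : EgV n => (𝓕 f : Lp ℂ 2 (volume : Measure (EgV n))) η) :=
    ⟨(Lp.stronglyMeasurable _).measurable, hf⟩
  filter_upwards [eg_core hn hp hC hS hg, eg_heat_L2_ae (fun y => f y) (Lp.memLp f)] with x hx1 hx
  obtain ⟨v, hv, hu⟩ := hx1
  refine ⟨v, ?_, hv, ?_⟩
  · have h0 : Tendsto (fun a => egU (fun η : EgV n => (𝓕 f : Lp ℂ 2 (volume : Measure (EgV n))) η) a 0 x)
        (𝓝[>] 0) (𝓝 (v 0)) := hu.tendsto_at (by simp : (0 : ℝ) ∈ Set.Ico (0 : ℝ) 1)
    have h1 : Tendsto (fun a => egU (fun η : EgV n => (𝓕 f : Lp ℂ 2 (volume : Measure (EgV n))) η) a 0 x)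
        (𝓝[>] 0) (𝓝 (f x)) := by
      refine hx.congr' ?_
      filter_upwards [self_mem_nhdsWithin] with a ha
      exact (eg_parseval f a ha x).symm
    exact tendsto_nhds_unique h0 h1
  · simp only [eg_gs_eq]
    exact hu.mono Set.Ioo_subset_Ico_self

end Claimed.Agent.R257
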