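import Claimed.Agent.R257.End.Dual

/-!
# ROW 257 (S0497), ENDGAME, unit EG8: THE LOCAL `L¹` MAXIMAL ESTIMATE          (architect helper194)          CONTRACT
Paper: H `endpoint.tex` l.329 `e:maximal` = P `thm:maximal`.  Data on the frequency side: `h` measurable, bounded support, square integrable.
-/

set_option autoImplicit false

namespace Claimed.Agent.R257

open MeasureTheory Filter Topology Metric Set
open scoped ENNReal ComplexConjugate

variable {n : ℕ}

/-- frequency data with bounded support -/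
structure EgData (h : EgV n → ℂ) : Prop where
  meas : Measurable h
  supp : ∃ R : ℝ, ∀ η, R < ‖η‖ → h η = 0
  sq : Integrable fun η => ‖h η‖ ^ 2

/-- the `H^s` norm on the frequency side -/
noncomputable def egNorm (h : EgV n → ℂ) : ℝ := Real.sqrt (∫ η, egW η * ‖h η‖ ^ 2)

/-- **LEAF L-257-EG8-DATA.**  Cauchy-Schwarz on the bounded support (`‖h‖ ≤ (1 + ‖h‖²)/2` on a ball, `0` outside). -/
theorem eg_data_integrable {h : EgV n → ℂ} (hh : EgData h) : Integrable h := by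
  obtain ⟨R, hR⟩ := hh.supp
  have hi : Integrable (fun η : EgV n => ((closedBall (0 : EgV n) R).indicator (fun _ => (1 : ℝ)) η + ‖h η‖ ^ 2) / 2) := by
    refine (Integrable.add ?_ hh.sq).div_const 2
    exact (integrable_indicator_iff measurableSet_closedBall).2
      (integrableOn_const (measure_closedBall_lt_top).ne)
  refine hi.mono' hh.meas.aestronglyMeasurable (Eventually.of_forall fun η => ?_)
  by_cases hη : ‖η‖ ≤ R
  · rw [indicator_of_mem (mem_closedBall_zero_iff.2 hη)]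
    nlinarith [sq_nonneg (‖h η‖ - 1)]
  · rw [hR η (not_le.1 hη), indicator_of_notMem (fun hm => hη (mem_closedBall_zero_iff.1 hm))]
    simp

theorem eg_W_cont : Continuous (egW : EgV n → ℝ) := by
  unfold egW
  refine Continuous.rpow_const (by fun_prop) fun η => Or.inl ?_
  positivity

/-- **LEAF L-257-EG8-DATA.**  `egW` is continuous, hence bounded on the support. -/
theorem eg_data_W_integrable {h : EgV n → ℂ} (hh : EgData h) : Integrable fun η => egW η * ‖h η‖ ^ 2 := by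
  obtain ⟨R, hR⟩ := hh.supp
  have hs : 0 ≤ egs n := by
    unfold egs
    positivity
  refine (hh.sq.const_mul ((1 + 4 * Real.pi ^ 2 * R ^ 2) ^ (egs n))).mono'
    (eg_W_cont.aestronglyMeasurable.mul (hh.meas.norm.pow_const 2).aestronglyMeasurable)
    (Eventually.of_forall fun η => ?_)
  have hW0 : 0 ≤ egW η := by
    unfold egW
    positivity
  rw [Real.norm_of_nonneg (mul_nonneg hW0 (by positivity))]
  by_cases hη : ‖η‖ ≤ R
  · refine mul_le_mul_of_nonneg_right ?_ (by positivity)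
    unfold egW
    refine Real.rpow_le_rpow (by positivity) ?_ hs
    have : ‖η‖ ^ 2 ≤ R ^ 2 := pow_le_pow_left₀ (norm_nonneg _) hη 2
    have h4 : 0 ≤ 4 * Real.pi ^ 2 := by positivity
    nlinarith
  · rw [hR η (not_le.1 hη)]
    simp

/-- **LEAF L-257-EG8-DATA.**  `continuous_of_dominated`, `eg_E_cont`, `eg_E_norm_zero`. -/
theorem eg_S_cont {h : EgV n → ℂ} (hh : Integrable h) : Continuous fun q : ℝ × EgV n => egS h q.1 q.2 := by
  unfold egS
  refine continuous_of_dominated (F := fun (q : ℝ × EgV n) η => egE 0 q.1 q.2 η * h η) (bound := fun η => ‖h η‖)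
    (fun q => ?_) (fun q => Eventually.of_forall fun η => ?_) hh.norm (Eventually.of_forall fun η => ?_)
  · have hc : Continuous fun η : EgV n => egE 0 q.1 q.2 η := by
      unfold egE
      fun_prop
    exact hc.aestronglyMeasurable.mul hh.aestronglyMeasurable
  · rw [norm_mul, eg_E_norm_zero, one_mul]
  · have hc : Continuous fun q : ℝ × EgV n => egE 0 q.1 q.2 η := by
      unfold egE
      fun_prop
    exact hc.mul continuous_const

theorem eg_S_norm_le {h : EgV n → ℂ} (t : ℝ) (x : EgV n) : ‖egS h t x‖ ≤ ∫ η, ‖h η‖ := by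
  unfold egS
  refine (norm_integral_le_integral_norm _).trans (le_of_eq ?_)
  refine integral_congr_ae (Eventually.of_forall fun η => ?_)
  simp only [norm_mul, eg_E_norm_zero, one_mul]

theorem eg_argmax {X : Type*} [MeasurableSpace X] (f : ℝ → X → ℝ) (hf : ∀ t, Measurable (f t)) (T : Finset ℝ) (hT : T.Nonempty) :
    ∃ τ : X → ℝ, Measurable τ ∧ (∀ x, τ x ∈ T) ∧ ∀ x, T.sup' hT (fun t => f t x) = f (τ x) x := by
  induction hT using Finset.Nonempty.cons_induction with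
  | singleton a => exact ⟨fun _ => a, measurable_const, by simp, by simp⟩
  | cons a s ha hs ih =>
    obtain ⟨τ', hm, hmem, hsup⟩ := ih
    have hms : Measurable fun x => s.sup' hs (fun t => f t x) := by
      have := Finset.measurable_sup' hs (f := f) (fun t _ => hf t)
      convert this using 1
      funext x
      rw [Finset.sup'_apply]
    have hS : MeasurableSet {x | s.sup' hs (fun t => f t x) < f a x} := measurableSet_lt hms (hf a)
    classical
    refine ⟨fun x => if s.sup' hs (fun t => f t x) < f a x then a else τ' x, Measurable.ite hS measurable_const hm, fun x => ?_, fun x => ?_⟩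
    · by_cases hx : s.sup' hs (fun t => f t x) < f a x
      · simp [hx]
      · simp [hx, hmem x]
    · rw [Finset.sup'_cons hs]
      by_cases hx : s.sup' hs (fun t => f t x) < f a x
      · simp only [hx, if_true]
        exact sup_eq_left.2 hx.le
      · simp only [hx, if_false]
        rw [← hsup x]
        exact sup_eq_right.2 (not_lt.1 hx)

/-- **LEAF L-257-EG8-LIN.**  Measurable first maximiser on a finite list of times and the conjugate phase.
PLAN.  Induction on `T` (`Finset.Nonempty.cons_induction`): `τ x = if (sup over T') < ‖egS h t x‖ then t else τ' x`; all the sets are measurable because `x ↦ egS h t x` is continuous (`eg_S_cont`); the range of `τ` is contained in `T`.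
`w x = conj u / ‖u‖` with `u = egS h (τ x) x` (`0` if `u = 0`); `x ↦ egS h (τ x) x` is measurable: finite sum over `t ∈ T` of indicators of `τ ⁻¹' {t}` times continuous functions. -/
theorem eg_linearise {h : EgV n → ℂ} (hh : Integrable h) (x₀ : EgV n) (T : Finset ℝ) (hT : T.Nonempty) :
    ∃ (τ : EgV n → ℝ) (w : EgV n → ℂ), EgDat x₀ (ball x₀ 1) τ w ∧ (∀ x, τ x ∈ T) ∧
      ∀ x, ((T.sup' hT fun t => ‖egS h t x‖ : ℝ) : ℂ) = w x * egS h (τ x) x := by
  have hc := eg_S_cont hh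
  have hf : ∀ t : ℝ, Measurable fun x : EgV n => ‖egS h t x‖ := fun t =>
    (hc.comp (f := fun x : EgV n => (t, x)) (continuous_const.prodMk continuous_id)).norm.measurable
  obtain ⟨τ, hτ, hmem, hsup⟩ := eg_argmax (fun t (x : EgV n) => ‖egS h t x‖) hf T hT
  have hu : Measurable fun x : EgV n => egS h (τ x) x :=
    hc.measurable.comp (f := fun x : EgV n => (τ x, x)) (hτ.prodMk measurable_id)
  have hw : Measurable fun x : EgV n => conj (egS h (τ x) x) / (‖egS h (τ x) x‖ : ℂ) :=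
    (Complex.continuous_conj.measurable.comp hu).div (Complex.measurable_ofReal.comp hu.norm)
  have hw1 : ∀ x : EgV n, ‖conj (egS h (τ x) x) / (‖egS h (τ x) x‖ : ℂ)‖ ≤ 1 := fun x => by
    rw [norm_div, Complex.norm_conj, Complex.norm_real, norm_norm]
    exact div_self_le_one _
  have hd : EgDat x₀ (ball x₀ 1) τ (fun x : EgV n => conj (egS h (τ x) x) / (‖egS h (τ x) x‖ : ℂ)) :=
    ⟨isOpen_ball.measurableSet, subset_rfl, hτ, T.finite_toSet.subset (range_subset_iff.2 hmem), hw, hw1⟩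
  refine ⟨τ, fun x => conj (egS h (τ x) x) / (‖egS h (τ x) x‖ : ℂ), hd, hmem, fun x => ?_⟩
  rw [hsup x]
  show ((‖egS h (τ x) x‖ : ℝ) : ℂ) = _
  by_cases h0 : egS h (τ x) x = 0
  · simp [h0]
  · have h1 : ((‖egS h (τ x) x‖ : ℝ) : ℂ) ≠ 0 := by
      exact_mod_cast (norm_pos_iff.2 h0).ne'
    rw [div_mul_eq_mul_div, Complex.conj_mul', eq_div_iff h1]
    ring

/-- **LEAF L-257-EG8-FUB.**  Fubini (`integral_integral_swap`; the integrand is bounded by `‖h η‖` on `A × EgV n`, `A` of finite measure; joint measurability from `eg_E_cont`, `h.mτ`, `h.mw`). -/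
theorem eg_dual_pair {h : EgV n → ℂ} (hh : Integrable h) {x₀ : EgV n} {A : Set (EgV n)} {τ : EgV n → ℝ} {w : EgV n → ℂ}
    (hd : EgDat x₀ A τ w) : ∫ x in A, w x * egS h (τ x) x = ∫ η, h η * egGam A τ w η := by
  have : IsFiniteMeasure (volume.restrict A) :=
    ⟨by rw [Measure.restrict_apply_univ]; exact (measure_mono hd.sub).trans_lt measure_ball_lt_top⟩
  have hE : Measurable fun p : EgV n × EgV n => egE 0 (τ p.1) p.1 p.2 := by
    have h1 : Measurable fun q : ℝ × ℝ × EgV n × EgV n => egE q.1 q.2.1 q.2.2.1 q.2.2.2 := eg_E_cont.measurable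
    have h2 : Measurable fun p : EgV n × EgV n => ((0 : ℝ), τ p.1, p.1, p.2) :=
      measurable_const.prodMk ((hd.mτ.comp measurable_fst).prodMk (measurable_fst.prodMk measurable_snd))
    have h3 := Measurable.comp h1 h2
    simp only [Function.comp_def] at h3
    exact h3
  have hint : Integrable (Function.uncurry fun (x η : EgV n) => w x * (egE 0 (τ x) x η * h η))
      ((volume.restrict A).prod volume) := by
    refine (hh.norm.comp_snd (volume.restrict A)).mono' ?_ (Eventually.of_forall fun p => ?_)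
    · exact ((hd.mw.comp measurable_fst).aestronglyMeasurable).mul
        (hE.aestronglyMeasurable.mul hh.aestronglyMeasurable.comp_snd)
    · simp only [Function.uncurry, norm_mul, eg_E_norm_zero, one_mul]
      exact mul_le_of_le_one_left (norm_nonneg _) (hd.w1 _)
  unfold egS egGam
  simp only [← integral_const_mul]
  rw [integral_integral_swap hint]
  refine integral_congr_ae (Eventually.of_forall fun η => ?_)
  refine integral_congr_ae (Eventually.of_forall fun x => ?_)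
  simp only []
  ring

/-- Cauchy-Schwarz for integrals -/
theorem eg_cauchy_schwarz {α : Type*} [MeasurableSpace α] (μ : Measure α) (f g : α → ℂ) (hf : AEStronglyMeasurable f μ)
    (hg : AEStronglyMeasurable g μ) (hf2 : Integrable (fun y => ‖f y‖ ^ 2) μ) (hg2 : Integrable (fun y => ‖g y‖ ^ 2) μ) :
    Integrable (fun y => f y * g y) μ ∧
      ‖∫ y, f y * g y ∂μ‖ ≤ Real.sqrt (∫ y, ‖f y‖ ^ 2 ∂μ) * Real.sqrt (∫ y, ‖g y‖ ^ 2 ∂μ) := by
  have hfL : MemLp f 2 μ := (memLp_two_iff_integrable_sq_norm hf).2 hf2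
  have hgL : MemLp g 2 μ := (memLp_two_iff_integrable_sq_norm hg).2 hg2
  have hint : Integrable (fun y => f y * g y) μ := hfL.integrable_mul hgL
  refine ⟨hint, ?_⟩
  have h1 : ‖∫ y, f y * g y ∂μ‖ ≤ ∫ y, ‖f y‖ * ‖g y‖ ∂μ := by
    refine (norm_integral_le_integral_norm _).trans (le_of_eq ?_)
    simp only [norm_mul]
  have h2 := integral_mul_le_Lp_mul_Lq_of_nonneg (μ := μ) (p := 2) (q := 2) Real.HolderConjugate.two_two
    (f := fun y => ‖f y‖) (g := fun y => ‖g y‖) (Filter.Eventually.of_forall fun _ => norm_nonneg _)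
    (Filter.Eventually.of_forall fun _ => norm_nonneg _)
    (by simpa using hfL.norm) (by simpa using hgL.norm)
  refine h1.trans (h2.trans (le_of_eq ?_))
  simp only [Real.rpow_two, Real.sqrt_eq_rpow]

/-- Cauchy-Schwarz with a nonnegative weight -/
theorem eg_cs_weight {α : Type*} [MeasurableSpace α] (μ : Measure α) (χ : α → ℝ) (hχm : Measurable χ) (hχ0 : ∀ y, 0 ≤ χ y)
    (f g : α → ℂ) (hf : AEStronglyMeasurable f μ) (hg : AEStronglyMeasurable g μ)
    (hf2 : Integrable (fun y => χ y * ‖f y‖ ^ 2) μ) (hg2 : Integrable (fun y => χ y * ‖g y‖ ^ 2) μ) :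
    Integrable (fun y => (χ y : ℂ) * (f y * g y)) μ ∧
      ‖∫ y, (χ y : ℂ) * (f y * g y) ∂μ‖ ≤ Real.sqrt (∫ y, χ y * ‖f y‖ ^ 2 ∂μ) * Real.sqrt (∫ y, χ y * ‖g y‖ ^ 2 ∂μ) := by
  have hsm : AEStronglyMeasurable (fun y => ((Real.sqrt (χ y) : ℝ) : ℂ)) μ :=
    (Complex.measurable_ofReal.comp hχm.sqrt).aestronglyMeasurable
  have e1 : ∀ (u : α → ℂ) y, ‖((Real.sqrt (χ y) : ℝ) : ℂ) * u y‖ ^ 2 = χ y * ‖u y‖ ^ 2 := by
    intro u y
    rw [norm_mul, Complex.norm_real, Real.norm_eq_abs, abs_of_nonneg (Real.sqrt_nonneg _), mul_pow, Real.sq_sqrt (hχ0 y)]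
  have e2 : ∀ y, (((Real.sqrt (χ y) : ℝ) : ℂ) * f y) * (((Real.sqrt (χ y) : ℝ) : ℂ) * g y) = (χ y : ℂ) * (f y * g y) := by
    intro y
    have : ((Real.sqrt (χ y) : ℝ) : ℂ) * ((Real.sqrt (χ y) : ℝ) : ℂ) = (χ y : ℂ) := by
      rw [← Complex.ofReal_mul, Real.mul_self_sqrt (hχ0 y)]
    calc _ = (((Real.sqrt (χ y) : ℝ) : ℂ) * ((Real.sqrt (χ y) : ℝ) : ℂ)) * (f y * g y) := by ring
      _ = _ := by rw [this]
  have := eg_cauchy_schwarz μ (fun y => ((Real.sqrt (χ y) : ℝ) : ℂ) * f y) (fun y => ((Real.sqrt (χ y) : ℝ) : ℂ) * g y)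
    (hsm.mul hf) (hsm.mul hg) (by simpa only [e1] using hf2) (by simpa only [e1] using hg2)
  simpa only [e1, e2] using this

/-- the Sobolev weight dominates `2^{2js}` on the support of `χ_j` -/
theorem eg_W_ge_chiJ (hn : 1 ≤ n) (j : ℕ) (η : EgV n) :
    ((2 : ℝ) ^ j) ^ (2 * egs n) * egChiJ j η ≤ egW η * egChiJ j η := by
  by_cases h : egChiJ j η = 0
  · rw [h]; simp
  · have hs := (eg_chiJ_supp j η h).1
    refine mul_le_mul_of_nonneg_right ?_ (eg_chi_nonneg _)
    unfold egW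
    have hN : (0 : ℝ) < 2 ^ j := by positivity
    rw [Real.rpow_mul hN.le, Real.rpow_two]
    refine Real.rpow_le_rpow (by positivity) ?_ (eg_s_pos hn).le
    have hpi : (1 : ℝ) ≤ Real.pi ^ 2 := by nlinarith [Real.pi_gt_three]
    have h1 : ((2 : ℝ) ^ j) ^ 2 ≤ 4 * ‖η‖ ^ 2 := by nlinarith
    nlinarith [sq_nonneg ‖η‖]

theorem eg_W_ge_one (hn : 1 ≤ n) (η : EgV n) : 1 ≤ egW η := by
  unfold egW
  refine Real.one_le_rpow ?_ (eg_s_pos hn).le
  have : 0 ≤ 4 * Real.pi ^ 2 * ‖η‖ ^ 2 := by positivity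
  linarith

/-- **LEAF L-257-EG8-LP.**  Littlewood-Paley + Cauchy-Schwarz in the frequency index.
PLAN.  `1 = φ(η) + ∑_{j<J} egChiJ (j+1) η` on the support of `h` (`eg_chi_tele`; `φ(η/2^J) = 1` for `‖η‖ ≤ 2^J`).   Low part: `|∫ h φ Γ| ≤ |A| ∫_{‖η‖≤2} ‖h‖ ≤ |ball| |closedBall 0 2|^{1/2} (∫ ‖h‖²)^{1/2}`, `egW ≥ 1`.
`|∫ h χ_j Γ| ≤ (∫ χ_j ‖h‖²)^{1/2} (∫ χ_j ‖Γ‖²)^{1/2}` (Cauchy-Schwarz with the weight `χ_j ≥ 0`), `∫ χ_j ‖Γ‖² = 2^{2js} egD j`; `2^{2js} ≤ egW η` on the support of `χ_j` (`2^j ≤ 2‖η‖ ≤ 2π‖η‖`);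
`∑_j 2^{2js} ∫ χ_j ‖h‖² ≤ ∫ egW ‖h‖²` (`eg_chi_sum_le`); `Finset.sum_mul_le_sqrt_mul_sqrt` / `Finset.inner_mul_le_norm_mul_norm`. -/
theorem eg_lp_bound (hn : 1 ≤ n) : ∃ C₀ : ℝ, 0 ≤ C₀ ∧ ∀ (h : EgV n → ℂ), EgData h → ∀ (x₀ : EgV n) (A : Set (EgV n)) (τ : EgV n → ℝ)
    (w : EgV n → ℂ), EgDat x₀ A τ w → ∀ J : ℕ, (∀ η, (2 : ℝ) ^ J < ‖η‖ → h η = 0) →
    ‖∫ η, h η * egGam A τ w η‖ ≤ (C₀ + Real.sqrt (∑ j ∈ Finset.range (J + 1), egD j A τ w)) * egNorm h := by
  set V : ℝ := (volume (ball (0 : EgV n) 1)).toReal with hV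
  set W : ℝ := (volume (closedBall (0 : EgV n) 2)).toReal with hW
  have hV0 : 0 ≤ V := ENNReal.toReal_nonneg
  refine ⟨Real.sqrt (V ^ 2 * W), Real.sqrt_nonneg _, ?_⟩
  intro h hh x₀ A τ w hd J hJ
  set Γ := egGam A τ w with hΓ
  have hΓc : Continuous Γ := eg_Gam_cont hd
  have hΓb : ∀ η, ‖Γ η‖ ≤ V := fun η => (eg_Gam_norm_le hd η).trans (eg_dat_vol_le hd)
  have hhm : AEStronglyMeasurable h volume := hh.meas.aestronglyMeasurable
  have hWi := eg_data_W_integrable hh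
  set E2 : ℝ := ∫ η, egW η * ‖h η‖ ^ 2 with hE2
  have hE : egNorm h = Real.sqrt E2 := rfl
  have hW0 : ∀ η : EgV n, 0 ≤ egW η := fun η => zero_le_one.trans (eg_W_ge_one hn η)
  -- weights bounded by one
  have hwt : ∀ χ : EgV n → ℝ, Continuous χ → (∀ η, 0 ≤ χ η) → (∀ η, χ η ≤ 1) →
      Integrable (fun η => χ η * ‖h η‖ ^ 2) := by
    intro χ hc h0 h1
    refine hh.sq.mono' (hc.aestronglyMeasurable.mul (hhm.norm.pow 2)) (Eventually.of_forall fun η => ?_)
    rw [Real.norm_eq_abs, abs_of_nonneg (mul_nonneg (h0 η) (by positivity))]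
    exact mul_le_of_le_one_left (by positivity) (h1 η)
  have hwtW : ∀ χ : EgV n → ℝ, Continuous χ → (∀ η, 0 ≤ χ η) → (∀ η, χ η ≤ 1) →
      Integrable (fun η => χ η * (egW η * ‖h η‖ ^ 2)) := by
    intro χ hc h0 h1
    refine hWi.mono' (hc.aestronglyMeasurable.mul hWi.aestronglyMeasurable) (Eventually.of_forall fun η => ?_)
    have : 0 ≤ egW η * ‖h η‖ ^ 2 := mul_nonneg (hW0 η) (by positivity)
    rw [Real.norm_eq_abs, abs_of_nonneg (mul_nonneg (h0 η) this)]
    exact mul_le_of_le_one_left this (h1 η)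
  -- the low part
  set φ : EgV n → ℝ := fun η => egBump n η with hφ
  have hφc : Continuous φ := (egBump n).continuous
  have hφ0 : ∀ η, 0 ≤ φ η := fun η => (egBump n).nonneg
  have hφ1 : ∀ η, φ η ≤ 1 := fun η => (egBump n).le_one
  have hφΓ : Integrable (fun η => φ η * ‖Γ η‖ ^ 2) :=
    (hφc.mul (hΓc.norm.pow 2)).integrable_of_hasCompactSupport (HasCompactSupport.mul_right (egBump n).hasCompactSupport)
  have hlowΓ : ∫ η, φ η * ‖Γ η‖ ^ 2 ≤ V ^ 2 * W := by
    have hind : Integrable (fun η : EgV n => (closedBall (0 : EgV n) 2).indicator (fun _ => V ^ 2) η) :=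
      (integrable_indicator_iff measurableSet_closedBall).2
        (integrableOn_const (isCompact_closedBall _ _).measure_lt_top.ne (by simp))
    calc ∫ η, φ η * ‖Γ η‖ ^ 2 ≤ ∫ η : EgV n, (closedBall (0 : EgV n) 2).indicator (fun _ => V ^ 2) η := by
          refine integral_mono hφΓ hind fun η => ?_
          by_cases hη : η ∈ closedBall (0 : EgV n) 2
          · simp only [Set.indicator_of_mem hη]
            have h1 : ‖Γ η‖ ^ 2 ≤ V ^ 2 := pow_le_pow_left₀ (norm_nonneg _) (hΓb η) 2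
            exact (mul_le_of_le_one_left (by positivity) (hφ1 η)).trans h1
          · simp only [Set.indicator_of_notMem hη]
            have : φ η = 0 := (egBump n).zero_of_le_dist (by
              rw [mem_closedBall, not_le] at hη
              exact hη.le)
            rw [this, zero_mul]
      _ = V ^ 2 * W := by
          rw [integral_indicator_const _ measurableSet_closedBall, smul_eq_mul, mul_comm]
          rfl
  have hlowh : ∫ η, φ η * ‖h η‖ ^ 2 ≤ E2 := by
    refine integral_mono (hwt φ hφc hφ0 hφ1) hWi fun η => ?_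
    exact mul_le_mul_of_nonneg_right ((hφ1 η).trans (eg_W_ge_one hn η)) (by positivity)
  have hlow := eg_cs_weight volume φ hφc.measurable hφ0 h Γ hhm hΓc.aestronglyMeasurable (hwt φ hφc hφ0 hφ1) hφΓ
  have hlow2 : ‖∫ η, (φ η : ℂ) * (h η * Γ η)‖ ≤ Real.sqrt E2 * Real.sqrt (V ^ 2 * W) :=
    hlow.2.trans (mul_le_mul (Real.sqrt_le_sqrt hlowh) (Real.sqrt_le_sqrt hlowΓ) (Real.sqrt_nonneg _) (Real.sqrt_nonneg _))
  -- the high parts
  have hc0 : ∀ j (η : EgV n), 0 ≤ egChiJ j η := fun j η => eg_chi_nonneg _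
  have hc1 : ∀ j (η : EgV n), egChiJ j η ≤ 1 := fun j η => eg_chi_le_one _
  have hhigh := fun j : ℕ => eg_cs_weight volume (egChiJ j) (eg_chiJ_cont j).measurable (hc0 j) h Γ hhm
    hΓc.aestronglyMeasurable (hwt _ (eg_chiJ_cont j) (hc0 j) (hc1 j)) (eg_D_integrable hd j)
  set a : ℕ → ℝ := fun j => ((2 : ℝ) ^ j) ^ (2 * egs n) * ∫ η, egChiJ j η * ‖h η‖ ^ 2 with ha
  have ha0 : ∀ j, 0 ≤ a j := fun j =>
    mul_nonneg (Real.rpow_nonneg (by positivity) _) (integral_nonneg fun η => mul_nonneg (hc0 j η) (by positivity))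
  have hhigh2 : ∀ j, ‖∫ η, (egChiJ j η : ℂ) * (h η * Γ η)‖ ≤ Real.sqrt (a j) * Real.sqrt (egD j A τ w) := by
    intro j
    refine (hhigh j).2.trans (le_of_eq ?_)
    have hX : 0 ≤ ∫ η, egChiJ j η * ‖h η‖ ^ 2 := integral_nonneg fun η => mul_nonneg (hc0 j η) (by positivity)
    rw [← Real.sqrt_mul hX, ← Real.sqrt_mul (ha0 j)]
    congr 1
    simp only [ha, egD]
    have hN : (0 : ℝ) < 2 ^ j := by positivity
    have : ((2 : ℝ) ^ j) ^ (2 * egs n) * ((2 : ℝ) ^ j) ^ (-(2 * egs n)) = 1 := by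
      rw [← Real.rpow_add hN]; simp
    calc _ = (((2 : ℝ) ^ j) ^ (2 * egs n) * ((2 : ℝ) ^ j) ^ (-(2 * egs n))) *
          ((∫ η, egChiJ j η * ‖h η‖ ^ 2) * ∫ η, egChiJ j η * ‖Γ η‖ ^ 2) := by rw [this, one_mul]
      _ = _ := by ring
  have hasum : ∑ j ∈ Finset.range J, a (j + 1) ≤ E2 := by
    have h1 : ∀ j, a j ≤ ∫ η, egChiJ j η * (egW η * ‖h η‖ ^ 2) := by
      intro j
      simp only [ha]
      rw [← integral_const_mul]
      refine integral_mono ((hwt _ (eg_chiJ_cont j) (hc0 j) (hc1 j)).const_mul _)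
        (hwtW _ (eg_chiJ_cont j) (hc0 j) (hc1 j)) fun η => ?_
      have := mul_le_mul_of_nonneg_right (eg_W_ge_chiJ hn j η) (by positivity : (0 : ℝ) ≤ ‖h η‖ ^ 2)
      simp only
      nlinarith
    calc ∑ j ∈ Finset.range J, a (j + 1) ≤ ∑ j ∈ Finset.range J, ∫ η, egChiJ (j + 1) η * (egW η * ‖h η‖ ^ 2) :=
          Finset.sum_le_sum fun j _ => h1 (j + 1)
      _ = ∫ η, ∑ j ∈ Finset.range J, egChiJ (j + 1) η * (egW η * ‖h η‖ ^ 2) :=
          (integral_finsetSum _ fun j _ => hwtW _ (eg_chiJ_cont (j + 1)) (hc0 _) (hc1 _)).symm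
      _ ≤ E2 := by
          refine integral_mono (integrable_finsetSum _ fun j _ => hwtW _ (eg_chiJ_cont (j + 1)) (hc0 _) (hc1 _)) hWi fun η => ?_
          simp only
          rw [← Finset.sum_mul]
          exact mul_le_of_le_one_left (mul_nonneg (hW0 η) (by positivity)) (eg_chi_sum_le J η)
  -- the decomposition
  have hdec : ∀ η, h η * Γ η = (φ η : ℂ) * (h η * Γ η) + ∑ j ∈ Finset.range J, (egChiJ (j + 1) η : ℂ) * (h η * Γ η) := by
    intro η
    by_cases hη : (2 : ℝ) ^ J < ‖η‖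
    · rw [hJ η hη]; simp
    · have h1 : egBump n (((2 : ℝ) ^ J)⁻¹ • η) = 1 := by
        refine (egBump n).one_of_mem_closedBall ?_
        rw [mem_closedBall, dist_zero_right, norm_smul, norm_inv, Real.norm_eq_abs, abs_of_pos (by positivity)]
        show ((2 : ℝ) ^ J)⁻¹ * ‖η‖ ≤ 1
        rw [inv_mul_le_iff₀ (by positivity), mul_one]
        exact not_lt.1 hη
      have h2 := eg_chi_tele J η
      rw [h1] at h2
      rw [← Finset.sum_mul, ← add_mul]
      have h3 : (φ η : ℂ) + ∑ j ∈ Finset.range J, (egChiJ (j + 1) η : ℂ) = 1 := by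
        rw [← Complex.ofReal_sum, ← Complex.ofReal_add, h2, Complex.ofReal_one]
      rw [h3, one_mul]
  have hint : ∫ η, h η * Γ η = (∫ η, (φ η : ℂ) * (h η * Γ η)) + ∑ j ∈ Finset.range J, ∫ η, (egChiJ (j + 1) η : ℂ) * (h η * Γ η) := by
    rw [← integral_finsetSum _ fun j _ => (hhigh (j + 1)).1, ← integral_add hlow.1 (integrable_finsetSum _ fun j _ => (hhigh (j + 1)).1)]
    exact integral_congr_ae (Eventually.of_forall hdec)
  have hDsum : ∑ j ∈ Finset.range J, egD (j + 1) A τ w ≤ ∑ j ∈ Finset.range (J + 1), egD j A τ w := by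
    rw [Finset.sum_range_succ']
    linarith [eg_D_nonneg 0 A τ w]
  calc ‖∫ η, h η * Γ η‖ ≤ ‖∫ η, (φ η : ℂ) * (h η * Γ η)‖ + ∑ j ∈ Finset.range J, ‖∫ η, (egChiJ (j + 1) η : ℂ) * (h η * Γ η)‖ := by
        rw [hint]
        exact (norm_add_le _ _).trans (by gcongr; exact norm_sum_le _ _)
    _ ≤ Real.sqrt E2 * Real.sqrt (V ^ 2 * W) + ∑ j ∈ Finset.range J, Real.sqrt (a (j + 1)) * Real.sqrt (egD (j + 1) A τ w) :=
        add_le_add hlow2 (Finset.sum_le_sum fun j _ => hhigh2 (j + 1))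
    _ ≤ Real.sqrt E2 * Real.sqrt (V ^ 2 * W) + Real.sqrt (∑ j ∈ Finset.range J, a (j + 1)) * Real.sqrt (∑ j ∈ Finset.range J, egD (j + 1) A τ w) := by
        gcongr
        exact Real.sum_sqrt_mul_sqrt_le _ (fun j => ha0 (j + 1)) (fun j => eg_D_nonneg _ _ _ _)
    _ ≤ Real.sqrt E2 * Real.sqrt (V ^ 2 * W) + Real.sqrt E2 * Real.sqrt (∑ j ∈ Finset.range (J + 1), egD j A τ w) := by
        gcongr
    _ = (Real.sqrt (V ^ 2 * W) + Real.sqrt (∑ j ∈ Finset.range (J + 1), egD j A τ w)) * egNorm h := by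
        rw [hE]; ring

/-- **LEAF L-257-EG8-FIN.**  Finite lists of times: `eg_linearise`, `eg_dual_pair`, `eg_lp_bound`, `eg_dual_square`. -/
theorem eg_maximal_fin (hn : 1 ≤ n) {p C : ℝ} (hp : 2 < p) (hC : 0 ≤ C) (hS : EgShort n p C) : ∃ C' : ℝ, 0 ≤ C' ∧
    ∀ (h : EgV n → ℂ), EgData h → ∀ (x₀ : EgV n) (T : Finset ℝ) (hT : T.Nonempty), (∀ t ∈ T, t ∈ Set.Ico (0 : ℝ) 1) →
    ∫ x in ball x₀ 1, (T.sup' hT fun t => ‖egS h t x‖) ≤ C' * egNorm h := by
  obtain ⟨C₀, hC₀, hlp⟩ := eg_lp_bound (n := n) hn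
  obtain ⟨C₂, hC₂, hsq⟩ := eg_dual_square hn hp hC hS
  refine ⟨C₀ + Real.sqrt C₂, by positivity, fun h hh x₀ T hT hTI => ?_⟩
  have hi := eg_data_integrable hh
  obtain ⟨τ, w, hd, hτT, hlin⟩ := eg_linearise hi x₀ T hT
  obtain ⟨r, hr⟩ := hh.supp
  obtain ⟨J, hJ⟩ := pow_unbounded_of_one_lt r (one_lt_two : (1 : ℝ) < 2)
  have h1 := hlp h hh x₀ (ball x₀ 1) τ w hd J fun η hη => hr η (hJ.trans hη)
  have h2 := hsq x₀ (ball x₀ 1) τ w hd (fun x _ => hTI _ (hτT x)) (J + 1)
  have hN : 0 ≤ egNorm h := Real.sqrt_nonneg _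
  have h3 : ((∫ x in ball x₀ 1, (T.sup' hT fun t => ‖egS h t x‖) : ℝ) : ℂ) = ∫ η, h η * egGam (ball x₀ 1) τ w η := by
    rw [← eg_dual_pair hi hd, ← integral_complex_ofReal]
    exact integral_congr_ae (Eventually.of_forall fun x => hlin x)
  calc ∫ x in ball x₀ 1, (T.sup' hT fun t => ‖egS h t x‖)
      ≤ ‖((∫ x in ball x₀ 1, (T.sup' hT fun t => ‖egS h t x‖) : ℝ) : ℂ)‖ := by
        rw [Complex.norm_real]
        exact le_abs_self _
    _ ≤ (C₀ + Real.sqrt (∑ j ∈ Finset.range (J + 1), egD j (ball x₀ 1) τ w)) * egNorm h := by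
        rw [h3]
        exact h1
    _ ≤ (C₀ + Real.sqrt C₂) * egNorm h := by
        refine mul_le_mul_of_nonneg_right ?_ hN
        exact add_le_add le_rfl (Real.sqrt_le_sqrt h2)

/-- **LEAF L-257-EG8-CNT.**  Countable sets of times: enumerate `T`, monotone convergence (`lintegral_iSup` for the increasing finite suprema), `ofReal_integral_eq_lintegral_ofReal`; the empty set is trivial. -/
theorem eg_maximal (hn : 1 ≤ n) {p C : ℝ} (hp : 2 < p) (hC : 0 ≤ C) (hS : EgShort n p C) : ∃ C' : ℝ, 0 ≤ C' ∧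
    ∀ (h : EgV n → ℂ), EgData h → ∀ (x₀ : EgV n) (T : Set ℝ), T.Countable → T ⊆ Set.Ico (0 : ℝ) 1 →
    ∫⁻ x in ball x₀ 1, ⨆ t ∈ T, ‖egS h t x‖ₑ ≤ ENNReal.ofReal (C' * egNorm h) := by
  obtain ⟨C', hC', hfin⟩ := eg_maximal_fin hn hp hC hS
  refine ⟨C', hC', fun h hh x₀ T hTc hTI => ?_⟩
  have hi := eg_data_integrable hh
  have hc := eg_S_cont hi
  have hct : ∀ t : ℝ, Continuous fun x : EgV n => egS h t x := by
    intro t
    have h3 := hc.comp (continuous_const.prodMk continuous_id : Continuous fun x : EgV n => (t, x))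
    simp only [Function.comp_def] at h3
    exact h3
  rcases T.eq_empty_or_nonempty with rfl | hne
  · simp
  obtain ⟨f, hf⟩ := hTc.exists_eq_range hne
  have hfT : ∀ k, f k ∈ T := fun k => hf ▸ Set.mem_range_self k
  set G : ℕ → EgV n → ℝ≥0∞ := fun N x => ⨆ k ∈ {k : ℕ | k ≤ N}, ‖egS h (f k) x‖ₑ with hG
  have hGm : ∀ N, Measurable (G N) := fun N =>
    Measurable.biSup _ (Set.to_countable _) fun k _ => (hct (f k)).enorm.measurable
  have hGmono : Monotone G := by
    intro N N' hNN x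
    exact biSup_mono fun k (hk : k ≤ N) => hk.trans hNN
  have hle : ∀ x, ⨆ t ∈ T, ‖egS h t x‖ₑ ≤ ⨆ N, G N x := by
    intro x
    refine iSup₂_le fun t ht => ?_
    rw [hf] at ht
    obtain ⟨k, rfl⟩ := ht
    refine le_trans ?_ (le_iSup (fun N => G N x) k)
    exact le_iSup₂ (f := fun k' (_ : k' ∈ {k' : ℕ | k' ≤ k}) => ‖egS h (f k') x‖ₑ) k (le_refl k)
  refine (lintegral_mono hle).trans ?_
  rw [lintegral_iSup hGm hGmono]
  refine iSup_le fun N => ?_
  set TN : Finset ℝ := (Finset.range (N + 1)).image f with hTN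
  have hTNne : TN.Nonempty := ⟨f 0, Finset.mem_image.2 ⟨0, Finset.mem_range.2 (Nat.succ_pos N), rfl⟩⟩
  have hTNI : ∀ t ∈ TN, t ∈ Set.Ico (0 : ℝ) 1 := by
    intro t ht
    obtain ⟨k, -, rfl⟩ := Finset.mem_image.1 ht
    exact hTI (hfT k)
  have hb := hfin h hh x₀ TN hTNne hTNI
  have hcont : Continuous fun x => TN.sup' hTNne fun t => ‖egS h t x‖ :=
    Continuous.finset_sup'_apply hTNne fun t _ => (hct t).norm
  have hnn : ∀ x, 0 ≤ TN.sup' hTNne fun t => ‖egS h t x‖ := fun x =>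
    (norm_nonneg _).trans (Finset.le_sup' (fun t => ‖egS h t x‖) hTNne.choose_spec)
  have hint : IntegrableOn (fun x => TN.sup' hTNne fun t => ‖egS h t x‖) (ball x₀ 1) := by
    refine Measure.integrableOn_of_bounded (M := ∫ η, ‖h η‖) measure_ball_lt_top.ne hcont.aestronglyMeasurable
      (Eventually.of_forall fun x => ?_)
    rw [Real.norm_of_nonneg (hnn x)]
    exact Finset.sup'_le _ _ fun t _ => eg_S_norm_le t x
  calc ∫⁻ x in ball x₀ 1, G N x
      ≤ ∫⁻ x in ball x₀ 1, ENNReal.ofReal (TN.sup' hTNne fun t => ‖egS h t x‖) := by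
        refine lintegral_mono fun x => iSup₂_le fun k (hk : k ≤ N) => ?_
        rw [← ofReal_norm]
        refine ENNReal.ofReal_le_ofReal ?_
        exact Finset.le_sup' (fun t => ‖egS h t x‖)
          (Finset.mem_image.2 ⟨k, Finset.mem_range.2 (Nat.lt_succ_of_le hk), rfl⟩)
    _ = ENNReal.ofReal (∫ x in ball x₀ 1, TN.sup' hTNne fun t => ‖egS h t x‖) :=
        (ofReal_integral_eq_lintegral_ofReal hint (Eventually.of_forall hnn)).symm
    _ ≤ _ := ENNReal.ofReal_le_ofReal hb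

end Claimed.Agent.R257
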