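import Claimed.Agent.R257.End.Kernel
import Claimed.Agent.R257.End.Orth

/-!
# ROW 257 (S0497), ENDGAME, unit EG4: SEPARATION IN TIME          (architect helper194)          PROVED
Paper: H `endpoint.tex` l.205-222 `(e:initial-time-separation)` = P `lem:endpoint-time-separation`.
-/

set_option autoImplicit false

namespace Claimed.Agent.R257

open MeasureTheory Filter Topology Metric Set
open scoped ENNReal ComplexConjugate

variable {n : ℕ}

/-- finite decomposition of the dual function into its time pieces -/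
theorem eg_Gam_sum_pc {x₀ : EgV n} {A : Set (EgV n)} {τ : EgV n → ℝ} {w : EgV n → ℂ} (h : EgDat x₀ A τ w)
    (hτ : ∀ x ∈ A, τ x ∈ Set.Ico (0 : ℝ) 1) (a : ℕ) (η : EgV n) :
    egGam A τ w η = ∑ k ∈ Finset.range (2 ^ a), egGam (egPc A τ a k) τ w η := by
  obtain ⟨hc, hd⟩ := eg_pc_cover A τ hτ a
  unfold egGam
  conv_lhs => rw [hc]
  rw [integral_biUnion_finset]
  · intro k _
    exact (eg_dat_pc h a k).mA
  · intro k _ k' _ hkk
    exact hd k k' hkk
  · intro k _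
    exact eg_Gam_integrable (eg_dat_pc h a k) η

/-- the volumes of the time pieces add up -/
theorem eg_vol_sum_pc {x₀ : EgV n} {A : Set (EgV n)} {τ : EgV n → ℝ} {w : EgV n → ℂ} (h : EgDat x₀ A τ w)
    (hτ : ∀ x ∈ A, τ x ∈ Set.Ico (0 : ℝ) 1) (a : ℕ) :
    (volume A).toReal = ∑ k ∈ Finset.range (2 ^ a), (volume (egPc A τ a k)).toReal := by
  obtain ⟨hc, hd⟩ := eg_pc_cover A τ hτ a
  conv_lhs => rw [hc]
  rw [measure_biUnion_finset (fun k _ k' _ hkk => hd k k' hkk) (fun k _ => (eg_dat_pc h a k).mA)]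
  rw [ENNReal.toReal_sum]
  intro k _
  exact ((measure_mono (eg_dat_pc h a k).sub).trans_lt measure_ball_lt_top).ne

theorem eg_dat_vol_ne_top {x₀ : EgV n} {A : Set (EgV n)} {τ : EgV n → ℝ} {w : EgV n → ℂ} (h : EgDat x₀ A τ w) :
    volume A ≠ ∞ := ((measure_mono h.sub).trans_lt measure_ball_lt_top).ne

theorem eg_dat_vol_le {x₀ : EgV n} {A : Set (EgV n)} {τ : EgV n → ℝ} {w : EgV n → ℂ} (h : EgDat x₀ A τ w) :
    (volume A).toReal ≤ (volume (ball (0 : EgV n) 1)).toReal := by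
  rw [← Measure.addHaar_ball_center volume x₀ 1]
  exact ENNReal.toReal_mono measure_ball_lt_top.ne (measure_mono h.sub)

/-- **LEAF L-257-EG4.**  `d_j(A) ≤ C ∑_{I ∈ D_j} d_j(A ∩ {τ ∈ I}) + C 4^{-j}`.
PLAN.  `N = 2^j`, `A_k = egPc A τ j k`, `k < N` (`eg_pc_cover`); `egGam A = ∑_k egGam A_k` (induction with `eg_Gam_union`, or `integral_finset_biUnion`).  `c₀` from `eg_ker_time`, `near k k' :⇔ |k - k'| ≤ ⌈c₀⌉₊ + 1`: at most `m = 2⌈c₀⌉₊ + 3` near indices.
`eg_orth` with `χ = egChiJ j`, `G k = egGam A_k`, `F = range N` (`eg_pair_integrable`).   Far pairs: `x ∈ A_k`, `y ∈ A_k'` have `|τ x - τ y| ≥ (|k - k'| - 1)/N ≥ c₀/N`, `|x - y| ≤ 2`; `eg_ker_time` with `M = n + 2`: `|egKer| ≤ C N^{-2}`;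
`eg_pair_le` with the constant `κ`: `|pairing| ≤ C N^{-2} |A_k| |A_k'|`; `∑_{k,k'} |A_k||A_k'| = |A|² ≤ |ball|²` : no factor counting pairs.   `N^{-2s} ≤ 1`. -/
theorem eg_time_sep (hn : 1 ≤ n) : ∃ C : ℝ, 0 ≤ C ∧ ∀ (j : ℕ) (x₀ : EgV n) (A : Set (EgV n)) (τ : EgV n → ℝ) (w : EgV n → ℂ),
    EgDat x₀ A τ w → (∀ x ∈ A, τ x ∈ Set.Ico (0 : ℝ) 1) →
    egD j A τ w ≤ C * ∑ k ∈ Finset.range (2 ^ j), egD j (egPc A τ j k) τ w + C * (1 / 4 : ℝ) ^ j := by
  obtain ⟨c₀, hc₀, hker⟩ := eg_ker_time hn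
  obtain ⟨C₁, hC₁, hK⟩ := hker (n + 2)
  set q : ℕ := ⌈c₀⌉₊ + 1 with hq
  have hqc : c₀ ≤ (q : ℝ) := by
    rw [hq]; push_cast
    linarith [Nat.le_ceil c₀]
  set V : ℝ := (volume (ball (0 : EgV n) 1)).toReal with hV
  have hV0 : 0 ≤ V := ENNReal.toReal_nonneg
  refine ⟨((2 * q + 1 : ℕ) : ℝ) + C₁ * V ^ 2, by positivity, ?_⟩
  intro j x₀ A τ w hd hτ
  set N : ℝ := (2 : ℝ) ^ j with hN
  have hN1 : 1 ≤ N := one_le_pow₀ (by norm_num)
  have hN0 : 0 < N := by positivity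
  have hquart : (1 / 4 : ℝ) ^ j = 1 / N ^ 2 := by
    rw [hN, ← pow_mul, mul_comm, pow_mul, one_div_pow]; norm_num
  set P : ℕ → Set (EgV n) := fun k => egPc A τ j k with hP
  have hdP : ∀ k, EgDat x₀ (P k) τ w := fun k => eg_dat_pc hd j k
  set v : ℕ → ℝ := fun k => (volume (P k)).toReal with hv
  have hv0 : ∀ k, 0 ≤ v k := fun k => ENNReal.toReal_nonneg
  let near : ℕ → ℕ → Prop := fun k k' => k ≤ k' + q ∧ k' ≤ k + q
  have : DecidableRel near := fun k k' => inferInstanceAs (Decidable (_ ∧ _))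
  have hcard : ∀ k ∈ Finset.range (2 ^ j), ((Finset.range (2 ^ j)).filter (near k)).card ≤ 2 * q + 1 := by
    intro k _
    have hsub : (Finset.range (2 ^ j)).filter (near k) ⊆ Finset.Icc (k - q) (k + q) := by
      intro k' hk'
      have h2 : near k k' := (Finset.mem_filter.1 hk').2
      have h3 : k ≤ k' + q := h2.1
      have h4 : k' ≤ k + q := h2.2
      rw [Finset.mem_Icc]
      omega
    refine (Finset.card_le_card hsub).trans ?_
    rw [Nat.card_Icc]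
    omega
  have horth := eg_orth (volume : Measure (EgV n)) (Finset.range (2 ^ j)) (fun k => egGam (P k) τ w) (egChiJ j)
     (fun η => eg_chi_nonneg _) (fun k _ k' _ => eg_pair_integrable j (hdP k) (hdP k')) near
     (fun k k' h => ⟨h.2, h.1⟩) (2 * q + 1) hcard
  -- far pairs
  have hfar : ∀ k k', ¬ near k k' →
      ‖∫ η, (egChiJ j η : ℂ) * (egGam (P k) τ w η * conj (egGam (P k') τ w η))‖ ≤ C₁ * (1 / 4 : ℝ) ^ j * (v k * v k') := by
    intro k k' hkk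
    have hkey : ∀ x ∈ P k, ∀ y ∈ P k', ‖egKer j (x - y) (τ x - τ y)‖ ≤ C₁ * (1 / 4 : ℝ) ^ j := by
      intro x hx y hy
      have hx1 : x ∈ ball x₀ 1 := (hdP k).sub hx
      have hy1 : y ∈ ball x₀ 1 := (hdP k').sub hy
      have hz : ‖x - y‖ ≤ 2 := by
        rw [← dist_eq_norm]
        have := dist_triangle_right x y x₀
        rw [mem_ball] at hx1 hy1
        linarith
      have hxτ : τ x ∈ Set.Ico ((k : ℝ) / 2 ^ j) (((k : ℝ) + 1) / 2 ^ j) := hx.2
      have hyτ : τ y ∈ Set.Ico ((k' : ℝ) / 2 ^ j) (((k' : ℝ) + 1) / 2 ^ j) := hy.2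
      have hs : c₀ / 2 ^ j ≤ |τ x - τ y| := by
        have hcase : k' + q + 1 ≤ k ∨ k + q + 1 ≤ k' := by
          by_contra hcon
          apply hkk
          constructor <;> omega
        rcases hcase with hc | hc
        · have hc' : (k' : ℝ) + q + 1 ≤ k := by exact_mod_cast hc
          refine le_trans ?_ (le_abs_self _)
          have h1 : c₀ / 2 ^ j ≤ (k : ℝ) / 2 ^ j - ((k' : ℝ) + 1) / 2 ^ j := by
            rw [← sub_div]
            exact div_le_div_of_nonneg_right (by linarith) hN0.le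
          linarith [hxτ.1, hyτ.2]
        · have hc' : (k : ℝ) + q + 1 ≤ k' := by exact_mod_cast hc
          refine le_trans ?_ (neg_le_abs _)
          have h1 : c₀ / 2 ^ j ≤ (k' : ℝ) / 2 ^ j - ((k : ℝ) + 1) / 2 ^ j := by
            rw [← sub_div]
            exact div_le_div_of_nonneg_right (by linarith) hN0.le
          linarith [hxτ.2, hyτ.1]
      have h5 := hK j (x - y) (τ x - τ y) hz hs
      rw [hquart, mul_one_div, le_div_iff₀ (by positivity)]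
      have h6 : ‖egKer j (x - y) (τ x - τ y)‖ * N ^ 2 * N ^ n ≤ C₁ * N ^ n := by
        calc ‖egKer j (x - y) (τ x - τ y)‖ * N ^ 2 * N ^ n = ‖egKer j (x - y) (τ x - τ y)‖ * N ^ (n + 2) := by ring
          _ ≤ C₁ * N ^ n := h5
      exact le_of_mul_le_mul_right h6 (by positivity)
    have h7 := eg_pair_le j (hdP k) (hdP k') (fun _ => C₁ * (1 / 4 : ℝ) ^ j) measurable_const
      (fun _ => by positivity) hkey
    simp only [lintegral_const, Measure.restrict_apply MeasurableSet.univ, Set.univ_inter] at h7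
    have hne : ENNReal.ofReal (C₁ * (1 / 4 : ℝ) ^ j) * volume (P k') * volume (P k) ≠ ∞ :=
      ENNReal.mul_ne_top (ENNReal.mul_ne_top ENNReal.ofReal_ne_top (eg_dat_vol_ne_top (hdP k'))) (eg_dat_vol_ne_top (hdP k))
    rw [ENNReal.ofReal_le_iff_le_toReal hne, ENNReal.toReal_mul, ENNReal.toReal_mul,
      ENNReal.toReal_ofReal (by positivity)] at h7
    calc _ ≤ C₁ * (1 / 4 : ℝ) ^ j * (volume (P k')).toReal * (volume (P k)).toReal := h7
      _ = C₁ * (1 / 4 : ℝ) ^ j * (v k * v k') := by simp only [hv]; ring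
  have hsumv : ∑ k ∈ Finset.range (2 ^ j), v k ≤ V := by
    rw [← eg_vol_sum_pc hd hτ j]
    exact eg_dat_vol_le hd
  have hsumv0 : 0 ≤ ∑ k ∈ Finset.range (2 ^ j), v k := Finset.sum_nonneg fun k _ => hv0 k
  have hE : ∑ k ∈ Finset.range (2 ^ j), ∑ k' ∈ (Finset.range (2 ^ j)).filter (fun k' => ¬ near k k'),
      ‖∫ η, (egChiJ j η : ℂ) * (egGam (P k) τ w η * conj (egGam (P k') τ w η))‖ ≤ C₁ * V ^ 2 * (1 / 4 : ℝ) ^ j := by
    calc _ ≤ ∑ k ∈ Finset.range (2 ^ j), ∑ k' ∈ Finset.range (2 ^ j), C₁ * (1 / 4 : ℝ) ^ j * (v k * v k') := by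
          refine Finset.sum_le_sum fun k _ => ?_
          refine (Finset.sum_le_sum fun k' hk' => hfar k k' (Finset.mem_filter.1 hk').2).trans ?_
          refine Finset.sum_le_sum_of_subset_of_nonneg (Finset.filter_subset _ _) fun k' _ _ => ?_
          exact mul_nonneg (by positivity) (mul_nonneg (hv0 k) (hv0 k'))
      _ = C₁ * (1 / 4 : ℝ) ^ j * (∑ k ∈ Finset.range (2 ^ j), v k) ^ 2 := by
          rw [sq, Finset.sum_mul_sum, Finset.mul_sum]
          refine Finset.sum_congr rfl fun k _ => ?_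
          rw [Finset.mul_sum]
      _ ≤ C₁ * (1 / 4 : ℝ) ^ j * V ^ 2 := by
          refine mul_le_mul_of_nonneg_left ?_ (by positivity)
          exact pow_le_pow_left₀ hsumv0 hsumv 2
      _ = C₁ * V ^ 2 * (1 / 4 : ℝ) ^ j := by ring
  set r : ℝ := N ^ (-(2 * egs n)) with hr
  have hr0 : 0 ≤ r := Real.rpow_nonneg hN0.le _
  have hr1 : r ≤ 1 := Real.rpow_le_one_of_one_le_of_nonpos hN1 (by linarith [eg_s_pos hn])
  have hDA : egD j A τ w = r * ∫ η, egChiJ j η * ‖∑ k ∈ Finset.range (2 ^ j), egGam (P k) τ w η‖ ^ 2 := by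
    unfold egD
    congr 1
    refine integral_congr_ae (Eventually.of_forall fun η => ?_)
    simp only
    rw [eg_Gam_sum_pc hd hτ j η]
  have hDk : ∑ k ∈ Finset.range (2 ^ j), egD j (egPc A τ j k) τ w
      = r * ∑ k ∈ Finset.range (2 ^ j), ∫ η, egChiJ j η * ‖egGam (P k) τ w η‖ ^ 2 := by
    rw [Finset.mul_sum]
    rfl
  have hS0 : 0 ≤ ∑ k ∈ Finset.range (2 ^ j), egD j (egPc A τ j k) τ w := Finset.sum_nonneg fun k _ => eg_D_nonneg _ _ _ _
  have hq0 : (0 : ℝ) ≤ (1 / 4 : ℝ) ^ j := by positivity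
  calc egD j A τ w ≤ r * (((2 * q + 1 : ℕ) : ℝ) * (∑ k ∈ Finset.range (2 ^ j), ∫ η, egChiJ j η * ‖egGam (P k) τ w η‖ ^ 2)
        + C₁ * V ^ 2 * (1 / 4 : ℝ) ^ j) := by
        rw [hDA]
        exact mul_le_mul_of_nonneg_left (horth.trans (by linarith [hE])) hr0
    _ = ((2 * q + 1 : ℕ) : ℝ) * ∑ k ∈ Finset.range (2 ^ j), egD j (egPc A τ j k) τ w + r * (C₁ * V ^ 2 * (1 / 4 : ℝ) ^ j) := by
        rw [hDk]; ring
    _ ≤ ((2 * q + 1 : ℕ) : ℝ) * ∑ k ∈ Finset.range (2 ^ j), egD j (egPc A τ j k) τ w + 1 * (C₁ * V ^ 2 * (1 / 4 : ℝ) ^ j) := by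
        have : 0 ≤ C₁ * V ^ 2 * (1 / 4 : ℝ) ^ j := by positivity
        linarith [mul_le_mul_of_nonneg_right hr1 this]
    _ ≤ (((2 * q + 1 : ℕ) : ℝ) + C₁ * V ^ 2) * ∑ k ∈ Finset.range (2 ^ j), egD j (egPc A τ j k) τ w
        + (((2 * q + 1 : ℕ) : ℝ) + C₁ * V ^ 2) * (1 / 4 : ℝ) ^ j := by
        have h1 : 0 ≤ C₁ * V ^ 2 * ∑ k ∈ Finset.range (2 ^ j), egD j (egPc A τ j k) τ w := by positivity
        have h2 : 0 ≤ ((2 * q + 1 : ℕ) : ℝ) * (1 / 4 : ℝ) ^ j := by positivity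
        nlinarith

end Claimed.Agent.R257
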